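import Mathlib.Topology.Baire.CompleteMetrizable
import Mathlib.Topology.Baire.Lemmas
import Vale.Agent.P084.Inf.Generic

/-!
# P084: a quadratic norm bound from the identity at smooth points
-/

namespace Vale.Agent.P084.Full.AlgebraAux

open Inf Filter Topology Set

variable {E : Type*} [NormedAddCommGroup E] [NormedSpace ℝ E]

/-- The norm moves at most quadratically along `q u x` when `H u x = 0`. -/
def JBound (H : E →L[ℝ] E →L[ℝ] ℝ) (q : E →L[ℝ] E →L[ℝ] E) (D C : ℝ) : Prop :=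
  0 ≤ C ∧ ∀ u x : E, ∀ τ : ℝ,
    ‖x + τ • q u x‖ ≤ ‖x‖ + D * |τ| * |H u x| + C * τ ^ 2 * ‖u‖ ^ 2 * ‖x‖

lemma dense_smooth [CompleteSpace E] [TopologicalSpace.SeparableSpace E] :
    Dense {z : E | Smooth z} := by
  obtain ⟨d, hd⟩ := TopologicalSpace.exists_dense_seq E
  refine Dense.mono ?_ (dense_iInter_of_isOpen (f := fun p : ℕ × ℕ => almostSmooth (d p.1) p.2)
    (fun p => isOpen_almostSmooth _ _) (fun p => dense_almostSmooth _ _))
  intro z hz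
  exact smooth_of_almostSmooth hd fun i m => mem_iInter.1 hz (i, m)

theorem jBound_of_smooth [CompleteSpace E] [TopologicalSpace.SeparableSpace E]
    (H : E →L[ℝ] E →L[ℝ] ℝ) (q : E →L[ℝ] E →L[ℝ] E)
    (hsmooth : ∀ v : E, Smooth v → ∀ u, |Dn v (q u v)| ≤ 2 * |H u v|) :
    JBound H q 2 (2 * ‖H‖ * ‖q‖ + ‖q‖ ^ 2) := by
  refine ⟨by positivity, fun u x τ => ?_⟩
  set w := q u x with hw
  have key : ∀ p : E, ‖p‖ ≤ ‖p - τ • w‖ + |τ| * (2 * |H u p| + ‖w - q u p‖) := by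
    intro p
    refine (isClosed_le (f := fun p : E => ‖p‖)
      (g := fun p : E => ‖p - τ • w‖ + |τ| * (2 * |H u p| + ‖w - q u p‖))
      (by fun_prop) (by fun_prop)).closure_subset_iff.2 ?_ (dense_smooth p)
    intro z (hz : Smooth z)
    have h1 := norm_add_ge z (-(τ • w))
    rw [← sub_eq_add_neg, ← neg_smul, hz.map_smul] at h1
    have h2 : |Dn z w| ≤ 2 * |H u z| + ‖w - q u z‖ := by
      have := abs_Dn_sub_le z w (q u z)
      have := hsmooth z hz u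
      have := abs_sub_abs_le_abs_sub (Dn z w) (Dn z (q u z))
      linarith
    have h3 : τ * Dn z w ≤ |τ| * |Dn z w| := by rw [← abs_mul]; exact le_abs_self _
    have h4 := mul_le_mul_of_nonneg_left h2 (abs_nonneg τ)
    show ‖z‖ ≤ _
    linarith
  have hk := key (x + τ • w)
  rw [add_sub_cancel_right] at hk
  have hq : ∀ y, ‖q u y‖ ≤ ‖q‖ * ‖u‖ * ‖y‖ := fun y => q.le_opNorm₂ u y
  have e1 : |H u (x + τ • w)| ≤ |H u x| + |τ| * (‖H‖ * ‖q‖ * ‖u‖ ^ 2 * ‖x‖) := by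
    rw [map_add, map_smul, smul_eq_mul]
    refine (abs_add_le _ _).trans (add_le_add le_rfl ?_)
    rw [abs_mul]
    refine mul_le_mul_of_nonneg_left ((le_of_eq (Real.norm_eq_abs _).symm).trans
      ((H.le_opNorm₂ u w).trans ?_)) (abs_nonneg _)
    calc ‖H‖ * ‖u‖ * ‖w‖ ≤ ‖H‖ * ‖u‖ * (‖q‖ * ‖u‖ * ‖x‖) := by gcongr; exact hq x
      _ = ‖H‖ * ‖q‖ * ‖u‖ ^ 2 * ‖x‖ := by ring
  have e2 : ‖w - q u (x + τ • w)‖ ≤ |τ| * (‖q‖ ^ 2 * ‖u‖ ^ 2 * ‖x‖) := by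
    rw [map_add, map_smul, ← hw, sub_add_cancel_left, norm_neg, norm_smul, Real.norm_eq_abs]
    refine mul_le_mul_of_nonneg_left ((hq w).trans ?_) (abs_nonneg _)
    calc ‖q‖ * ‖u‖ * ‖w‖ ≤ ‖q‖ * ‖u‖ * (‖q‖ * ‖u‖ * ‖x‖) := by gcongr; exact hq x
      _ = ‖q‖ ^ 2 * ‖u‖ ^ 2 * ‖x‖ := by ring
  have e3 : |τ| * (2 * |H u (x + τ • w)| + ‖w - q u (x + τ • w)‖)
      ≤ |τ| * (2 * |H u x| + |τ| * ((2 * ‖H‖ * ‖q‖ + ‖q‖ ^ 2) * ‖u‖ ^ 2 * ‖x‖)) :=
    mul_le_mul_of_nonneg_left (by linarith) (abs_nonneg _)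
  have e4 : |τ| * |τ| = τ ^ 2 := by rw [← sq, sq_abs]
  linear_combination hk + e3 + ((2 * ‖H‖ * ‖q‖ + ‖q‖ ^ 2) * ‖u‖ ^ 2 * ‖x‖) * e4

/-- A quadratic upper bound makes the norm minimal. -/
lemma norm_le_of_upper {x w : E} {K : ℝ} (hK : 0 ≤ K) (h : ∀ τ : ℝ, ‖x + τ • w‖ ≤ ‖x‖ + K * τ ^ 2)
    (s : ℝ) : ‖x‖ ≤ ‖x + s • w‖ := by
  refine le_of_forall_pos_le_add fun ε hε => ?_
  rcases eq_or_ne s 0 with rfl | hs
  · simp only [zero_smul, add_zero]; linarith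
  set t := ε / (K * s ^ 2 + ε) with ht
  have hd : 0 < K * s ^ 2 + ε := by positivity
  have ht0 : 0 < t := div_pos hε hd
  have h1 := h (-(t * s))
  have h2 : ‖x + t • x‖ ≤ ‖x + -(t * s) • w‖ + t * ‖x + s • w‖ := by
    rw [show x + t • x = (x + -(t * s) • w) + t • (x + s • w) by module]
    refine (norm_add_le _ _).trans (le_of_eq ?_)
    rw [norm_smul, Real.norm_of_nonneg ht0.le]
  rw [show x + t • x = (1 + t) • x by module, norm_smul,
    Real.norm_of_nonneg (by positivity)] at h2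
  have h3 : K * (t * s ^ 2) ≤ ε := by
    rw [ht, div_mul_eq_mul_div, mul_div_assoc', div_le_iff₀ hd]
    nlinarith [mul_nonneg hε.le (sq_nonneg s)]
  refine le_of_mul_le_mul_left ?_ ht0
  nlinarith

end Vale.Agent.P084.Full.AlgebraAux
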