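import Mathlib.Analysis.ODE.ExistUnique
import Mathlib.Analysis.Calculus.MeanValue
import Mathlib.Analysis.Normed.Affine.MazurUlam
import Mathlib.Analysis.Normed.Module.Basic

/-!
# P084: flows of vector fields which preserve a norm

A homogeneous Lipschitz-on-balls field `F` with `‖x‖ ≤ ‖x + s F x‖` for all `s` has solutions of
constant norm on every time interval.
-/

namespace Vale.Agent.P084.Full.AlgebraFlow

open Set Filter Topology Metric
open scoped NNReal

variable {E : Type*} [NormedAddCommGroup E] [NormedSpace ℝ E]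

/-- The norm decreases at most at rate `η` along a curve whose velocity is `η`-close to a vector
orthogonal to it. -/
lemma norm_le_of_approx_orth {a b η : ℝ} (hab : a ≤ b) {y v r₀ : ℝ → E}
    (hy : ∀ t ∈ Icc a b, HasDerivWithinAt y (v t) (Icc a b) t)
    (ho : ∀ t ∈ Icc a b, ∀ s : ℝ, ‖y t‖ ≤ ‖y t + s • r₀ t‖)
    (hη : ∀ t ∈ Icc a b, ‖v t - r₀ t‖ ≤ η) : ‖y a‖ ≤ ‖y b‖ + η * (b - a) := by
  have hc : ContinuousOn (fun t => -‖y t‖) (Icc a b) :=
    (ContinuousOn.norm fun t ht => (hy t ht).continuousWithinAt).neg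
  refine le_of_forall_pos_le_add fun ε hε => ?_
  set δ := ε / (b - a + 1) with hδ
  have hδ0 : 0 < δ := div_pos hε (by linarith)
  have key := image_le_of_liminf_slope_right_lt_deriv_boundary (f' := fun _ => η) hc (fun x hx r hr => by
    have hd : HasDerivWithinAt y (v x) (Ioi x) x :=
      ((hy x ⟨hx.1, hx.2.le⟩).mono_of_mem_nhdsWithin (Icc_mem_nhdsGE_of_mem hx)).mono Ioi_subset_Ici_self
    have hd' : Tendsto (fun z => slope y x z) (𝓝[>] x) (𝓝 (v x)) :=
      (hasDerivWithinAt_iff_tendsto_slope' self_notMem_Ioi).1 hd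
    refine Eventually.frequently ?_
    filter_upwards [Metric.tendsto_nhds.1 hd' (r - η) (sub_pos.2 hr), self_mem_nhdsWithin] with z hz
      (hzx : x < z)
    have h1 := ho x ⟨hx.1, hx.2.le⟩ (z - x)
    have hp : 0 < z - x := sub_pos.2 hzx
    have h2 : ‖y x + (z - x) • r₀ x‖ ≤ ‖y z‖ + (z - x) * (‖slope y x z - v x‖ + η) := by
      have e : y x + (z - x) • r₀ x = y z - (z - x) • (slope y x z - v x + (v x - r₀ x)) := by
        rw [smul_add, smul_sub, smul_sub, slope_def_module, smul_inv_smul₀ hp.ne']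
        abel
      rw [e]
      refine (norm_sub_le _ _).trans (add_le_add le_rfl ?_)
      rw [norm_smul, Real.norm_of_nonneg hp.le]
      exact mul_le_mul_of_nonneg_left
        ((norm_add_le _ _).trans (add_le_add le_rfl (hη x ⟨hx.1, hx.2.le⟩))) hp.le
    rw [dist_eq_norm] at hz
    rw [slope_def_field, div_lt_iff₀ hp]
    nlinarith [mul_lt_mul_of_pos_left hz hp])
    (B := fun t => -‖y a‖ + (η + δ) * (t - a)) (B' := fun _ => η + δ) (by simp)
    (fun x => by simpa using (((hasDerivAt_id x).sub_const a).const_mul (η + δ)).const_add (-‖y a‖))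
    (fun _ _ _ => by linarith) (right_mem_Icc.2 hab)
  have h3 : δ * (b - a) ≤ ε := by
    rw [hδ, div_mul_eq_mul_div, div_le_iff₀ (by linarith)]
    nlinarith
  linarith

/-- The norm does not decrease along a curve whose velocity is orthogonal to it. -/
lemma norm_le_of_orth {a b : ℝ} (hab : a ≤ b) {y v : ℝ → E}
    (hy : ∀ t ∈ Icc a b, HasDerivWithinAt y (v t) (Icc a b) t)
    (ho : ∀ t ∈ Icc a b, ∀ s : ℝ, ‖y t‖ ≤ ‖y t + s • v t‖) : ‖y a‖ ≤ ‖y b‖ := by
  have := norm_le_of_approx_orth (η := 0) hab hy ho (fun t _ => by simp)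
  simpa using this

/-- The norm is constant along a curve whose velocity is orthogonal to it. -/
lemma norm_eq_of_orth {a b : ℝ} (hab : a ≤ b) {y v : ℝ → E}
    (hy : ∀ t ∈ Icc a b, HasDerivWithinAt y (v t) (Icc a b) t)
    (ho : ∀ t ∈ Icc a b, ∀ s : ℝ, ‖y t‖ ≤ ‖y t + s • v t‖) : ‖y b‖ = ‖y a‖ := by
  refine le_antisymm ?_ (norm_le_of_orth hab hy ho)
  have hmem : ∀ t ∈ Icc a b, a + b - t ∈ Icc a b := fun t ht => ⟨by linarith [ht.2], by linarith [ht.1]⟩
  have := norm_le_of_orth hab (y := fun t => y (a + b - t)) (v := fun t => -v (a + b - t))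
    (fun t ht => by
      have h := (hy _ (hmem t ht)).scomp t (((hasDerivAt_id' t).const_sub (a + b)).hasDerivWithinAt)
        hmem
      rw [neg_one_smul] at h
      exact h)
    (fun t ht s => by
      have := ho _ (hmem t ht) (-s)
      simpa [neg_smul, smul_neg] using this)
  simpa using this

variable [CompleteSpace E]

/-- A bounded Lipschitz field has solutions on every interval. -/
lemma exists_sol {f : E → E} {L K : ℝ≥0} (hb : ∀ x, ‖f x‖ ≤ L) (hl : LipschitzWith K f) (x₀ : E)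
    {T : ℝ} (hT : 0 ≤ T) :
    ∃ y : ℝ → E, y 0 = x₀ ∧ ∀ t ∈ Icc (-T) T, HasDerivWithinAt y (f (y t)) (Icc (-T) T) t := by
  have hpl : IsPicardLindelof (fun _ : ℝ => f) (tmin := -T) (tmax := T)
      ⟨0, by simp [hT]⟩ x₀ (L * T.toNNReal) 0 L K :=
    IsPicardLindelof.of_time_independent (fun x _ => hb x) (hl.lipschitzOnWith) (by
      simp [Real.coe_toNNReal _ hT])
  exact IsPicardLindelof.exists_eq_forall_mem_Icc_hasDerivWithinAt₀ hpl

omit [CompleteSpace E] in
/-- Solutions are unique. -/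
lemma sol_unique {f : E → E} {K : ℝ≥0} (hl : LipschitzWith K f) {a b : ℝ} {y z : ℝ → E}
    (hy : ∀ t ∈ Icc a b, HasDerivWithinAt y (f (y t)) (Icc a b) t)
    (hz : ∀ t ∈ Icc a b, HasDerivWithinAt z (f (z t)) (Icc a b) t) (h : y a = z a)
    {t : ℝ} (ht : t ∈ Icc a b) : y t = z t := by
  have hd : ∀ {w : ℝ → E}, (∀ t ∈ Icc a b, HasDerivWithinAt w (f (w t)) (Icc a b) t) →
      ∀ t ∈ Ico a b, HasDerivWithinAt w (f (w t)) (Ici t) t := fun hw t ht =>
    (hw t ⟨ht.1, ht.2.le⟩).mono_of_mem_nhdsWithin (Icc_mem_nhdsGE_of_mem ht)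
  have := dist_le_of_trajectories_ODE (v := fun _ => f) (δ := 0) (fun _ => hl)
    (fun t ht => (hy t ht).continuousWithinAt) (hd hy)
    (fun t ht => (hz t ht).continuousWithinAt) (hd hz) (by rw [h, dist_self]) t ht
  rw [zero_mul] at this
  exact dist_le_zero.1 this

/-- The radial retraction to the ball of radius `R`. -/
noncomputable def retr (R : ℝ) (x : E) : E := (R / max R ‖x‖) • x

omit [CompleteSpace E] in
lemma norm_retr_le {R : ℝ} (hR : 0 < R) (x : E) : ‖retr R x‖ ≤ R := by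
  have hm : 0 < max R ‖x‖ := lt_max_of_lt_left hR
  rw [retr, norm_smul, Real.norm_of_nonneg (by positivity), div_mul_eq_mul_div, div_le_iff₀ hm]
  exact mul_le_mul_of_nonneg_left (le_max_right _ _) hR.le

omit [CompleteSpace E] in
lemma retr_eq {R : ℝ} (hR : 0 < R) {x : E} (hx : ‖x‖ ≤ R) : retr R x = x := by
  rw [retr, max_eq_left hx, div_self hR.ne', one_smul]

omit [CompleteSpace E] in
lemma lipschitz_retr {R : ℝ} (hR : 0 < R) : LipschitzWith 2 (retr R : E → E) := by
  refine LipschitzWith.of_dist_le_mul fun x y => ?_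
  rw [dist_eq_norm, dist_eq_norm, NNReal.coe_ofNat]
  set p := max R ‖x‖
  set r := max R ‖y‖
  have hp : 0 < p := lt_max_of_lt_left hR
  have hr : 0 < r := lt_max_of_lt_left hR
  have e : retr R x - retr R y = (R / p) • (x - y) + (R / p - R / r) • y := by
    simp only [retr]; module
  rw [e]
  refine (norm_add_le _ _).trans ?_
  have h1 : ‖(R / p) • (x - y)‖ ≤ ‖x - y‖ := by
    rw [norm_smul, Real.norm_of_nonneg (by positivity)]
    exact mul_le_of_le_one_left (norm_nonneg _) ((div_le_one hp).2 (le_max_left _ _))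
  have h2 : ‖(R / p - R / r) • y‖ ≤ ‖x - y‖ := by
    have hpr : |r - p| ≤ ‖x - y‖ := by
      refine le_trans ?_ ((abs_norm_sub_norm_le y x).trans_eq (norm_sub_rev y x))
      have := abs_max_sub_max_le_max R ‖y‖ R ‖x‖
      simpa using this
    rw [norm_smul, Real.norm_eq_abs, div_sub_div _ _ hp.ne' hr.ne', ← mul_comm R p, ← mul_sub,
      abs_div, abs_mul, abs_of_pos hR, abs_of_pos (mul_pos hp hr), div_mul_eq_mul_div,
      div_le_iff₀ (mul_pos hp hr)]
    have a1 : R ≤ p := le_max_left _ _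
    have a2 : ‖y‖ ≤ r := le_max_right _ _
    calc R * |r - p| * ‖y‖ ≤ p * ‖x - y‖ * r := by gcongr
      _ = ‖x - y‖ * (p * r) := by ring
  linarith

/-- A homogeneous field which is orthogonal to the position vector has solutions of constant norm
on every interval. -/
lemma exists_orth_sol {F : E → E} {n : ℕ} (hhom : ∀ (c : ℝ) x, 0 < c → F (c • x) = c ^ n • F x)
    (ho : ∀ x (s : ℝ), ‖x‖ ≤ ‖x + s • F x‖)
    (hF : ∀ R : ℝ, 0 < R → ∃ L K : ℝ≥0, (∀ x, ‖x‖ ≤ R → ‖F x‖ ≤ L) ∧
      LipschitzOnWith K F (closedBall 0 R)) (x₀ : E) {T : ℝ} (hT : 0 ≤ T) :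
    ∃ y : ℝ → E, y 0 = x₀ ∧ (∀ t ∈ Icc (-T) T, HasDerivWithinAt y (F (y t)) (Icc (-T) T) t) ∧
      ∀ t ∈ Icc (-T) T, ‖y t‖ = ‖x₀‖ := by
  set R := ‖x₀‖ + 1 with hR
  have hR0 : 0 < R := by positivity
  obtain ⟨L, K, hL, hK⟩ := hF R hR0
  have hmem : ∀ x : E, retr R x ∈ closedBall (0 : E) R := fun x =>
    mem_closedBall_zero_iff.2 (norm_retr_le hR0 x)
  have hlip : LipschitzWith (K * 2) fun x => F (retr R x) :=
    lipschitzOnWith_univ.1 (hK.comp (lipschitz_retr hR0).lipschitzOnWith fun x _ => hmem x)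
  obtain ⟨y, hy0, hy⟩ := exists_sol (f := fun x => F (retr R x))
    (fun x => hL _ (norm_retr_le hR0 x)) hlip x₀ hT
  have ho' : ∀ x (s : ℝ), ‖x‖ ≤ ‖x + s • F (retr R x)‖ := fun x s => by
    rw [retr, hhom _ _ (div_pos hR0 (lt_max_of_lt_left hR0)), smul_smul]
    exact ho _ _
  have hnorm : ∀ t ∈ Icc (-T) T, ‖y t‖ = ‖x₀‖ := by
    intro t ht
    rcases le_total 0 t with h | h
    · have hsub : Icc 0 t ⊆ Icc (-T) T := Icc_subset_Icc (by linarith) ht.2
      rw [norm_eq_of_orth h (fun u hu => (hy u (hsub hu)).mono hsub) (fun u _ s => ho' _ s), hy0]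
    · have hsub : Icc t 0 ⊆ Icc (-T) T := Icc_subset_Icc ht.1 hT
      rw [← norm_eq_of_orth h (fun u hu => (hy u (hsub hu)).mono hsub) (fun u _ s => ho' _ s), hy0]
  refine ⟨y, hy0, fun t ht => ?_, hnorm⟩
  have := hy t ht
  rwa [retr_eq hR0 (by rw [hnorm t ht, hR]; linarith)] at this

omit [CompleteSpace E] [NormedSpace ℝ E] in
/-- A bounded function with nonnegative second derivative on long intervals is flat. -/
lemma deriv_eq_zero_of_convex_bdd {c B : ℝ} (h : ∀ T : ℝ, 0 < T → ∃ f f₁ f₂ : ℝ → ℝ,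
      (∀ t ∈ Icc (-T) T, HasDerivWithinAt f (f₁ t) (Icc (-T) T) t) ∧
      (∀ t ∈ Icc (-T) T, HasDerivWithinAt f₁ (f₂ t) (Icc (-T) T) t) ∧
      (∀ t ∈ Icc (-T) T, 0 ≤ f₂ t ∧ |f t| ≤ B) ∧ f₁ 0 = c) : c = 0 := by
  by_contra hc
  have hB : 0 ≤ B := by
    obtain ⟨f, f₁, f₂, -, -, h3, -⟩ := h 1 one_pos
    exact (abs_nonneg _).trans (h3 0 (by simp)).2
  set T := (2 * B + 1) / |c| with hT
  have hT0 : 0 < T := div_pos (by linarith) (abs_pos.2 hc)
  obtain ⟨f, f₁, f₂, h1, h2, h3, h4⟩ := h T hT0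
  have hint : ∀ t ∈ interior (Icc (-T) T), t ∈ Icc (-T) T := fun t ht => interior_subset ht
  have hmono : MonotoneOn f₁ (Icc (-T) T) :=
    monotoneOn_of_hasDerivWithinAt_nonneg (convex_Icc _ _)
      (fun t ht => (h2 t ht).continuousWithinAt)
      (fun t ht => (h2 t (hint t ht)).mono interior_subset) (fun t ht => (h3 t (hint t ht)).1)
  have hg : ∀ t ∈ Icc (-T) T,
      HasDerivWithinAt (fun t => f t - c * t) (f₁ t - c) (Icc (-T) T) t := fun t ht => by
    have := (h1 t ht).sub (((hasDerivAt_id' t).const_mul c).hasDerivWithinAt)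
    rw [mul_one] at this
    exact this
  have hsub1 : Icc 0 T ⊆ Icc (-T) T := Icc_subset_Icc (by linarith) le_rfl
  have hsub2 : Icc (-T) 0 ⊆ Icc (-T) T := Icc_subset_Icc le_rfl hT0.le
  have e1 := monotoneOn_of_hasDerivWithinAt_nonneg (convex_Icc 0 T)
    (fun t ht => ((hg t (hsub1 ht)).mono hsub1).continuousWithinAt)
    (fun t ht => (hg t (hsub1 (interior_subset ht))).mono (interior_subset.trans hsub1))
    (fun t ht => by
      have := hmono (by simp [hT0.le]) (hsub1 (interior_subset ht)) (interior_subset ht).1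
      linarith) (left_mem_Icc.2 hT0.le) (right_mem_Icc.2 hT0.le) hT0.le
  have e2 := antitoneOn_of_hasDerivWithinAt_nonpos (convex_Icc (-T) 0)
    (fun t ht => ((hg t (hsub2 ht)).mono hsub2).continuousWithinAt)
    (fun t ht => (hg t (hsub2 (interior_subset ht))).mono (interior_subset.trans hsub2))
    (fun t ht => by
      have := hmono (hsub2 (interior_subset ht)) (by simp [hT0.le]) (interior_subset ht).2
      linarith) (left_mem_Icc.2 (by linarith)) (right_mem_Icc.2 (by linarith)) (by linarith : -T ≤ 0)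
  simp only [mul_zero, sub_zero] at e1 e2
  have b1 := abs_le.1 (h3 T (by simp [hT0.le])).2
  have b2 := abs_le.1 (h3 (-T) (by simp [hT0.le])).2
  have b3 := abs_le.1 (h3 0 (by simp [hT0.le])).2
  have key : |c| * T = 2 * B + 1 := by rw [hT, mul_div_cancel₀ _ (abs_ne_zero.2 hc)]
  rcases abs_choice c with hcs | hcs <;> rw [hcs] at key <;> linarith

end Vale.Agent.P084.Full.AlgebraFlow
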