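import Mathlib.Analysis.Calculus.Deriv.Mul
import Mathlib.Analysis.Calculus.Deriv.Pow
import Vale.Agent.P084.Full.AlgebraFlow
import Vale.Agent.P084.Full.AlgebraBound

/-!
# P084: second-order steps along the fields which preserve the norm, and the first identities at a
maximiser
-/

namespace Vale.Agent.P084.Full.AlgebraAux

open Filter Topology Set

variable {E : Type*} [NormedAddCommGroup E] [NormedSpace ℝ E]

/-- A second order step along the field `x ↦ B x x`. -/
noncomputable def step (B : E →L[ℝ] E →L[ℝ] E) (c : ℝ) (x : E) : E :=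
  x + c • B x x + (c ^ 2 / 2) • (B x (B x x) + B (B x x) x)

lemma norm_step_le (B : E →L[ℝ] E →L[ℝ] E) (ho : ∀ x (s : ℝ), ‖x‖ ≤ ‖x + s • B x x‖) :
    ∃ K : ℝ, 0 ≤ K ∧ ∀ x : E, ∀ c : ℝ, ‖x‖ ≤ 2 → |c| ≤ 1 → ‖step B c x‖ ≤ ‖x‖ + K * |c| ^ 3 := by
  set b := ‖B‖ with hb
  have hB : ∀ u v : E, ‖B u v‖ ≤ b * ‖u‖ * ‖v‖ := fun u v => B.le_opNorm₂ u v
  set A₀ := b * 2 * 2 with hA₀
  set A₁ := 2 * (b * 2 * A₀) with hA₁
  set A₂ := A₀ + A₁ with hA₂
  refine ⟨2 * (b * 2 * A₁) + b * A₂ * A₂, by positivity, fun x c hx hc => ?_⟩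
  set F := B x x with hF
  set D := B x F + B F x with hD
  have hFn : ‖F‖ ≤ A₀ := (hB x x).trans (by rw [hA₀]; gcongr)
  have hDn : ‖D‖ ≤ A₁ := by
    refine (norm_add_le _ _).trans ?_
    rw [hA₁, two_mul]
    refine add_le_add ((hB x F).trans (by gcongr)) ((hB F x).trans ?_)
    calc b * ‖F‖ * ‖x‖ ≤ b * A₀ * 2 := by gcongr
      _ = b * 2 * A₀ := by ring
  -- the curve, in forward time
  set σ : ℝ := if 0 ≤ c then 1 else -1 with hσ
  have hσ2 : σ * σ = 1 := by rw [hσ]; split <;> norm_num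
  have hσc : σ * |c| = c := by
    rw [hσ]; split
    · rw [one_mul, abs_of_nonneg ‹_›]
    · rw [abs_of_neg (not_le.1 ‹_›)]; ring
  set Q : ℝ → E := fun s => x + (σ * s) • F + (s ^ 2 / 2) • D with hQ
  set δ : ℝ → E := fun s => (σ * s) • F + (s ^ 2 / 2) • D with hδ
  have hQ' : ∀ s, HasDerivAt Q (σ • F + s • D) s := by
    intro s
    have h1 : HasDerivAt (fun s : ℝ => σ * s) σ s := by simpa using (hasDerivAt_id s).const_mul σ
    have h2 : HasDerivAt (fun s : ℝ => s ^ 2 / 2) s s := by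
      simpa using ((hasDerivAt_pow 2 s).div_const 2)
    exact ((h1.smul_const F).const_add x).add (h2.smul_const D)
  have hclose : ∀ s ∈ Icc (0 : ℝ) |c|, ‖(σ • F + s • D) - σ • B (Q s) (Q s)‖
      ≤ (2 * (b * 2 * A₁) + b * A₂ * A₂) * c ^ 2 := by
    intro s hs
    have hs1 : s ≤ 1 := hs.2.trans hc
    have hs2 : s ^ 2 ≤ c ^ 2 := by rw [← sq_abs c]; exact pow_le_pow_left₀ hs.1 hs.2 2
    have hss : s ^ 2 ≤ s := by nlinarith [hs.1]
    have hδn : ‖δ s‖ ≤ A₂ * s := by
      refine (norm_add_le _ _).trans ?_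
      rw [norm_smul, norm_smul, Real.norm_eq_abs, Real.norm_of_nonneg (by positivity : 0 ≤ s ^ 2 / 2),
        abs_mul, abs_of_nonneg hs.1]
      have hσ1 : |σ| = 1 := by rw [hσ]; split <;> norm_num
      rw [hσ1, one_mul, hA₂, add_mul]
      refine add_le_add ((mul_le_mul_of_nonneg_left hFn hs.1).trans_eq (mul_comm _ _)) ?_
      calc s ^ 2 / 2 * ‖D‖ ≤ s * A₁ :=
            mul_le_mul (by linarith [sq_nonneg s]) hDn (norm_nonneg _) hs.1
        _ = A₁ * s := mul_comm _ _
    have e : (σ • F + s • D) - σ • B (Q s) (Q s) =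
        -((σ * s ^ 2 / 2) • (B x D + B D x) + σ • B (δ s) (δ s)) := by
      have e1 : Q s = x + δ s := by simp only [hQ, hδ]; abel
      have e3 : B x (δ s) + B (δ s) x = (σ * s) • D + (s ^ 2 / 2) • (B x D + B D x) := by
        simp only [hδ, map_add, map_smul, add_apply,
          smul_apply, hD]
        module
      rw [e1, map_add, map_add, add_apply,
        add_apply]
      rw [show σ • (B x x + B (δ s) x + (B x (δ s) + B (δ s) (δ s))) =
        σ • F + σ • (B x (δ s) + B (δ s) x) + σ • B (δ s) (δ s) by rw [hF]; module, e3]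
      rw [show σ • ((σ * s) • D + (s ^ 2 / 2) • (B x D + B D x)) =
        (σ * σ) • (s • D) + (σ * s ^ 2 / 2) • (B x D + B D x) by module, hσ2]
      module
    rw [e, norm_neg]
    refine (norm_add_le _ _).trans ?_
    rw [norm_smul, norm_smul, Real.norm_eq_abs, Real.norm_eq_abs]
    have hσ1 : |σ| = 1 := by rw [hσ]; split <;> norm_num
    rw [abs_div, abs_mul, hσ1, one_mul, one_mul, abs_of_nonneg (sq_nonneg s), abs_two, add_mul]
    refine add_le_add ?_ ?_
    · have hBD : ‖B x D + B D x‖ ≤ 2 * (b * 2 * A₁) := by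
        refine (norm_add_le _ _).trans ?_
        rw [two_mul]
        refine add_le_add ((hB x D).trans (by gcongr)) ((hB D x).trans ?_)
        calc b * ‖D‖ * ‖x‖ ≤ b * A₁ * 2 := by gcongr
          _ = b * 2 * A₁ := by ring
      calc s ^ 2 / 2 * ‖B x D + B D x‖ ≤ c ^ 2 * (2 * (b * 2 * A₁)) :=
            mul_le_mul (by linarith [sq_nonneg s]) hBD (norm_nonneg _) (sq_nonneg c)
        _ = 2 * (b * 2 * A₁) * c ^ 2 := mul_comm _ _
    · calc ‖B (δ s) (δ s)‖ ≤ b * ‖δ s‖ * ‖δ s‖ := hB _ _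
        _ ≤ b * (A₂ * s) * (A₂ * s) := by
          have : 0 ≤ A₂ * s := le_trans (norm_nonneg _) hδn
          gcongr
        _ = b * A₂ * A₂ * s ^ 2 := by ring
        _ ≤ b * A₂ * A₂ * c ^ 2 := by gcongr
  -- reversed time
  have key := AlgebraFlow.norm_le_of_approx_orth (η := (2 * (b * 2 * A₁) + b * A₂ * A₂) * c ^ 2)
    (abs_nonneg c) (y := fun t => Q (|c| - t)) (v := fun t => -(σ • F + (|c| - t) • D))
    (r₀ := fun t => -(σ • B (Q (|c| - t)) (Q (|c| - t))))
    (fun t _ => by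
      have := (hQ' (|c| - t)).scomp t ((hasDerivAt_id' t).const_sub |c|)
      rw [neg_one_smul] at this
      exact this.hasDerivWithinAt)
    (fun t _ s => by
      have := ho (Q (|c| - t)) (-(s * σ))
      rwa [smul_neg, smul_smul, ← neg_smul])
    (fun t ht => by
      rw [neg_sub_neg, norm_sub_rev]
      exact hclose _ ⟨by linarith [ht.2], by linarith [ht.1]⟩)
  have e0 : Q 0 = x := by simp [hQ]
  have ec : Q |c| = step B c x := by simp only [hQ, step, hσc, sq_abs, hD, hF]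
  simp only [sub_zero, sub_self, e0, ec] at key
  refine key.trans_eq ?_
  have e3 : c ^ 2 * |c| = |c| ^ 3 := by rw [← sq_abs c]; ring
  rw [mul_assoc, e3]

/-- Second order expansion at `e`. -/
def Expansion (e : E) (x : ℝ → E) (a b : E) : Prop :=
  Tendsto (fun τ : ℝ => (τ ^ 2)⁻¹ • (x τ - e - τ • a)) (𝓝[≠] 0) (𝓝 b)

lemma Expansion.const (e : E) : Expansion e (fun _ => e) 0 0 := by
  simp only [Expansion, sub_self, smul_zero]
  exact tendsto_const_nhds

lemma tendsto_id_punctured : Tendsto (fun τ : ℝ => τ) (𝓝[≠] 0) (𝓝 0) :=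
  tendsto_nhdsWithin_of_tendsto_nhds tendsto_id

lemma Expansion.slope {e a b : E} {x : ℝ → E} (h : Expansion e x a b) :
    Tendsto (fun τ : ℝ => τ⁻¹ • (x τ - e)) (𝓝[≠] 0) (𝓝 a) := by
  have h1 := (tendsto_id_punctured.smul h).const_add a
  rw [zero_smul, add_zero] at h1
  refine h1.congr' ?_
  filter_upwards [self_mem_nhdsWithin] with τ (hτ : τ ≠ 0)
  rw [smul_smul, show τ * (τ ^ 2)⁻¹ = τ⁻¹ by field_simp, smul_sub _ (x τ - e), smul_smul,
    inv_mul_cancel₀ hτ, one_smul]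
  abel

lemma Expansion.tendsto {e a b : E} {x : ℝ → E} (h : Expansion e x a b) :
    Tendsto x (𝓝[≠] 0) (𝓝 e) := by
  have h1 := (tendsto_id_punctured.smul h.slope).const_add e
  rw [zero_smul, add_zero] at h1
  refine h1.congr' ?_
  filter_upwards [self_mem_nhdsWithin] with τ (hτ : τ ≠ 0)
  rw [smul_inv_smul₀ hτ]
  abel

lemma Expansion.step {e a b : E} {x : ℝ → E} (h : Expansion e x a b) (B : E →L[ℝ] E →L[ℝ] E)
    (c : ℝ) : Expansion e (fun τ => step B (c * τ) (x τ)) (a + c • B e e)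
      (b + c • (B e a + B a e) + (c ^ 2 / 2) • (B e (B e e) + B (B e e) e)) := by
  have hc2 : Continuous fun y : E => B y (B y y) + B (B y y) y := by fun_prop
  have h1 : Tendsto (fun τ => (B e (τ⁻¹ • (x τ - e)) + B (τ⁻¹ • (x τ - e)) e) +
      B (τ⁻¹ • (x τ - e)) (x τ - e)) (𝓝[≠] 0) (𝓝 (B e a + B a e)) := by
    have hl := (((B e).continuous.tendsto a).comp h.slope).add
      (((B.flip e).continuous.tendsto a).comp h.slope)
    have hb : Tendsto (fun τ => B (τ⁻¹ • (x τ - e)) (x τ - e)) (𝓝[≠] 0) (𝓝 0) := by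
      have hc : Continuous fun p : E × E => B p.1 p.2 := by fun_prop
      have := (hc.tendsto (a, 0)).comp
        (h.slope.prodMk_nhds (tendsto_sub_nhds_zero_iff.2 h.tendsto))
      simpa [Function.comp_def] using this
    simpa [Function.comp_def] using hl.add hb
  have h2 := (h.add (h1.const_smul c)).add (((hc2.tendsto e).comp h.tendsto).const_smul (c ^ 2 / 2))
  refine h2.congr' ?_
  filter_upwards [self_mem_nhdsWithin] with τ (hτ : τ ≠ 0)
  simp only [Function.comp_apply, AlgebraAux.step]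
  have e1 : B (x τ) (x τ) =
      B e e + (B e (x τ - e) + B (x τ - e) e + B (x τ - e) (x τ - e)) := by
    simp only [map_sub, sub_apply]
    abel
  rw [show x τ + (c * τ) • B (x τ) (x τ) +
      ((c * τ) ^ 2 / 2) • (B (x τ) (B (x τ) (x τ)) + B (B (x τ) (x τ)) (x τ)) - e
        - τ • (a + c • B e e) = (x τ - e - τ • a) + (c * τ) • (B (x τ) (x τ) - B e e) +
      (τ ^ 2 * (c ^ 2 / 2)) • (B (x τ) (B (x τ) (x τ)) + B (B (x τ) (x τ)) (x τ)) by module]
  rw [e1, add_sub_cancel_left, ← e1]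
  simp only [map_smul, smul_apply, smul_add, smul_smul]
  rw [show (τ ^ 2)⁻¹ * (c * τ) = c * τ⁻¹ by field_simp,
    show (τ ^ 2)⁻¹ * (τ ^ 2 * (c ^ 2 / 2)) = c ^ 2 / 2 by field_simp]

lemma Expansion.norm_step {e a b : E} {x : ℝ → E} (h : Expansion e x a b) (he : ‖e‖ = 1)
    {B : E →L[ℝ] E →L[ℝ] E} (ho : ∀ x (s : ℝ), ‖x‖ ≤ ‖x + s • B x x‖) (c : ℝ)
    (hn : ∃ K : ℝ, ∀ᶠ τ in 𝓝[≠] 0, ‖x τ‖ ≤ 1 + K * |τ| ^ 3) :
    ∃ K : ℝ, ∀ᶠ τ in 𝓝[≠] 0, ‖AlgebraAux.step B (c * τ) (x τ)‖ ≤ 1 + K * |τ| ^ 3 := by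
  obtain ⟨K, hK⟩ := hn
  obtain ⟨K', -, hK'⟩ := norm_step_le B ho
  refine ⟨K + K' * |c| ^ 3, ?_⟩
  have h2 : ∀ᶠ τ in 𝓝[≠] (0 : ℝ), ‖x τ‖ ≤ 2 :=
    h.tendsto.norm.eventually (Iic_mem_nhds (by rw [he]; norm_num))
  have h3 : ∀ᶠ τ in 𝓝[≠] (0 : ℝ), |c * τ| ≤ 1 :=
    ((tendsto_id_punctured.const_mul c).abs).eventually (Iic_mem_nhds (by norm_num))
  filter_upwards [hK, h2, h3] with τ t1 t2 t3
  refine (hK' _ _ t2 t3).trans ?_
  rw [abs_mul, mul_pow]
  linarith

/-- A maximiser of `H x x` on the unit ball, for a jet with the quadratic bound. -/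
structure Maxi (H : E →L[ℝ] E →L[ℝ] ℝ) (q : E →L[ℝ] E →L[ℝ] E) (e : E) : Prop where
  hsym : ∀ u x, H u x = H x u
  hpos : ∀ u, 0 ≤ H u u
  qsym : ∀ u x, q u x = q x u
  jbound : ∃ D C, JBound H q D C
  norm_e : ‖e‖ = 1
  He : H e e = 1
  max : ∀ x, H x x ≤ ‖x‖ ^ 2

namespace Maxi

variable {H : E →L[ℝ] E →L[ℝ] ℝ} {q : E →L[ℝ] E →L[ℝ] E} {e : E} (hM : Maxi H q e)
include hM

lemma orth {u x : E} (h : H u x = 0) (s : ℝ) : ‖x‖ ≤ ‖x + s • q u x‖ := by
  obtain ⟨D, C, hC, hJ⟩ := hM.jbound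
  refine norm_le_of_upper (K := C * ‖u‖ ^ 2 * ‖x‖) (by positivity) (fun τ => ?_) s
  have := hJ u x τ
  rw [h, abs_zero, mul_zero, add_zero] at this
  linarith

lemma eq_of_sq {u v : E} (h : H u u = 0) : H u v = 0 := by
  by_contra hv
  have key : ∀ t : ℝ, 0 ≤ 2 * t * H u v + H v v := fun t => by
    have := hM.hpos (t • u + v)
    simp only [map_add, map_smul, add_apply,
      smul_apply, smul_eq_mul, h, hM.hsym v u] at this
    linarith
  have := key (-(H v v + 1) / (2 * H u v))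
  rw [show 2 * (-(H v v + 1) / (2 * H u v)) * H u v = -(H v v + 1) by field_simp] at this
  linarith

lemma abs_h_le (x : E) : |H e x| ≤ ‖x‖ := by
  have key := hM.hpos (H e x • e - x)
  simp only [map_sub, map_smul, sub_apply,
    smul_apply, smul_eq_mul, hM.He, hM.hsym x e] at key
  rw [← abs_of_nonneg (norm_nonneg x), ← sq_le_sq]
  nlinarith [hM.max x]

/-- First variation: the value of `H e` on `q u e`. -/
lemma h_q (u : E) : H e (q u e) = H e (q e e) * H e u := by
  have key : ∀ u, H e u = 0 → H e (q u e) = 0 := by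
    intro u hu
    obtain ⟨D, C, hC, hJ⟩ := hM.jbound
    by_contra hne
    set w := q u e with hw
    set K := C * ‖u‖ ^ 2 with hK
    have hK0 : 0 ≤ K := by positivity
    have hineq : ∀ τ : ℝ, |τ| ≤ 1 → 2 * τ * H e w ≤ (2 * K + K ^ 2) * τ ^ 2 := by
      intro τ hτ
      have h1 := hJ u e τ
      rw [hM.hsym u e, hu, abs_zero, mul_zero, add_zero, hM.norm_e, mul_one] at h1
      have h2 := (hM.max (e + τ • w)).trans (pow_le_pow_left₀ (norm_nonneg _) h1 2)
      simp only [map_add, map_smul, add_apply,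
        smul_apply, smul_eq_mul, hM.He, hM.hsym w e] at h2
      have hτ2 : τ ^ 2 ≤ 1 := by rw [← sq_abs]; exact pow_le_one₀ (abs_nonneg _) hτ
      nlinarith [hM.hpos w, mul_nonneg (sq_nonneg τ) (hM.hpos w),
        mul_le_mul_of_nonneg_left hτ2 (mul_nonneg (sq_nonneg K) (sq_nonneg τ))]
    set M := 2 * K + K ^ 2 + |H e w| + 1 with hMdef
    have hM0 : 0 < M := by positivity
    have h3 := hineq (H e w / M) (by
      rw [abs_div, abs_of_pos hM0, div_le_one hM0]; linarith [sq_nonneg K])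
    rw [show 2 * (H e w / M) * H e w = (2 * M) * (H e w / M) ^ 2 by field_simp] at h3
    have h4 : 0 < (H e w / M) ^ 2 := pow_two_pos_of_ne_zero (div_ne_zero hne hM0.ne')
    nlinarith [abs_nonneg (H e w)]
  have := key (u - H e u • e) (by
    rw [map_sub, map_smul, smul_eq_mul, hM.He, mul_one, sub_self])
  rw [map_sub, map_smul, sub_apply, smul_apply,
    map_sub, map_smul, smul_eq_mul] at this
  linarith

/-- The field attached to `w`. -/
noncomputable def field (_hM : Maxi H q e) (w : E) : E →L[ℝ] E →L[ℝ] E :=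
  (H e).smulRight (q w) - (H w).smulRight (q e)

omit hM in
lemma field_apply (hM : Maxi H q e) (w x y : E) :
    hM.field w x y = H e x • q w y - H w x • q e y := by
  simp [field]

lemma field_orth (w x : E) (s : ℝ) : ‖x‖ ≤ ‖x + s • hM.field w x x‖ := by
  have h : H (H e x • w - H w x • e) x = 0 := by
    simp only [map_sub, map_smul, sub_apply,
      smul_apply, smul_eq_mul]
    ring
  have := hM.orth h s
  simpa only [field_apply, map_sub, map_smul, sub_apply,
    smul_apply] using this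

lemma field_self {w : E} (hw : H e w = 0) : hM.field w e e = q e w := by
  rw [field_apply, hM.He, hM.hsym w e, hw, one_smul, zero_smul, sub_zero, hM.qsym]

/-- The second order form of the value of `H e`. -/
noncomputable def sform (_hM : Maxi H q e) : E →L[ℝ] E →L[ℝ] ℝ :=
  H e (q e e) • H - ((H e).postcomp E).comp q

omit hM in
lemma sform_apply (hM : Maxi H q e) (u v : E) :
    hM.sform u v = H e (q e e) * H u v - H e (q u v) := by
  simp [sform]

lemma sform_symm (u v : E) : hM.sform u v = hM.sform v u := by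
  rw [sform_apply, sform_apply, hM.hsym u v, hM.qsym u v]

lemma h_linear {w z : E} (hw : H e w = 0) (hz : H e z = 0) :
    H e (hM.field w e z + hM.field w z e) = -hM.sform w z := by
  simp only [field_apply, hM.He, hz, hM.hsym w e, hw, map_add, map_sub, map_smul, smul_eq_mul,
    sform_apply]
  ring

lemma h_Aw {w : E} (hw : H e w = 0) : H e (q e w) = 0 := by
  rw [hM.qsym, hM.h_q, hw, mul_zero]

/-- The second variation along a reachable curve. -/
lemma variation {x : ℝ → E} {a b : E} (h : Expansion e x a b) (ha : H e a = 0)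
    (hn : ∃ K : ℝ, ∀ᶠ τ in 𝓝[≠] 0, ‖x τ‖ ≤ 1 + K * |τ| ^ 3) : H a a + 2 * H e b ≤ 0 := by
  obtain ⟨K, hK⟩ := hn
  have h1 : Tendsto (fun τ => 2 * H e ((τ ^ 2)⁻¹ • (x τ - e - τ • a)) +
      H (τ⁻¹ • (x τ - e)) (τ⁻¹ • (x τ - e))) (𝓝[≠] 0) (𝓝 (2 * H e b + H a a)) := by
    have hc : Continuous fun y : E => H y y := by fun_prop
    exact ((((H e).continuous.tendsto b).comp h).const_mul 2).add ((hc.tendsto a).comp h.slope)
  have h2 : Tendsto (fun τ : ℝ => 3 * |K| * |τ|) (𝓝[≠] 0) (𝓝 0) := by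
    simpa using tendsto_id_punctured.abs.const_mul (3 * |K|)
  have h3 : ∀ᶠ τ in 𝓝[≠] (0 : ℝ), |K| * |τ| ^ 3 ≤ 1 :=
    (((tendsto_id_punctured.abs).pow 3).const_mul |K|).eventually (Iic_mem_nhds (by simp))
  have := le_of_tendsto_of_tendsto h1 h2 (by
    filter_upwards [hK, h3, self_mem_nhdsWithin] with τ t1 t3 (hτ : τ ≠ 0)
    have t4 : ‖x τ‖ ≤ 1 + |K| * |τ| ^ 3 := t1.trans (by
      gcongr; exact le_abs_self K)
    have t5 := (hM.max (x τ)).trans (pow_le_pow_left₀ (norm_nonneg _) t4 2)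
    have e1 : H (x τ) (x τ) = 1 + 2 * H e (x τ - e) + H (x τ - e) (x τ - e) := by
      simp only [map_sub, sub_apply, hM.He, hM.hsym (x τ) e]
      ring
    have e2 : 2 * H e ((τ ^ 2)⁻¹ • (x τ - e - τ • a)) +
        H (τ⁻¹ • (x τ - e)) (τ⁻¹ • (x τ - e)) =
        (τ ^ 2)⁻¹ * (2 * H e (x τ - e) + H (x τ - e) (x τ - e)) := by
      simp only [map_smul, map_sub (H e) (x τ - e), ha, smul_apply,
        smul_eq_mul, mul_zero, sub_zero]
      field_simp
    rw [e2, inv_mul_le_iff₀ (by positivity)]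
    have hp : 0 ≤ |K| * |τ| ^ 3 := by positivity
    have : τ ^ 2 * (3 * |K| * |τ|) = 3 * (|K| * |τ| ^ 3) := by rw [← sq_abs τ]; ring
    nlinarith)
  linarith

lemma start_ok : ∃ K : ℝ, ∀ᶠ τ in 𝓝[≠] (0 : ℝ), ‖(fun _ : ℝ => e) τ‖ ≤ 1 + K * |τ| ^ 3 :=
  ⟨0, Eventually.of_forall fun τ => by simp [hM.norm_e]⟩

lemma H_le_sform {w : E} (hw : H e w = 0) : H (q e w) (q e w) ≤ hM.sform w (q e w) := by
  have hb := (Expansion.const e).step (hM.field w) 1
  have h := hM.variation hb (by simp [hM.field_self hw, hM.h_Aw hw])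
    ((Expansion.const e).norm_step hM.norm_e (hM.field_orth w) 1 hM.start_ok)
  simp only [map_zero, zero_apply, add_zero, smul_zero, zero_add, one_smul,
    hM.field_self hw, map_smul, smul_eq_mul, hM.h_linear hw (hM.h_Aw hw)] at h
  linarith

lemma sform_comm {w w' : E} (hw : H e w = 0) (hw' : H e w' = 0) :
    hM.sform w (q e w') = hM.sform w' (q e w) := by
  have key : ∀ L : ℝ, H (q e w') (q e w') - hM.sform w' (q e w')
      + 2 * L * (hM.sform w (q e w') - hM.sform w' (q e w)) ≤ 0 := by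
    intro L
    have x1 := (Expansion.const e).step (hM.field w) L
    have n1 := (Expansion.const e).norm_step hM.norm_e (hM.field_orth w) L hM.start_ok
    have x2 := x1.step (hM.field w') 1
    have n2 := x1.norm_step hM.norm_e (hM.field_orth w') 1 n1
    have x3 := x2.step (hM.field w) (-L)
    have n3 := x2.norm_step hM.norm_e (hM.field_orth w) (-L) n2
    have h := hM.variation x3 (by
      simp [hM.field_self hw, hM.field_self hw', hM.h_Aw hw']) n3
    simp only [map_zero, zero_apply, add_zero, smul_zero, zero_add, one_smul,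
      hM.field_self hw, hM.field_self hw', map_smul, map_add, map_neg,
      add_apply, smul_apply,
      neg_apply, smul_eq_mul, neg_smul] at h
    have l1 := hM.h_linear hw (hM.h_Aw hw)
    have l2 := hM.h_linear hw (hM.h_Aw hw')
    have l3 := hM.h_linear hw' (hM.h_Aw hw)
    have l4 := hM.h_linear hw' (hM.h_Aw hw')
    rw [map_add] at l1 l2 l3 l4
    have c1 : H (q e w') (q e w) = H (q e w) (q e w') := hM.hsym _ _
    linear_combination h + (2 * L) * l2 - (2 * L) * l3 - l4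
  by_contra hne
  set d := hM.sform w (q e w') - hM.sform w' (q e w) with hd
  have hd0 : d ≠ 0 := sub_ne_zero.2 hne
  set m := H (q e w') (q e w') - hM.sform w' (q e w') with hm
  have := key ((1 - m) / (2 * d))
  rw [show 2 * ((1 - m) / (2 * d)) * d = 1 - m by field_simp] at this
  linarith

end Maxi

end Vale.Agent.P084.Full.AlgebraAux
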