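import Mathlib.Analysis.Normed.Operator.Bilinear
import Mathlib.Analysis.Normed.Affine.MazurUlam
import Mathlib.Analysis.SpecificLimits.Basic

/-! Symmetric bilinear maps whose partial maps are skew vanish. -/

namespace Vale.Agent.P084.Full

open Filter Topology

variable {W : Type*} [NormedAddCommGroup W] [NormedSpace ℝ W]

/-- One Euler step along the quadratic vector field. -/
noncomputable def eulerStep (q : W →L[ℝ] W →L[ℝ] W) (h : ℝ) (x : W) : W := x + h • q x x

/-- The hypothesis, in product form. -/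
def IsSkew (q : W →L[ℝ] W →L[ℝ] W) (C : ℝ) : Prop :=
  0 ≤ C ∧ (∀ u x, q u x = q x u) ∧
    ∀ u x : W, ∀ τ : ℝ, ‖x + τ • q u x‖ ≤ (1 + C * τ ^ 2 * ‖u‖ ^ 2) * ‖x‖

/-- The Euler approximations of the flow. -/
noncomputable def euler (q : W →L[ℝ] W →L[ℝ] W) (t : ℝ) (x : W) (k : ℕ) : W :=
  (eulerStep q (t / 2 ^ k))^[2 ^ k] x

/-- The flow of the quadratic vector field. -/
noncomputable def flow (q : W →L[ℝ] W →L[ℝ] W) (t : ℝ) (x : W) : W :=
  limUnder atTop (euler q t x)

variable {q : W →L[ℝ] W →L[ℝ] W} {C : ℝ}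

lemma norm_quad_le (q : W →L[ℝ] W →L[ℝ] W) (a : W) : ‖q a a‖ ≤ ‖q‖ * ‖a‖ ^ 2 := by
  refine (q.le_opNorm₂ a a).trans_eq ?_
  ring

lemma quad_sub (hq : IsSkew q C) (a b : W) : q a a - q b b = q (a + b) (a - b) := by
  simp only [map_add, map_sub, _root_.add_apply, hq.2.1 b a]
  abel

lemma norm_quad_sub_le (hq : IsSkew q C) (a b : W) :
    ‖q a a - q b b‖ ≤ ‖q‖ * (‖a‖ + ‖b‖) * ‖a - b‖ := by
  rw [quad_sub hq]
  exact (q.le_opNorm₂ _ _).trans (by gcongr; exact norm_add_le a b)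

lemma dist_step (hq : IsSkew q C) (h : ℝ) (x y : W) :
    ‖eulerStep q h x - eulerStep q h y‖ ≤ (1 + C * h ^ 2 * ‖x + y‖ ^ 2) * ‖x - y‖ := by
  have e : eulerStep q h x - eulerStep q h y = x - y + h • q (x + y) (x - y) := by
    rw [eulerStep, eulerStep, ← quad_sub hq, smul_sub]
    abel
  rw [e]
  exact hq.2.2 _ _ _

lemma step_zero (h : ℝ) : eulerStep q h 0 = 0 := by simp [eulerStep]

lemma norm_step (hq : IsSkew q C) (h : ℝ) (x : W) :
    ‖eulerStep q h x‖ ≤ (1 + C * h ^ 2 * ‖x‖ ^ 2) * ‖x‖ := by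
  simpa [step_zero] using dist_step hq h x 0

/-- A discrete Gronwall inequality. -/
lemma gronwall {e : ℕ → ℝ} {a E : ℝ} {n : ℕ} (ha : 0 ≤ a) (hE : 0 ≤ E) (h0 : e 0 = 0)
    (hn : n * a ≤ 1 / 2) (hs : ∀ j, j < n → e (j + 1) ≤ (1 + a) * e j + E) :
    ∀ j ≤ n, e j ≤ 2 * j * E := by
  intro j hj
  induction j with
  | zero => simp [h0]
  | succ j ih =>
    have h1 := hs j (by omega)
    have h2 := ih (by omega)
    have h3 : ((j : ℝ) + 1) ≤ n := by exact_mod_cast hj
    have h4 : (j : ℝ) * a ≤ 1 / 2 := (mul_le_mul_of_nonneg_right (by linarith) ha).trans hn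
    push_cast
    nlinarith [mul_le_mul_of_nonneg_left h2 (by linarith : (0 : ℝ) ≤ 1 + a),
      mul_le_mul_of_nonneg_right h4 hE]

lemma iter_norm (hq : IsSkew q C) {h r : ℝ} {n : ℕ} {x : W} (hx : ‖x‖ ≤ r)
    (hn : n * (C * h ^ 2 * (4 * r ^ 2)) ≤ 1 / 2) :
    ∀ j ≤ n, ‖(eulerStep q h)^[j] x‖ ≤ (1 + 2 * j * (C * h ^ 2 * (4 * r ^ 2))) * r := by
  have hC := hq.1
  have hr : 0 ≤ r := (norm_nonneg x).trans hx
  set d := C * h ^ 2 * (4 * r ^ 2) with hd
  have hd0 : 0 ≤ d := by positivity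
  intro j hj
  induction j with
  | zero => simpa using hx
  | succ j ih =>
    have h2 := ih (by omega)
    have h3 : ((j : ℝ) + 1) ≤ n := by exact_mod_cast hj
    have h4 : (j : ℝ) * d ≤ 1 / 2 := (mul_le_mul_of_nonneg_right (by linarith) hd0).trans hn
    rw [Function.iterate_succ_apply']
    set z := (eulerStep q h)^[j] x with hz
    have h5 : ‖z‖ ≤ 2 * r := h2.trans (by nlinarith [mul_le_mul_of_nonneg_right h4 hr])
    have h6 : C * h ^ 2 * ‖z‖ ^ 2 ≤ d := by
      rw [hd]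
      have := pow_le_pow_left₀ (norm_nonneg z) h5 2
      nlinarith [mul_le_mul_of_nonneg_left this (by positivity : (0 : ℝ) ≤ C * h ^ 2)]
    refine (norm_step hq h z).trans ((mul_le_mul (by linarith : _ ≤ 1 + d) h2
      (norm_nonneg _) (by linarith)).trans ?_)
    push_cast
    nlinarith [mul_le_mul_of_nonneg_right h4 (mul_nonneg hd0 hr)]

lemma iter_norm' (hq : IsSkew q C) {h r : ℝ} {n : ℕ} {x : W} (hx : ‖x‖ ≤ r)
    (hn : n * (C * h ^ 2 * (4 * r ^ 2)) ≤ 1 / 2) {j : ℕ} (hj : j ≤ n) :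
    ‖(eulerStep q h)^[j] x‖ ≤ 2 * r := by
  have hC := hq.1
  have hr : 0 ≤ r := (norm_nonneg x).trans hx
  refine (iter_norm hq hx hn j hj).trans (mul_le_mul_of_nonneg_right ?_ hr)
  have : (j : ℝ) * (C * h ^ 2 * (4 * r ^ 2)) ≤ n * (C * h ^ 2 * (4 * r ^ 2)) := by gcongr
  linarith

lemma iter_dist (hq : IsSkew q C) {h r : ℝ} {n : ℕ} {x y : W} (hx : ‖x‖ ≤ r) (hy : ‖y‖ ≤ r)
    (hn : n * (C * h ^ 2 * (16 * r ^ 2)) ≤ 1 / 2) :
    ∀ j ≤ n, ‖(eulerStep q h)^[j] x - (eulerStep q h)^[j] y‖ ≤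
      (1 + 2 * j * (C * h ^ 2 * (16 * r ^ 2))) * ‖x - y‖ := by
  have hC := hq.1
  set d := C * h ^ 2 * (16 * r ^ 2) with hd
  have hd0 : 0 ≤ d := by positivity
  have hn' : (n : ℝ) * (C * h ^ 2 * (4 * r ^ 2)) ≤ 1 / 2 :=
    le_trans (by rw [hd]; gcongr; norm_num) hn
  intro j hj
  induction j with
  | zero => simp
  | succ j ih =>
    have h2 := ih (by omega)
    have h3 : ((j : ℝ) + 1) ≤ n := by exact_mod_cast hj
    have h4 : (j : ℝ) * d ≤ 1 / 2 := (mul_le_mul_of_nonneg_right (by linarith) hd0).trans hn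
    rw [Function.iterate_succ_apply', Function.iterate_succ_apply']
    set z := (eulerStep q h)^[j] x with hz
    set w := (eulerStep q h)^[j] y with hw
    have h5 : ‖z + w‖ ≤ 4 * r := (norm_add_le z w).trans (by
      have h7 : ‖z‖ ≤ 2 * r := iter_norm' hq hx hn' (by omega)
      have h8 : ‖w‖ ≤ 2 * r := iter_norm' hq hy hn' (by omega)
      linarith)
    have h6 : C * h ^ 2 * ‖z + w‖ ^ 2 ≤ d := by
      rw [hd]
      have := pow_le_pow_left₀ (norm_nonneg _) h5 2
      nlinarith [mul_le_mul_of_nonneg_left this (by positivity : (0 : ℝ) ≤ C * h ^ 2)]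
    refine (dist_step hq h z w).trans ((mul_le_mul (by linarith : _ ≤ 1 + d) h2
      (norm_nonneg _) (by linarith)).trans ?_)
    push_cast
    nlinarith [mul_le_mul_of_nonneg_right h4 (mul_nonneg hd0 (norm_nonneg (x - y)))]

lemma step_step (hq : IsSkew q C) {h s r : ℝ} {z : W} (hz : ‖z‖ ≤ 2 * r)
    (hh : C * h ^ 2 * (4 * r ^ 2) ≤ 1) :
    ‖eulerStep q s (eulerStep q h z) - eulerStep q (s + h) z‖ ≤
      |s| * |h| * (24 * ‖q‖ ^ 2 * r ^ 3) := by
  have hC := hq.1
  have hr : 0 ≤ r := by linarith [norm_nonneg z]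
  set w := eulerStep q h z with hw
  have h1 : C * h ^ 2 * ‖z‖ ^ 2 ≤ 1 := by
    refine le_trans ?_ hh
    have := pow_le_pow_left₀ (norm_nonneg z) hz 2
    nlinarith [mul_le_mul_of_nonneg_left this (by positivity : (0 : ℝ) ≤ C * h ^ 2)]
  have h2 : ‖w‖ ≤ 4 * r := (norm_step hq h z).trans <| by
    nlinarith [mul_le_mul_of_nonneg_right h1 (norm_nonneg z)]
  have h3 : ‖w - z‖ ≤ |h| * (‖q‖ * (2 * r) ^ 2) := by
    rw [hw, eulerStep, add_sub_cancel_left, norm_smul, Real.norm_eq_abs]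
    gcongr
    exact (norm_quad_le q z).trans (by gcongr)
  have e : eulerStep q s w - eulerStep q (s + h) z = s • (q w w - q z z) := by
    simp only [hw, eulerStep]
    module
  rw [e, norm_smul, Real.norm_eq_abs, mul_assoc]
  refine mul_le_mul_of_nonneg_left ((norm_quad_sub_le hq w z).trans ?_) (abs_nonneg s)
  calc ‖q‖ * (‖w‖ + ‖z‖) * ‖w - z‖ ≤ ‖q‖ * (6 * r) * (|h| * (‖q‖ * (2 * r) ^ 2)) := by
        gcongr; linarith
    _ = |h| * (24 * ‖q‖ ^ 2 * r ^ 3) := by ring

lemma eventually_small (C t r : ℝ) :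
    ∀ᶠ k : ℕ in atTop, (2 ^ k : ℝ) * (C * (t / 2 ^ k) ^ 2 * (1024 * r ^ 2)) ≤ 1 / 4 := by
  have h : Tendsto (fun k : ℕ => C * t ^ 2 * (1024 * r ^ 2) * (1 / 2 : ℝ) ^ k) atTop (𝓝 0) := by
    simpa using (tendsto_pow_atTop_nhds_zero_of_lt_one (r := (1 / 2 : ℝ)) (by norm_num)
      (by norm_num)).const_mul (C * t ^ 2 * (1024 * r ^ 2))
  filter_upwards [h.eventually (Iio_mem_nhds (show (0 : ℝ) < 1 / 4 by norm_num))] with k hk
  refine le_of_eq_of_le ?_ (le_of_lt hk)
  rw [one_div, inv_pow, div_pow]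
  field_simp

lemma euler_succ_sub (hq : IsSkew q C) {t r : ℝ} {x : W} (hx : ‖x‖ ≤ r) {k : ℕ}
    (hk : (2 ^ k : ℝ) * (C * (t / 2 ^ k) ^ 2 * (1024 * r ^ 2)) ≤ 1 / 4) :
    ‖euler q t x (k + 1) - euler q t x k‖ ≤ 2 * (t ^ 2 * (24 * ‖q‖ ^ 2 * r ^ 3)) / 2 ^ k := by
  have hC := hq.1
  have hr : 0 ≤ r := (norm_nonneg x).trans hx
  set h := t / 2 ^ (k + 1) with hh
  have h2 : t / 2 ^ k = h + h := by rw [hh, pow_succ]; field_simp; ring
  set f := eulerStep q h with hf
  set g := eulerStep q (t / 2 ^ k) with hg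
  set N : ℕ := 2 ^ k with hN
  have hNr : (N : ℝ) = 2 ^ k := by simp [hN]
  have e1 : euler q t x (k + 1) = (fun z => f (f z))^[N] x := by
    rw [euler, show (fun z => f (f z)) = f^[2] from rfl, ← Function.iterate_mul, hN, hf, hh,
      ← pow_succ']
  rw [e1, euler, ← hN, ← hg]
  set d := C * h ^ 2 * (64 * r ^ 2) with hd
  have hd0 : 0 ≤ d := by positivity
  have hNd : (N : ℝ) * d ≤ 1 / 256 := by
    rw [hNr, hd]
    rw [h2] at hk
    nlinarith
  have hf_norm : ∀ j, j ≤ 2 * N → ‖f^[j] x‖ ≤ 2 * r := fun j hj =>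
    iter_norm' hq hx (n := 2 * N) (by push_cast; rw [hd] at hNd; nlinarith) hj
  have hg_norm : ∀ j, j ≤ N → ‖g^[j] x‖ ≤ 2 * r := fun j hj =>
    iter_norm' hq hx (n := N) (by rw [hNr]; nlinarith) hj
  have hEK : 0 ≤ |h| * |h| * (24 * ‖q‖ ^ 2 * r ^ 3) := by positivity
  have key := gronwall (e := fun j => ‖(fun z => f (f z))^[j] x - g^[j] x‖) (a := 4 * d)
    (E := |h| * |h| * (24 * ‖q‖ ^ 2 * r ^ 3)) (n := N) (by positivity) hEK (by simp)
    (by linarith [mul_comm (N : ℝ) d]) (fun j hj => ?_) N le_rfl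
  · refine key.trans ?_
    have e : 2 * (N : ℝ) * (|h| * |h| * (24 * ‖q‖ ^ 2 * r ^ 3)) =
        (t ^ 2 * (24 * ‖q‖ ^ 2 * r ^ 3)) / 2 ^ k / 2 := by
      rw [hNr, abs_mul_abs_self, hh, pow_succ]
      field_simp
    rw [e, mul_div_assoc 2]
    linarith [show 0 ≤ t ^ 2 * (24 * ‖q‖ ^ 2 * r ^ 3) / 2 ^ k by positivity]
  simp only [Function.iterate_succ_apply']
  set u := (fun z => f (f z))^[j] x with hu
  set w := g^[j] x with hw
  have hu1 : ‖u‖ ≤ 2 * r := by
    rw [hu, show (fun z => f (f z)) = f^[2] from rfl, ← Function.iterate_mul]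
    exact hf_norm _ (by omega)
  have hw1 : ‖w‖ ≤ 2 * r := hg_norm j hj.le
  have hd1 : d ≤ 1 / 256 := le_trans
    (le_mul_of_one_le_left hd0 (by rw [hNr]; exact one_le_pow₀ (by norm_num))) hNd
  have hdist := iter_dist hq (h := h) hu1 hw1 (n := 2)
    (by push_cast; rw [hd] at hd1; nlinarith) 2 le_rfl
  have hd' : C * h ^ 2 * (16 * (2 * r) ^ 2) = d := by rw [hd]; ring
  rw [hd'] at hdist
  push_cast at hdist
  have hb := step_step hq (h := h) (s := h) hw1 (by rw [hd] at hd1; nlinarith)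
  rw [← h2, ← hg] at hb
  have htri := norm_sub_le_norm_sub_add_norm_sub (f (f u)) (f (f w)) (g w)
  have hfirst : ‖f (f u) - f (f w)‖ ≤ (1 + 4 * d) * ‖u - w‖ := le_trans
    (le_of_eq rfl) (hdist.trans (by nlinarith [norm_nonneg (u - w)]))
  nlinarith [mul_nonneg hd0 (norm_nonneg (u - w))]

variable [CompleteSpace W]

lemma tendsto_flow (hq : IsSkew q C) (t : ℝ) (x : W) :
    Tendsto (euler q t x) atTop (𝓝 (flow q t x)) := by
  obtain ⟨k₀, hk₀⟩ := eventually_atTop.1 (eventually_small C t ‖x‖)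
  have hc : CauchySeq fun k => euler q t x (k + k₀) := by
    refine cauchySeq_of_le_geometric_two (C := 4 * (t ^ 2 * (24 * ‖q‖ ^ 2 * ‖x‖ ^ 3))) fun n => ?_
    rw [dist_eq_norm, norm_sub_rev, Nat.succ_add_eq_add_succ] at *
    refine (euler_succ_sub hq le_rfl (hk₀ _ (Nat.le_add_left _ _))).trans ?_
    rw [pow_add, ← div_div]
    calc _ ≤ 2 * (t ^ 2 * (24 * ‖q‖ ^ 2 * ‖x‖ ^ 3)) / 2 ^ n :=
          div_le_self (by positivity) (one_le_pow₀ (by norm_num))
      _ = _ := by ring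
  obtain ⟨l, hl⟩ := cauchySeq_tendsto_of_complete hc
  exact tendsto_nhds_limUnder ⟨l, (tendsto_add_atTop_iff_nat k₀).1 hl⟩

lemma flow_zero (hq : IsSkew q C) (t : ℝ) : flow q t 0 = 0 := by
  refine tendsto_nhds_unique (tendsto_flow hq t 0) (tendsto_const_nhds.congr fun k => ?_)
  rw [euler, Function.iterate_fixed (step_zero _)]

lemma flow_dist_le (hq : IsSkew q C) (t : ℝ) (x y : W) :
    ‖flow q t x - flow q t y‖ ≤ ‖x - y‖ := by
  set r := max ‖x‖ ‖y‖ with hr
  have h : Tendsto (fun k : ℕ => (1 + 2 * (C * t ^ 2 * (16 * r ^ 2)) * (1 / 2 : ℝ) ^ k) * ‖x - y‖)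
      atTop (𝓝 ‖x - y‖) := by
    simpa using (((tendsto_pow_atTop_nhds_zero_of_lt_one (r := (1 / 2 : ℝ)) (by norm_num)
      (by norm_num)).const_mul (2 * (C * t ^ 2 * (16 * r ^ 2)))).const_add 1).mul_const ‖x - y‖
  refine le_of_tendsto_of_tendsto ((tendsto_flow hq t x).sub (tendsto_flow hq t y)).norm h ?_
  filter_upwards [eventually_small C t r] with k hk
  refine (iter_dist hq (le_max_left _ _) (le_max_right _ _) (n := 2 ^ k) ?_ _ le_rfl).trans_eq ?_
  · push_cast
    have : (0 : ℝ) ≤ (2 ^ k : ℝ) * (C * (t / 2 ^ k) ^ 2 * r ^ 2) := by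
      have := hq.1
      positivity
    linarith
  · push_cast
    rw [← hr, one_div, inv_pow, div_pow]
    field_simp

lemma flow_neg_flow (hq : IsSkew q C) (t : ℝ) (x : W) : flow q (-t) (flow q t x) = x := by
  have hC := hq.1
  set r := ‖x‖ with hr
  have hr0 : 0 ≤ r := norm_nonneg x
  set K := 24 * ‖q‖ ^ 2 * r ^ 3 with hK
  -- going back and forth returns almost to the start
  have hret : ∀ᶠ k : ℕ in atTop, ∀ z, ‖z‖ ≤ 4 * r →
      ‖euler q (-t) (euler q t x k) k - x‖ ≤ 2 * (t ^ 2 * K) / 2 ^ k ∧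
      ‖euler q (-t) (euler q t x k) k - euler q (-t) z k‖ ≤ 2 * ‖euler q t x k - z‖ := by
    filter_upwards [eventually_small C t r] with k hk z hz
    set h := t / 2 ^ k with hh
    set N : ℕ := 2 ^ k with hN
    have hNr : (N : ℝ) = 2 ^ k := by simp [hN]
    set d := C * h ^ 2 * r ^ 2 with hd
    have hd0 : 0 ≤ d := by positivity
    have hNd : (N : ℝ) * d ≤ 1 / 4096 := by rw [hNr, hd]; linarith
    have hd1 : d ≤ 1 / 4096 := le_trans
      (le_mul_of_one_le_left hd0 (by rw [hNr]; exact one_le_pow₀ (by norm_num))) hNd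
    have hfw : ∀ j, j ≤ N → ‖(eulerStep q h)^[j] x‖ ≤ 2 * r := fun j hj =>
      iter_norm' hq le_rfl (n := N) (by rw [hd] at hNd; linarith) hj
    have hlip : ∀ j, j ≤ N → ∀ a b : W, ‖a‖ ≤ 4 * r → ‖b‖ ≤ 4 * r →
        ‖(eulerStep q (-h))^[j] a - (eulerStep q (-h))^[j] b‖ ≤ 2 * ‖a - b‖ := by
      intro j hj a b ha hb
      have he : C * (-h) ^ 2 * (16 * (4 * r) ^ 2) = 256 * d := by rw [hd]; ring
      have h1 := iter_dist hq (h := -h) ha hb (n := N) (by rw [he]; linarith) j hj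
      rw [he] at h1
      have : (j : ℝ) * d ≤ N * d := by gcongr
      exact h1.trans (mul_le_mul_of_nonneg_right (by linarith) (norm_nonneg _))
    refine ⟨?_, ?_⟩
    · have key : ∀ j ≤ N, ‖(eulerStep q (-h))^[j] ((eulerStep q h)^[j] x) - x‖ ≤
          2 * j * (|h| * |h| * K) := by
        intro j hj
        induction j with
        | zero => simp
        | succ j ih =>
          have h1 := ih (by omega)
          rw [Function.iterate_succ_apply (eulerStep q (-h)), Function.iterate_succ_apply']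
          set w := (eulerStep q h)^[j] x with hw
          have hw1 : ‖w‖ ≤ 2 * r := hfw j (by omega)
          have h2 := step_step hq (h := h) (s := -h) hw1 (by rw [hd] at hd1; linarith)
          rw [neg_add_cancel, show eulerStep q 0 w = w by simp [eulerStep], abs_neg] at h2
          have h4 : ‖eulerStep q (-h) (eulerStep q h w)‖ ≤ 4 * r := by
            have h5 : ‖eulerStep q h w‖ ≤ 2 * r := by
              rw [hw, ← Function.iterate_succ_apply' (eulerStep q h)]
              exact hfw _ hj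
            refine (norm_step hq (-h) _).trans ((mul_le_mul (b := 2) ?_ h5 (norm_nonneg _)
              zero_le_two).trans_eq (by ring))
            have := pow_le_pow_left₀ (norm_nonneg _) h5 2
            have := mul_le_mul_of_nonneg_left this (by positivity : (0 : ℝ) ≤ C * (-h) ^ 2)
            rw [hd] at hd1
            linarith
          have h3 := hlip j (by omega) _ w h4 (by linarith)
          have htri := norm_sub_le_norm_sub_add_norm_sub
            ((eulerStep q (-h))^[j] (eulerStep q (-h) (eulerStep q h w)))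
            ((eulerStep q (-h))^[j] w) x
          push_cast
          nlinarith
      rw [euler, euler, neg_div, ← hh, ← hN]
      refine (key N le_rfl).trans_eq ?_
      rw [hNr, abs_mul_abs_self, hh]
      field_simp
    · rw [euler, euler, euler, neg_div, ← hh, ← hN]
      exact hlip N le_rfl _ _ ((hfw N le_rfl).trans (by linarith)) hz
  set z := flow q t x with hz
  have hzn : ‖z‖ ≤ r := by
    have := flow_dist_le hq t x 0
    rwa [flow_zero hq, sub_zero, sub_zero] at this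
  have h1 : Tendsto (fun k => euler q (-t) (euler q t x k) k) atTop (𝓝 x) := by
    refine tendsto_iff_norm_sub_tendsto_zero.2 (squeeze_zero' (Eventually.of_forall fun _ =>
      norm_nonneg _) (hret.mono fun k hk => (hk 0 (by simp; positivity)).1) ?_)
    simpa [div_eq_mul_inv, inv_pow] using (tendsto_pow_atTop_nhds_zero_of_lt_one
      (r := (2 : ℝ)⁻¹) (by norm_num) (by norm_num)).const_mul (2 * (t ^ 2 * K))
  have h2 : Tendsto (fun k => euler q (-t) (euler q t x k) k - euler q (-t) z k) atTop (𝓝 0) := by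
    refine squeeze_zero_norm' (hret.mono fun k hk => (hk z (by linarith)).2) ?_
    simpa using (tendsto_iff_norm_sub_tendsto_zero.1 (tendsto_flow hq t x)).const_mul (2 : ℝ)
  have h3 : Tendsto (fun k => euler q (-t) z k) atTop (𝓝 x) := by simpa using h1.sub h2
  exact tendsto_nhds_unique (tendsto_flow hq (-t) z) h3

lemma flow_first_order (hq : IsSkew q C) (t : ℝ) (x : W) :
    ‖flow q t x - x - t • q x x‖ ≤ 16 * t ^ 2 * ‖q‖ ^ 2 * ‖x‖ ^ 3 := by
  refine le_of_tendsto (((tendsto_flow hq t x).sub_const x).sub_const (t • q x x)).norm ?_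
  filter_upwards [eventually_small C t ‖x‖] with k hk
  set r := ‖x‖ with hr
  set h := t / 2 ^ k with hh
  set N : ℕ := 2 ^ k with hN
  have hNr : (N : ℝ) = 2 ^ k := by simp [hN]
  have hpos : (0 : ℝ) ≤ 2 ^ k * (C * h ^ 2 * r ^ 2) := by
    have := hq.1
    positivity
  have hfw : ∀ j, j ≤ N → ‖(eulerStep q h)^[j] x‖ ≤ 2 * r := fun j hj =>
    iter_norm' hq le_rfl (n := N) (by rw [hNr]; linarith) hj
  have hmove : ∀ j, j ≤ N → ‖(eulerStep q h)^[j] x - x‖ ≤ j * (|h| * (4 * ‖q‖ * r ^ 2)) := by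
    intro j hj
    induction j with
    | zero => simp
    | succ j ih =>
      rw [Function.iterate_succ_apply']
      set w := (eulerStep q h)^[j] x with hw
      have h1 : ‖eulerStep q h w - w‖ ≤ |h| * (4 * ‖q‖ * r ^ 2) := by
        rw [eulerStep, add_sub_cancel_left, norm_smul, Real.norm_eq_abs]
        gcongr
        refine (norm_quad_le q w).trans ?_
        calc ‖q‖ * ‖w‖ ^ 2 ≤ ‖q‖ * (2 * r) ^ 2 := by gcongr; exact hfw j (by omega)
          _ = _ := by ring
      have h2 := ih (by omega)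
      have htri := norm_sub_le_norm_sub_add_norm_sub (eulerStep q h w) w x
      push_cast
      linarith
  set c := |h| * (‖q‖ * (4 * r)) * (N * (|h| * (4 * ‖q‖ * r ^ 2))) with hc
  have key : ∀ j ≤ N, ‖(eulerStep q h)^[j] x - x - ((j : ℝ) * h) • q x x‖ ≤ j * c := by
    intro j hj
    induction j with
    | zero => simp
    | succ j ih =>
      rw [Function.iterate_succ_apply']
      set w := (eulerStep q h)^[j] x with hw
      have e : eulerStep q h w - x - (((j + 1 : ℕ) : ℝ) * h) • q x x =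
          (w - x - ((j : ℝ) * h) • q x x) + h • (q w w - q x x) := by
        push_cast
        simp only [eulerStep]
        module
      have h1 : ‖h • (q w w - q x x)‖ ≤ c := by
        rw [norm_smul, Real.norm_eq_abs, hc, mul_assoc]
        refine mul_le_mul_of_nonneg_left ((norm_quad_sub_le hq w x).trans ?_) (abs_nonneg h)
        refine mul_le_mul (by gcongr; linarith [hfw j (by omega), hr, norm_nonneg x])
          ((hmove j (by omega)).trans (by gcongr; omega)) (norm_nonneg _) (by positivity)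
      rw [e]
      push_cast
      linarith [norm_add_le (w - x - ((j : ℝ) * h) • q x x) (h • (q w w - q x x)), ih (by omega)]
  have := key N le_rfl
  rw [show (N : ℝ) * h = t by rw [hNr, hh]; field_simp] at this
  refine this.trans_eq ?_
  rw [hc, show (N : ℝ) * (|h| * (‖q‖ * (4 * r)) * (N * (|h| * (4 * ‖q‖ * r ^ 2)))) =
    16 * (|h| * |h| * (N * N)) * ‖q‖ ^ 2 * r ^ 3 by ring, abs_mul_abs_self, hNr, hh]
  field_simp

/-- A symmetric bilinear map whose partial maps generate isometries vanishes. -/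
theorem eq_zero_of_skew {W : Type*} [NormedAddCommGroup W] [NormedSpace ℝ W] [CompleteSpace W]
    (q : W →L[ℝ] W →L[ℝ] W) (hsym : ∀ u x, q u x = q x u) {C : ℝ}
    (hskew : ∀ u x : W, ∀ τ : ℝ, ‖x + τ • q u x‖ ≤ ‖x‖ + C * τ ^ 2 * ‖u‖ ^ 2 * ‖x‖) : q = 0 := by
  have hq : IsSkew q |C| := by
    refine ⟨abs_nonneg C, hsym, fun u x τ => (hskew u x τ).trans ?_⟩
    nlinarith [mul_le_mul_of_nonneg_right (le_abs_self C)
      (by positivity : (0 : ℝ) ≤ τ ^ 2 * ‖u‖ ^ 2 * ‖x‖)]
  have hlin : ∀ t x, flow q t ((2 : ℝ) • x) = (2 : ℝ) • flow q t x := by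
    intro t x
    let e : W ≃ᵢ W :=
      { toFun := flow q t
        invFun := flow q (-t)
        left_inv := flow_neg_flow hq t
        right_inv := fun y => by simpa using flow_neg_flow hq (-t) y
        isometry_toFun := Isometry.of_dist_eq fun a b => by
          simp only [dist_eq_norm]
          refine le_antisymm (flow_dist_le hq t a b) ?_
          calc ‖a - b‖ = ‖flow q (-t) (flow q t a) - flow q (-t) (flow q t b)‖ := by
                rw [flow_neg_flow hq, flow_neg_flow hq]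
            _ ≤ _ := flow_dist_le hq (-t) _ _ }
    have h := (e.toRealLinearIsometryEquivOfMapZero (flow_zero hq t)).map_smul (2 : ℝ) x
    exact h
  have hQ : ∀ x, q x x = 0 := by
    intro x
    set K := 16 * ‖q‖ ^ 2 * ‖x‖ ^ 3 with hK
    have hb : ∀ t : ℝ, 0 < t → ‖q x x‖ ≤ 5 * K * t := by
      intro t ht
      have h1 := flow_first_order hq t x
      have h2 := flow_first_order hq t ((2 : ℝ) • x)
      rw [hlin] at h2
      simp only [map_smul, _root_.smul_apply, norm_smul, Real.norm_ofNat] at h2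
      have e : (2 * t) • q x x = (2 : ℝ) • (flow q t x - x - t • q x x) -
          ((2 : ℝ) • flow q t x - (2 : ℝ) • x - t • (2 : ℝ) • (2 : ℝ) • q x x) := by module
      have h3 := norm_sub_le ((2 : ℝ) • (flow q t x - x - t • q x x))
        ((2 : ℝ) • flow q t x - (2 : ℝ) • x - t • (2 : ℝ) • (2 : ℝ) • q x x)
      rw [← e, norm_smul, norm_smul, Real.norm_of_nonneg (by linarith : (0 : ℝ) ≤ 2 * t),
        Real.norm_ofNat] at h3
      refine le_of_mul_le_mul_left (h3.trans ?_) (by linarith : (0 : ℝ) < 2 * t)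
      rw [hK]
      linarith
    have hlim : Tendsto (fun t : ℝ => 5 * K * t) (𝓝[>] 0) (𝓝 0) := by
      refine Tendsto.mono_left ?_ nhdsWithin_le_nhds
      simpa using (continuous_id.const_mul (5 * K)).tendsto (0 : ℝ)
    exact norm_le_zero_iff.1 (ge_of_tendsto hlim (eventually_nhdsWithin_of_forall hb))
  refine ContinuousLinearMap.ext fun u => ContinuousLinearMap.ext fun x => ?_
  have h := hQ (u + x)
  simp only [map_add, _root_.add_apply, hQ u, hQ x, zero_add, add_zero] at h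
  rw [hsym x u, ← two_smul ℝ] at h
  simpa using h

end Vale.Agent.P084.Full
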