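import Mathlib.Analysis.Calculus.Deriv.Comp
import Vale.Agent.P084.Full.AlgebraStep
import Vale.Agent.P084.Full.Skew

/-!
# P084: at a maximiser the jet is a multiple of the form
-/

namespace Vale.Agent.P084.Full.AlgebraAux

open Filter Topology Set Metric AlgebraFlow Inf
open scoped NNReal

variable {E : Type*} [NormedAddCommGroup E] [NormedSpace ℝ E]

lemma eq_zero_of_line {x a : E} (h : ∀ t s : ℝ, ‖x + t • a‖ ≤ ‖x + t • a + s • a‖) : a = 0 := by
  by_contra ha
  set t := (2 * ‖x‖ + 1) / ‖a‖ with ht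
  have h1 := h t (-t)
  rw [neg_smul, add_neg_cancel_right] at h1
  have h2 := norm_sub_le (x + t • a) x
  rw [add_sub_cancel_left, norm_smul, Real.norm_of_nonneg (by positivity), ht,
    div_mul_cancel₀ _ (norm_ne_zero_iff.2 ha)] at h2
  linarith

/-- Solutions of a linear equation with velocity orthogonal to position have constant norm. -/
lemma exists_linear_sol [CompleteSpace E] (A : E →L[ℝ] E)
    (ho : ∀ x (s : ℝ), ‖x‖ ≤ ‖x + s • A x‖) (x₀ : E) {T : ℝ} (hT : 0 ≤ T) :
    ∃ y : ℝ → E, y 0 = x₀ ∧ (∀ t ∈ Icc (-T) T, HasDerivWithinAt y (A (y t)) (Icc (-T) T) t) ∧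
      ∀ t ∈ Icc (-T) T, ‖y t‖ = ‖x₀‖ :=
  exists_orth_sol (n := 1) (fun c x _ => by rw [map_smul, pow_one]) ho
    (fun R hR => ⟨(‖A‖ * R).toNNReal, ‖A‖₊, fun x hx => (A.le_opNorm x).trans (by
      rw [Real.coe_toNNReal _ (by positivity)]
      gcongr), A.lipschitz.lipschitzOnWith⟩) x₀ hT

namespace Maxi

variable {H : E →L[ℝ] E →L[ℝ] ℝ} {q : E →L[ℝ] E →L[ℝ] E} {e : E} (hM : Maxi H q e)
include hM

lemma exists_ker_flow [CompleteSpace E] {w : E} (hw : H e w = 0) {T : ℝ} (hT : 0 ≤ T) :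
    ∃ y : ℝ → E, y 0 = w ∧ (∀ t ∈ Icc (-T) T, HasDerivWithinAt y (q e (y t)) (Icc (-T) T) t) ∧
      ∀ t ∈ Icc (-T) T, H e (y t) = 0 ∧ ‖y t‖ = ‖w‖ := by
  let K : Submodule ℝ E := LinearMap.ker (H e).toLinearMap
  have hcl : IsClosed (K : Set E) := (H e).isClosed_ker
  have : CompleteSpace K := hcl.completeSpace_coe
  let A : K →L[ℝ] K := ((q e).comp K.subtypeL).codRestrict K fun x =>
    LinearMap.mem_ker.2 (hM.h_Aw (LinearMap.mem_ker.1 x.2))
  obtain ⟨y, y0, hy, hn⟩ := exists_linear_sol A (fun x s =>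
    hM.orth (u := e) (x := (x : E)) (LinearMap.mem_ker.1 x.2) s) ⟨w, LinearMap.mem_ker.2 hw⟩ hT
  exact ⟨fun t => (y t : E), by simp [y0],
    fun t ht => K.subtypeL.hasFDerivAt.comp_hasDerivWithinAt t (hy t ht),
    fun t ht => ⟨LinearMap.mem_ker.1 (y t).2, hn t ht⟩⟩

lemma sform_flat [CompleteSpace E] {w : E} (hw : H e w = 0) :
    hM.sform (q e w) (q e w) = 0 ∧ hM.sform w (q e w) = 0 := by
  set S := hM.sform with hS
  have hd : ∀ {T t : ℝ} {y z : ℝ → E} {y' z' : E},
      HasDerivWithinAt y y' (Icc (-T) T) t → HasDerivWithinAt z z' (Icc (-T) T) t →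
      HasDerivWithinAt (fun u => S (y u) (z u)) (S y' (z t) + S (y t) z') (Icc (-T) T) t :=
    fun hy hz => (S.hasFDerivAt.comp_hasDerivWithinAt _ hy).clm_apply hz
  have hAy : ∀ {T t : ℝ} {y : ℝ → E}, HasDerivWithinAt y (q e (y t)) (Icc (-T) T) t →
      HasDerivWithinAt (fun u => q e (y u)) (q e (q e (y t))) (Icc (-T) T) t :=
    fun hy => (q e).hasFDerivAt.comp_hasDerivWithinAt _ hy
  have first : ∀ w, H e w = 0 → S (q e w) (q e w) = 0 := by
    intro w hw
    have := deriv_eq_zero_of_convex_bdd (c := 2 * S (q e w) (q e w))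
      (B := ‖S‖ * ‖w‖ * (‖q e‖ * ‖w‖)) (fun T hT => by
      obtain ⟨y, y0, hy, hk⟩ := hM.exists_ker_flow hw hT.le
      refine ⟨fun t => S (y t) (q e (y t)), fun t => 2 * S (q e (y t)) (q e (y t)),
        fun t => 4 * S (q e (y t)) (q e (q e (y t))), fun t ht => ?_, fun t ht => ?_,
        fun t ht => ⟨?_, ?_⟩, by simp [y0]⟩
      · refine (hd (hy t ht) (hAy (hy t ht))).congr_deriv ?_
        have := hM.sform_comm (hk t ht).1 (hM.h_Aw (hk t ht).1)
        rw [← hS] at this
        linarith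
      · refine ((hd (hAy (hy t ht)) (hAy (hy t ht))).const_mul 2).congr_deriv ?_
        rw [hS, hM.sform_symm (q e (q e (y t)))]
        ring
      · have := hM.H_le_sform (hM.h_Aw (hk t ht).1)
        have := hM.hpos (q e (q e (y t)))
        rw [hS]
        linarith
      · rw [← Real.norm_eq_abs]
        refine (S.le_opNorm₂ _ _).trans ?_
        rw [(hk t ht).2]
        gcongr
        rw [← (hk t ht).2]
        exact (q e).le_opNorm _)
    linarith
  refine ⟨first w hw, ?_⟩
  have := deriv_eq_zero_of_convex_bdd (c := 2 * S w (q e w)) (B := ‖S‖ * ‖w‖ * ‖w‖)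
    (fun T hT => by
    obtain ⟨y, y0, hy, hk⟩ := hM.exists_ker_flow hw hT.le
    refine ⟨fun t => S (y t) (y t), fun t => 2 * S (y t) (q e (y t)),
      fun t => 4 * S (q e (y t)) (q e (y t)), fun t ht => ?_, fun t ht => ?_,
      fun t ht => ⟨?_, ?_⟩, by simp [y0]⟩
    · refine (hd (hy t ht) (hy t ht)).congr_deriv ?_
      rw [hS, hM.sform_symm (q e (y t)) (y t)]
      ring
    · refine ((hd (hy t ht) (hAy (hy t ht))).const_mul 2).congr_deriv ?_
      have := hM.sform_comm (hk t ht).1 (hM.h_Aw (hk t ht).1)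
      rw [← hS] at this
      linarith
    · simp only [first _ (hk t ht).1, mul_zero, le_refl]
    · rw [← Real.norm_eq_abs]
      refine (S.le_opNorm₂ _ _).trans ?_
      rw [(hk t ht).2])
  linarith

lemma sform_zero [CompleteSpace E] {u w : E} (hu : H e u = 0) (hw : H e w = 0) :
    hM.sform u (q e w) = 0 := by
  have h := (hM.sform_flat (w := u + w) (by rw [map_add, hu, hw, add_zero])).2
  have h1 := (hM.sform_flat hu).2
  have h2 := (hM.sform_flat hw).2
  have h3 := hM.sform_comm hu hw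
  simp only [map_add, add_apply] at h
  linarith

/-- The vectors which are flat and invisible to `H e`. -/
def flatSub (_hM : Maxi H q e) : Submodule ℝ E where
  carrier := {v | (∀ y, H v y = 0) ∧ ∀ y, H e (q v y) = 0}
  add_mem' {a b} ha hb := ⟨fun y => by simp [ha.1 y, hb.1 y], fun y => by simp [ha.2 y, hb.2 y]⟩
  zero_mem' := ⟨fun y => by simp, fun y => by simp⟩
  smul_mem' c a ha := ⟨fun y => by simp [ha.1 y], fun y => by simp [ha.2 y]⟩

omit hM in
lemma isClosed_flatSub (hM : Maxi H q e) : IsClosed (hM.flatSub : Set E) := by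
  have : (hM.flatSub : Set E) = (⋂ y, {v | H v y = 0}) ∩ ⋂ y, {v | H e (q v y) = 0} := by
    ext v; simp [flatSub]
  rw [this]
  exact (isClosed_iInter fun y => isClosed_eq (by fun_prop) continuous_const).inter
    (isClosed_iInter fun y => isClosed_eq (by fun_prop) continuous_const)

lemma Aw_mem_flatSub [CompleteSpace E] {w : E} (hw : H e w = 0) : q e w ∈ hM.flatSub := by
  have hz0 : H (q e w) (q e w) = 0 := by
    refine le_antisymm ?_ (hM.hpos _)
    have := hM.H_le_sform hw
    rwa [(hM.sform_flat hw).2] at this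
  refine ⟨fun y => hM.eq_of_sq hz0, fun y => ?_⟩
  have h1 : H e (y - H e y • e) = 0 := by
    rw [map_sub, map_smul, smul_eq_mul, hM.He, mul_one, sub_self]
  have h2 := hM.sform_zero h1 hw
  rw [sform_apply, hM.hsym (y - H e y • e) (q e w), hM.eq_of_sq hz0, mul_zero, zero_sub,
    neg_eq_zero] at h2
  have h3 : H e (q e (q e w)) = 0 := hM.h_Aw (hM.h_Aw hw)
  rw [hM.qsym (y - H e y • e) (q e w), map_sub, map_smul, hM.qsym (q e w) e, map_sub, map_smul,
    h3, smul_zero, sub_zero] at h2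
  exact h2

/-- The maximisers with the same covector. -/
def face (_hM : Maxi H q e) : Set E := {x | H e x = 1 ∧ ‖x‖ ≤ 1}

lemma face_sub_mem {x : E} (hx : x ∈ hM.face) : x - e ∈ hM.flatSub := by
  obtain ⟨hx1, hxn⟩ := hx
  have hxx : H x x = 1 := by
    refine le_antisymm ((hM.max x).trans (pow_le_one₀ (norm_nonneg x) hxn)) ?_
    have := hM.hpos (x - e)
    simp only [map_sub, sub_apply, hM.He, hx1, hM.hsym x e] at this
    linarith
  have hnorm : ‖x‖ = 1 := by
    refine le_antisymm hxn ?_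
    have := hM.max x
    rw [hxx] at this
    nlinarith [norm_nonneg x]
  have h0 : H (x - e) (x - e) = 0 := by
    simp only [map_sub, sub_apply, hM.He, hx1, hxx, hM.hsym x e]
    norm_num
  have hHx : ∀ y, H x y = H e y := fun y => by
    have := hM.eq_of_sq h0 (v := y)
    rwa [map_sub, sub_apply, sub_eq_zero] at this
  have hMx : Maxi H q x :=
    { hsym := hM.hsym, hpos := hM.hpos, qsym := hM.qsym, jbound := hM.jbound, norm_e := hnorm,
      He := hxx, max := hM.max }
  refine ⟨fun y => hM.eq_of_sq h0, fun y => ?_⟩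
  have hμ : H e (q x x) = H e (q e e) := by
    have a := hMx.h_q e
    rw [hHx, hHx, hHx, hM.He, mul_one] at a
    rw [← a, hM.qsym e x, hM.h_q, hx1, mul_one]
  have a := hMx.h_q y
  rw [hHx, hHx, hHx, hμ, hM.qsym y x] at a
  rw [map_sub, sub_apply, map_sub, a, hM.qsym e y, hM.h_q y, sub_self]

/-- The closed span of the differences of maximisers. -/
def faceSub (hM : Maxi H q e) : Submodule ℝ E :=
  (Submodule.span ℝ ((fun x => x - e) '' hM.face)).topologicalClosure

lemma faceSub_le : hM.faceSub ≤ hM.flatSub :=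
  Submodule.topologicalClosure_minimal _
    (Submodule.span_le.2 (image_subset_iff.2 fun _ hx => hM.face_sub_mem hx)) hM.isClosed_flatSub

lemma e_mem_face : e ∈ hM.face := ⟨hM.He, hM.norm_e.le⟩

lemma q_face_mem [CompleteSpace E] {v x : E} (hv : v ∈ hM.flatSub) (hx : x ∈ hM.face) :
    q v x ∈ hM.faceSub := by
  obtain ⟨y, y0, hy, hn⟩ := exists_linear_sol (q v) (fun z s => hM.orth (hv.1 z) s) x zero_le_one
  have hcl : IsClosed (hM.faceSub : Set E) := Submodule.isClosed_topologicalClosure _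
  have hmem : ∀ t ∈ Icc (-1 : ℝ) 1, y t - e ∈ hM.faceSub := by
    intro t ht
    refine Submodule.le_topologicalClosure _ (Submodule.subset_span ⟨y t, ⟨?_, ?_⟩, rfl⟩)
    · have hf : ∀ u ∈ Icc (-1 : ℝ) 1,
          HasDerivWithinAt (fun u => H e (y u) - 1) 0 (Icc (-1) 1) u := fun u hu => by
        have := ((H e).hasFDerivAt.comp_hasDerivWithinAt u (hy u hu)).sub_const 1
        rwa [hv.2] at this
      have h0 : ‖H e (y 0) - 1‖ = 0 := by rw [y0, hx.1, sub_self, norm_zero]
      have hzero : ‖H e (y t) - 1‖ = 0 := by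
        rcases le_total 0 t with h | h
        · have hsub : Icc 0 t ⊆ Icc (-1 : ℝ) 1 := Icc_subset_Icc (by norm_num) ht.2
          rw [norm_eq_of_orth h (v := fun _ => (0 : ℝ)) (fun u hu => (hf u (hsub hu)).mono hsub)
            (fun u _ s => by simp), h0]
        · have hsub : Icc t 0 ⊆ Icc (-1 : ℝ) 1 := Icc_subset_Icc ht.1 zero_le_one
          rw [← norm_eq_of_orth h (v := fun _ => (0 : ℝ)) (fun u hu => (hf u (hsub hu)).mono hsub)
            (fun u _ s => by simp), h0]
      exact sub_eq_zero.1 (norm_eq_zero.1 hzero)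
    · rw [hn t ht]; exact hx.2
  have h0m : (0 : ℝ) ∈ Ico (-1 : ℝ) 1 := by norm_num
  have hd : HasDerivWithinAt y (q v x) (Ioi 0) 0 := by
    have := hy 0 (Ico_subset_Icc_self h0m)
    rw [y0] at this
    exact (this.mono_of_mem_nhdsWithin (Icc_mem_nhdsGE_of_mem h0m)).mono Ioi_subset_Ici_self
  refine hcl.mem_of_tendsto ((hasDerivWithinAt_iff_tendsto_slope' self_notMem_Ioi).1 hd) ?_
  filter_upwards [Ioo_mem_nhdsGT (show (0 : ℝ) < 1 by norm_num)] with t ht
  show slope y 0 t ∈ hM.faceSub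
  rw [slope_def_module, show y t - y 0 = (y t - e) - (y 0 - e) by abel]
  exact Submodule.smul_mem _ _ (Submodule.sub_mem _
    (hmem t ⟨by linarith [ht.1], ht.2.le⟩) (hmem 0 (Ico_subset_Icc_self h0m)))

lemma q_faceSub_mem [CompleteSpace E] {v a : E} (hv : v ∈ hM.flatSub) (ha : a ∈ hM.faceSub) :
    q v a ∈ hM.faceSub := by
  refine (Submodule.topologicalClosure_minimal _ (t := hM.faceSub.comap (q v).toLinearMap)
    (Submodule.span_le.2 ?_)
    ((Submodule.isClosed_topologicalClosure _).preimage (q v).continuous)) ha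
  rintro _ ⟨x, hx, rfl⟩
  show q v (x - e) ∈ hM.faceSub
  rw [map_sub]
  exact Submodule.sub_mem _ (hM.q_face_mem hv hx) (hM.q_face_mem hv hM.e_mem_face)

lemma q_faceSub_eq_zero [CompleteSpace E] {v a : E} (hv : v ∈ hM.faceSub) (ha : a ∈ hM.faceSub) :
    q v a = 0 := by
  let W := hM.faceSub
  have hcl : IsClosed (W : Set E) := Submodule.isClosed_topologicalClosure _
  have : CompleteSpace W := hcl.completeSpace_coe
  let qW : W →L[ℝ] W →L[ℝ] W := LinearMap.mkContinuous₂
    (LinearMap.mk₂ ℝ (fun u z : W => (⟨q u z, hM.q_faceSub_mem (hM.faceSub_le u.2) z.2⟩ : W))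
      (fun _ _ _ => Subtype.ext (by simp)) (fun _ _ _ => Subtype.ext (by simp))
      (fun _ _ _ => Subtype.ext (by simp)) (fun _ _ _ => Subtype.ext (by simp)))
    ‖q‖ (fun u z => q.le_opNorm₂ (u : E) (z : E))
  obtain ⟨D, C, hC, hJ⟩ := hM.jbound
  have h0 := eq_zero_of_skew qW (fun u z => Subtype.ext (hM.qsym u z)) (C := C) (fun u z τ => by
    have := hJ (u : E) (z : E) τ
    rw [(hM.faceSub_le u.2).1, abs_zero, mul_zero, add_zero] at this
    exact this)
  exact congrArg (fun T : W →L[ℝ] W →L[ℝ] W => ((T ⟨v, hv⟩ ⟨a, ha⟩ : W) : E)) h0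

/-- The partial map at the maximiser. -/
theorem q_e [CompleteSpace E] (x : E) : q e x = H e x • q e e := by
  have key : ∀ w, H e w = 0 → q e w = 0 := by
    intro w hw
    set z := q e w with hz
    set a := q e z with ha
    have hzF : z ∈ hM.flatSub := hM.Aw_mem_flatSub hw
    have haV : a ∈ hM.faceSub := by
      have := hM.q_face_mem hzF hM.e_mem_face
      rwa [hM.qsym] at this
    have haa : q e a = 0 := by
      have hb := hM.q_face_mem (hM.faceSub_le haV) hM.e_mem_face
      refine (hM.qsym e a).trans (eq_zero_of_line (x := e) fun t s => ?_)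
      have h1 : q a (e + t • q a e) = q a e := by
        rw [map_add, map_smul, hM.q_faceSub_eq_zero haV hb, smul_zero, add_zero]
      have := hM.orth ((hM.faceSub_le haV).1 (e + t • q a e)) s
      rwa [h1] at this
    have hz0 : H e z = 0 := hM.h_Aw hw
    have ha0 : a = 0 := eq_zero_of_line (x := z) fun t s => by
      have h1 : q e (z + t • a) = a := by rw [map_add, map_smul, haa, smul_zero, add_zero]
      have := hM.orth (u := e) (x := z + t • a) (by
        rw [map_add, map_smul, hz0, ha, hM.h_Aw hz0, smul_zero, add_zero]) s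
      rwa [h1] at this
    exact eq_zero_of_line (x := w) fun t s => by
      have h1 : q e (w + t • z) = z := by rw [map_add, map_smul, ← ha, ha0, smul_zero, add_zero]
      have := hM.orth (u := e) (x := w + t • z) (by
        rw [map_add, map_smul, hw, hz0, smul_zero, add_zero]) s
      rwa [h1] at this
  have := key (x - H e x • e) (by rw [map_sub, map_smul, smul_eq_mul, hM.He, mul_one, sub_self])
  rwa [map_sub, map_smul, sub_eq_zero] at this

/-- The jet is a multiple of the form. -/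
theorem rank_one [CompleteSpace E] (u x : E) : q u x = H u x • q e e := by
  set G := q e e with hG
  let B : E →L[ℝ] E →L[ℝ] E := ((ContinuousLinearMap.smulRightL ℝ E E).flip G).comp H - q
  have hB : ∀ u x, B u x = H u x • G - q u x := fun u x => by simp [B]
  obtain ⟨D, C, hC, hJ⟩ := hM.jbound
  have hBe : ∀ u, B u e = 0 := fun u => by
    rw [hB, hM.qsym u e, hM.q_e, hM.hsym u e, sub_self]
  have good : ∀ u y : E, H e y ≠ 0 → ∀ c : ℝ, Dn y (c • B u y) ≤ 0 := by
    intro u y hy c
    set v := (c / H e y) • (H u y • e - H e y • u) with hv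
    have h1 : H v y = 0 := by
      simp only [hv, map_sub, map_smul, sub_apply, smul_apply, smul_eq_mul]
      ring
    have h2 : q v y = c • B u y := by
      simp only [hv, map_sub, map_smul, sub_apply, smul_apply, hB, hM.q_e y, smul_sub, smul_smul]
      congr 2 <;> field_simp
    refine le_of_forall_pos_le_add fun ε hε => ?_
    have hK : 0 < C * ‖v‖ ^ 2 * ‖y‖ + 1 := by positivity
    set t := ε / (C * ‖v‖ ^ 2 * ‖y‖ + 1) with ht
    have ht0 : 0 < t := div_pos hε hK
    have h3 := hJ v y t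
    rw [h1, abs_zero, mul_zero, add_zero, h2] at h3
    have h4 := Dn_le_quot y (c • B u y) ht0
    have h5 : t⁻¹ * (‖y + t • c • B u y‖ - ‖y‖) ≤ t⁻¹ * (t * (t * (C * ‖v‖ ^ 2 * ‖y‖))) :=
      mul_le_mul_of_nonneg_left (by linarith) (inv_nonneg.2 ht0.le)
    rw [inv_mul_cancel_left₀ ht0.ne'] at h5
    have h6 : t * (C * ‖v‖ ^ 2 * ‖y‖) ≤ ε := by
      rw [ht, div_mul_eq_mul_div, div_le_iff₀ hK]
      nlinarith
    linarith
  have h0 := eq_zero_of_skew B (fun u x => by rw [hB, hB, hM.hsym, hM.qsym]) (C := ‖B‖ ^ 2)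
    (fun u x τ => by
    have hne : ∀ x : E, H e (x + τ • B u x) ≠ 0 →
        ‖x + τ • B u x‖ ≤ ‖x‖ + τ ^ 2 * ‖B u (B u x)‖ := by
      intro x hy
      set y := x + τ • B u x with hydef
      have h1 := norm_add_ge y (-(τ • B u x))
      rw [hydef, add_neg_cancel_right, ← hydef] at h1
      have e1 : τ • B u x = τ • B u y + (-(τ ^ 2)) • B u (B u x) := by
        rw [hydef, map_add, map_smul, smul_add, smul_smul, ← sq]
        module
      have h2 := Dn_add_le y (τ • B u y) ((-(τ ^ 2)) • B u (B u x))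
      rw [← e1] at h2
      have h3 := good u y hy τ
      have h4 := (abs_le.1 (abs_Dn_le y ((-(τ ^ 2)) • B u (B u x)))).2
      rw [norm_smul, norm_neg, Real.norm_of_nonneg (sq_nonneg τ)] at h4
      have h5 := Dn_add_neg_nonneg y (τ • B u x)
      linarith
    have hall : ‖x + τ • B u x‖ ≤ ‖x‖ + τ ^ 2 * ‖B u (B u x)‖ := by
      by_cases hy : H e (x + τ • B u x) = 0
      · have hc : Continuous fun t : ℝ => x + t • e := by fun_prop
        have hlim : Tendsto (fun t : ℝ => x + t • e) (𝓝[>] 0) (𝓝 x) := by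
          simpa using (hc.tendsto 0).mono_left nhdsWithin_le_nhds
        refine le_of_tendsto_of_tendsto (b := 𝓝[>] (0 : ℝ))
          (((continuous_id.add ((B u).continuous.const_smul τ)).norm.tendsto x).comp hlim)
          ((((continuous_norm.add ((((B u).continuous.comp (B u).continuous).norm).const_mul
            (τ ^ 2))).tendsto x).comp hlim)) ?_
        filter_upwards [self_mem_nhdsWithin] with t (ht : 0 < t)
        refine hne _ ?_
        show H e (x + t • e + τ • B u (x + t • e)) ≠ 0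
        rw [map_add (B u), map_smul (B u), hBe, smul_zero, add_zero, add_right_comm, map_add, hy,
          map_smul, hM.He, zero_add, smul_eq_mul, mul_one]
        exact ht.ne'
      · exact hne x hy
    refine hall.trans (add_le_add le_rfl ?_)
    have h6 : ‖B u (B u x)‖ ≤ ‖B‖ ^ 2 * ‖u‖ ^ 2 * ‖x‖ := by
      refine (B.le_opNorm₂ _ _).trans ?_
      calc ‖B‖ * ‖u‖ * ‖B u x‖ ≤ ‖B‖ * ‖u‖ * (‖B‖ * ‖u‖ * ‖x‖) := by
            gcongr; exact B.le_opNorm₂ _ _
        _ = ‖B‖ ^ 2 * ‖u‖ ^ 2 * ‖x‖ := by ring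
    calc τ ^ 2 * ‖B u (B u x)‖ ≤ τ ^ 2 * (‖B‖ ^ 2 * ‖u‖ ^ 2 * ‖x‖) := by gcongr
      _ = ‖B‖ ^ 2 * τ ^ 2 * ‖u‖ ^ 2 * ‖x‖ := by ring)
  have := congrArg (fun T : E →L[ℝ] E →L[ℝ] E => T u x) h0
  simp only [hB, zero_apply, sub_eq_zero] at this
  exact this.symm

end Maxi

end Vale.Agent.P084.Full.AlgebraAux
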