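import Mathlib.Analysis.Normed.Operator.Bilinear
import Mathlib.LinearAlgebra.Basis.VectorSpace
import Vale.Agent.P084.Inf.Ultra
import Vale.Agent.P084.Full.AlgebraBound

/-!
# P084: bilinear maps and the norm bound on the ultrapower
-/

namespace Vale.Agent.P084.Full.AlgebraAux

open Inf Filter Topology Set
open scoped BoundedContinuousFunction

variable {V W Z : Type*} [NormedAddCommGroup V] [NormedSpace ℝ V] [NormedAddCommGroup W]
  [NormedSpace ℝ W] [NormedAddCommGroup Z] [NormedSpace ℝ Z]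

lemma exists_uf_lim {a : ℕ → ℝ} {B : ℝ} (h : ∀ n, |a n| ≤ B) : ∃ L, Tendsto a uf (𝓝 L) := by
  obtain ⟨L, -, hlim⟩ := (isCompact_Icc (a := -B) (b := B)).ultrafilter_le_nhds
    ((Filter.hyperfilter ℕ).map a)
    (le_principal_iff.2 (mem_map.2 (univ_mem' fun n => abs_le.1 (h n))))
  exact ⟨L, hlim⟩

/-- A bilinear map on sequences bounded by the ultrapower norms descends. -/
lemma exists_descend (P : (ℕ →ᵇ V) →ₗ[ℝ] (ℕ →ᵇ V) →ₗ[ℝ] Z) {C : ℝ}
    (hC : ∀ f g, ‖P f g‖ ≤ C * ‖Ultra.mk f‖ * ‖Ultra.mk g‖) :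
    ∃ Q : Ultra V →L[ℝ] Ultra V →L[ℝ] Z, ∀ f g, Q (Ultra.mk f) (Ultra.mk g) = P f g := by
  obtain ⟨s, hs⟩ := (Ultra.mk (X := V)).exists_rightInverse_of_surjective
    (LinearMap.range_eq_top.2 fun a => Ultra.exists_rep a)
  have hs' : ∀ a, Ultra.mk (s a) = a := fun a => LinearMap.congr_fun hs a
  refine ⟨LinearMap.mkContinuous₂ (P.compl₁₂ s s) C fun a b => ?_, fun f g => ?_⟩
  · simpa [hs'] using hC (s a) (s b)
  · have h1 : P (s (Ultra.mk f) - f) (s (Ultra.mk g)) = 0 :=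
      norm_le_zero_iff.1 ((hC _ _).trans_eq (by simp [hs']))
    have h2 : P f (s (Ultra.mk g) - g) = 0 :=
      norm_le_zero_iff.1 ((hC _ _).trans_eq (by simp [hs']))
    rw [map_sub, LinearMap.sub_apply, sub_eq_zero] at h1
    rw [map_sub, sub_eq_zero] at h2
    simp [h1, h2]

/-- The componentwise bilinear map. -/
noncomputable def seqBil (q : V →L[ℝ] V →L[ℝ] W) (f g : ℕ →ᵇ V) : ℕ →ᵇ W :=
  .ofNormedAddCommGroupDiscrete (fun n => q (f n) (g n)) (‖q‖ * ‖f‖ * ‖g‖) fun n =>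
    (q.le_opNorm₂ _ _).trans (by gcongr <;> exact BoundedContinuousFunction.norm_coe_le_norm _ n)

@[simp] lemma seqBil_apply (q : V →L[ℝ] V →L[ℝ] W) (f g : ℕ →ᵇ V) (n : ℕ) :
    seqBil q f g n = q (f n) (g n) := rfl

lemma exists_ultra_bil (q : V →L[ℝ] V →L[ℝ] W) :
    ∃ Q : Ultra V →L[ℝ] Ultra V →L[ℝ] Ultra W,
      ∀ f g, Q (Ultra.mk f) (Ultra.mk g) = Ultra.mk (seqBil q f g) := by
  refine exists_descend (LinearMap.mk₂ ℝ (fun f g => Ultra.mk (seqBil q f g))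
    (fun f f' g => ?_) (fun c f g => ?_) (fun f g g' => ?_) (fun c f g => ?_)) (C := ‖q‖)
    fun f g => ?_
  · rw [← map_add]; congr 1; ext n; simp
  · rw [← map_smul]; congr 1; ext n; simp
  · rw [← map_add]; congr 1; ext n; simp
  · rw [← map_smul]; congr 1; ext n; simp
  · exact le_of_tendsto_of_tendsto' (Ultra.tendsto_norm _)
      (((Ultra.tendsto_norm f).const_mul ‖q‖).mul (Ultra.tendsto_norm g))
      fun n => q.le_opNorm₂ _ _

lemma exists_ultra_form (H : V →L[ℝ] V →L[ℝ] ℝ) :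
    ∃ K : Ultra V →L[ℝ] Ultra V →L[ℝ] ℝ, ∀ f g : ℕ →ᵇ V,
      Tendsto (fun n => H (f n) (g n)) uf (𝓝 (K (Ultra.mk f) (Ultra.mk g))) := by
  have hex : ∀ f g : ℕ →ᵇ V, ∃ L, Tendsto (fun n => H (f n) (g n)) uf (𝓝 L) := fun f g =>
    exists_uf_lim (B := ‖seqBil H f g‖) fun n => (seqBil H f g).norm_coe_le_norm n
  choose L hL using hex
  have huniq : ∀ {f g : ℕ →ᵇ V} {l : ℝ}, Tendsto (fun n => H (f n) (g n)) uf (𝓝 l) → L f g = l :=
    fun h => tendsto_nhds_unique (hL _ _) h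
  obtain ⟨K, hK⟩ := exists_descend (LinearMap.mk₂ ℝ L
    (fun f f' g => huniq (((hL f g).add (hL f' g)).congr fun n => by simp))
    (fun c f g => huniq (((hL f g).const_mul c).congr fun n => by simp))
    (fun f g g' => huniq (((hL f g).add (hL f g')).congr fun n => by simp))
    (fun c f g => huniq (((hL f g).const_mul c).congr fun n => by simp))) (C := ‖H‖)
    fun f g => le_of_tendsto_of_tendsto' (hL f g).norm
      (((Ultra.tendsto_norm f).const_mul ‖H‖).mul (Ultra.tendsto_norm g))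
      fun n => H.le_opNorm₂ _ _
  exact ⟨K, fun f g => by rw [hK]; exact hL f g⟩

lemma jBound_ultra {H : V →L[ℝ] V →L[ℝ] ℝ} {q : V →L[ℝ] V →L[ℝ] V} {D C : ℝ}
    (hJ : JBound H q D C) {Q : Ultra V →L[ℝ] Ultra V →L[ℝ] Ultra V}
    {K : Ultra V →L[ℝ] Ultra V →L[ℝ] ℝ}
    (hQ : ∀ f g, Q (Ultra.mk f) (Ultra.mk g) = Ultra.mk (seqBil q f g))
    (hK : ∀ f g : ℕ →ᵇ V,
      Tendsto (fun n => H (f n) (g n)) uf (𝓝 (K (Ultra.mk f) (Ultra.mk g)))) :
    JBound K Q D C := by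
  refine ⟨hJ.1, fun a b τ => ?_⟩
  obtain ⟨f, rfl⟩ := Ultra.exists_rep a
  obtain ⟨g, rfl⟩ := Ultra.exists_rep b
  rw [hQ, ← map_smul, ← map_add]
  refine le_of_tendsto_of_tendsto' (Ultra.tendsto_norm _)
    (((Ultra.tendsto_norm g).add ((hK f g).abs.const_mul (D * |τ|))).add
      ((((Ultra.tendsto_norm f).pow 2).const_mul (C * τ ^ 2)).mul (Ultra.tendsto_norm g)))
    fun n => ?_
  simpa using hJ.2 (f n) (g n) τ

end Vale.Agent.P084.Full.AlgebraAux
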