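import Vale.Agent.P084.Inf.Superquad
import Vale.Agent.P084.Full.Skew
import Vale.Agent.P084.Full.AlgebraKill
import Vale.Agent.P084.Full.AlgebraUltra

/-!
# P084: the second-order jet has rank one
-/

namespace Vale.Agent.P084.Full

open Inf Filter Topology Set Metric AlgebraAux
open scoped BoundedContinuousFunction

/-- A symmetric jet which the norm annihilates on the kernel of a positive form is a multiple of
that form. -/
theorem exists_rank_one {V : Type*} [NormedAddCommGroup V] [NormedSpace ℝ V] [CompleteSpace V]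
    [TopologicalSpace.SeparableSpace V] (H : V →L[ℝ] V →L[ℝ] ℝ) (q : V →L[ℝ] V →L[ℝ] V)
    (hHsym : ∀ u x, H u x = H x u) (hHpos : ∀ u, 0 ≤ H u u) (hqsym : ∀ u x, q u x = q x u)
    (hsmooth : ∀ v : V, Smooth v → ∀ u, |Dn v (q u v)| ≤ 2 * |H u v|) :
    ∃ G : V, ∀ u x, q u x = H u x • G := by
  have hJ := jBound_of_smooth H q hsmooth
  by_cases h0 : ∀ v, H v v = 0
  · have hH : ∀ u x, H u x = 0 := fun u x => by
      have := h0 (u + x)
      simp only [map_add, add_apply, h0 u, h0 x, hHsym x u] at this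
      linarith
    refine ⟨0, fun u x => ?_⟩
    have hq := eq_zero_of_skew q hqsym (C := 2 * ‖H‖ * ‖q‖ + ‖q‖ ^ 2) fun u x τ => by
      simpa [hH] using hJ.2 u x τ
    simp [hq]
  obtain ⟨v₀, hv₀⟩ := not_forall.1 h0
  set S : Set ℝ := (fun v => H v v) '' closedBall 0 1 with hS
  have hne : S.Nonempty := ⟨_, 0, mem_closedBall_self zero_le_one, rfl⟩
  have hbdd : BddAbove S := by
    refine ⟨‖H‖, ?_⟩
    rintro _ ⟨v, hv, rfl⟩
    rw [mem_closedBall_zero_iff] at hv
    refine (le_abs_self (H v v)).trans ((H.le_opNorm₂ v v).trans ?_)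
    calc ‖H‖ * ‖v‖ * ‖v‖ ≤ ‖H‖ * 1 * 1 := by gcongr
      _ = ‖H‖ := by ring
  set m := sSup S with hm
  have hle : ∀ v, H v v ≤ m * ‖v‖ ^ 2 := by
    intro v
    rcases eq_or_ne v 0 with rfl | hv
    · simp
    have := le_csSup hbdd (mem_image_of_mem (fun v => H v v) (mem_closedBall_zero_iff.2
      (le_of_eq (norm_smul_inv_norm (𝕜 := ℝ) hv))))
    simp only [map_smul, smul_apply, smul_eq_mul, RCLike.ofReal_real_eq_id, id_eq] at this
    rw [← hm, ← mul_assoc, ← sq, inv_pow, inv_mul_le_iff₀ (by positivity)] at this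
    linarith
  have hm0 : 0 < m := by
    by_contra hm'
    exact hv₀ (le_antisymm
      ((hle v₀).trans (mul_nonpos_of_nonpos_of_nonneg (not_lt.1 hm') (sq_nonneg _))) (hHpos v₀))
  have hseq : ∀ n : ℕ, ∃ v : V, ‖v‖ ≤ 1 ∧ m - 1 / (n + 1) ≤ H v v := by
    intro n
    obtain ⟨_, ⟨v, hv, rfl⟩, h⟩ :=
      exists_lt_of_lt_csSup hne (sub_lt_self m (show (0 : ℝ) < 1 / (n + 1) by positivity))
    exact ⟨v, mem_closedBall_zero_iff.1 hv, h.le⟩
  choose v hv1 hv2 using hseq
  let f : ℕ →ᵇ V := .ofNormedAddCommGroupDiscrete v 1 hv1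
  obtain ⟨Q, hQ⟩ := exists_ultra_bil q
  obtain ⟨K, hK⟩ := exists_ultra_form H
  set e := Ultra.mk f with he
  have hKe : K e e = m := by
    have hlo : Tendsto (fun n : ℕ => m - 1 / ((n : ℝ) + 1)) uf (𝓝 m) := by
      simpa using (tendsto_one_div_add_atTop_nhds_zero_nat.mono_left
        Nat.hyperfilter_le_atTop).const_sub m
    exact tendsto_nhds_unique (hK f f) (tendsto_of_tendsto_of_tendsto_of_le_of_le hlo
      tendsto_const_nhds (fun n => hv2 n)
      fun n => le_csSup hbdd ⟨v n, mem_closedBall_zero_iff.2 (hv1 n), rfl⟩)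
  have hmax : ∀ a, K a a ≤ m * ‖a‖ ^ 2 := fun a => by
    obtain ⟨g, rfl⟩ := Ultra.exists_rep a
    exact le_of_tendsto_of_tendsto' (hK g g) (((Ultra.tendsto_norm g).pow 2).const_mul m)
      fun n => hle (g n)
  have hne1 : ‖e‖ = 1 := by
    refine le_antisymm (le_of_tendsto' (Ultra.tendsto_norm f) hv1) ?_
    have := hmax e
    rw [hKe] at this
    have h2 : (1 : ℝ) ≤ ‖e‖ ^ 2 := le_of_mul_le_mul_left (by linarith) hm0
    nlinarith [norm_nonneg e]
  have hM : Maxi (m⁻¹ • K) Q e := by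
    refine ⟨fun a b => ?_, fun a => ?_, fun a b => ?_,
      ⟨2 * m, 2 * ‖H‖ * ‖q‖ + ‖q‖ ^ 2, hJ.1, fun a b τ => ?_⟩, hne1, ?_, fun a => ?_⟩
    · obtain ⟨g, rfl⟩ := Ultra.exists_rep a
      obtain ⟨g', rfl⟩ := Ultra.exists_rep b
      simp only [smul_apply]
      rw [tendsto_nhds_unique (hK g g') ((hK g' g).congr fun n => hHsym _ _)]
    · obtain ⟨g, rfl⟩ := Ultra.exists_rep a
      exact mul_nonneg (inv_nonneg.2 hm0.le) (ge_of_tendsto' (hK g g) fun n => hHpos _)
    · obtain ⟨g, rfl⟩ := Ultra.exists_rep a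
      obtain ⟨g', rfl⟩ := Ultra.exists_rep b
      rw [hQ, hQ]
      congr 1
      ext n
      exact hqsym _ _
    · refine ((jBound_ultra hJ hQ hK).2 a b τ).trans_eq ?_
      simp only [smul_apply, smul_eq_mul, abs_mul, abs_inv, abs_of_pos hm0]
      field_simp
    · simp only [smul_apply, smul_eq_mul, hKe]
      field_simp
    · simp only [smul_apply, smul_eq_mul]
      rw [inv_mul_le_iff₀ hm0]
      exact hmax a
  let c : V → Ultra V := fun x => Ultra.mk (BoundedContinuousFunction.const ℕ x)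
  have key : ∀ u x, c (q u x) = (m⁻¹ * H u x) • Q e e := by
    intro u x
    have h1 : Q (c u) (c x) = c (q u x) := by
      rw [hQ]; congr 1
    have h2 : K (c u) (c x) = H u x := tendsto_nhds_unique (hK _ _) (by simp)
    rw [← h1, hM.rank_one]
    simp [h2]
  refine ⟨(H v₀ v₀)⁻¹ • q v₀ v₀, fun u x => ?_⟩
  rw [← sub_eq_zero, ← norm_eq_zero, ← norm_mk_const, norm_eq_zero, smul_smul]
  have hc : c (q u x - (H u x * (H v₀ v₀)⁻¹) • q v₀ v₀)
      = c (q u x) - (H u x * (H v₀ v₀)⁻¹) • c (q v₀ v₀) := by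
    simp only [c]
    rw [← map_smul Ultra.mk, ← map_sub Ultra.mk]
    congr 1
  show c _ = 0
  rw [hc, key, key, smul_smul, sub_eq_zero]
  congr 1
  field_simp

end Vale.Agent.P084.Full
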