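import Vale.Agent.P084.Inf.Main
import Vale.Agent.P084.Inf.Frechet

/-! Points near which the second differences of the norm are quadratically small. -/

namespace Vale.Agent.P084.Full

open Inf Filter Topology Metric

variable {X Y Z : Type*} [NormedAddCommGroup X] [NormedSpace ℝ X] [NormedAddCommGroup Y]
  [NormedSpace ℝ Y] [NormedAddCommGroup Z] [NormedSpace ℝ Z]

/-- Near `a` the norm is of class `C^{1,1}`. -/
def C11At (a : X) : Prop :=
  ∃ r : ℝ, 0 < r ∧ ∃ C : ℝ, ∀ b h : X, ‖b - a‖ < r → ‖h‖ < r → nd b h ≤ C * ‖h‖ ^ 2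

lemma C11At.smooth {a : X} (h : C11At a) : Smooth a := by
  obtain ⟨r, hr, C, h⟩ := h
  exact smooth_of_quadratic hr fun u hu => h a u (by simpa using hr) hu

lemma C11At.eventually {a : X} (h : C11At a) : ∀ᶠ b in 𝓝 a, C11At b := by
  obtain ⟨r, hr, C, h⟩ := h
  filter_upwards [ball_mem_nhds a (half_pos hr)] with b hb
  refine ⟨r / 2, half_pos hr, C, fun c u hc hu => h c u ?_ (by linarith)⟩
  rw [mem_ball, dist_eq_norm] at hb
  linarith [norm_sub_le_norm_sub_add_norm_sub c b a]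

lemma C11At.neg {a : X} (h : C11At a) : C11At (-a) := by
  obtain ⟨r, hr, C, h⟩ := h
  refine ⟨r, hr, C, fun b u hb hu => ?_⟩
  have e : nd (-b) u = nd b u := by
    simp only [nd, norm_neg]
    rw [← norm_neg (b + u), ← norm_neg (b - u), neg_add, neg_sub, show u - b = -b + u by abel,
      ← sub_eq_add_neg]
    ring
  rw [← e]
  exact h _ u (by rwa [← norm_neg, neg_sub, sub_neg_eq_add, add_comm, ← sub_neg_eq_add]) hu

lemma C11At.smul {a : X} (h : C11At a) {c : ℝ} (hc : 0 < c) : C11At (c • a) := by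
  obtain ⟨r, hr, C, h⟩ := h
  refine ⟨c * r, mul_pos hc hr, C / c, fun b u hb hu => ?_⟩
  have e : b = c • (c⁻¹ • b) := (smul_inv_smul₀ hc.ne' b).symm
  rw [e, nd_smul_base _ _ hc]
  refine (mul_le_mul_of_nonneg_left (h _ _ ?_ ?_) hc.le).trans (le_of_eq ?_)
  · rw [show c⁻¹ • b - a = c⁻¹ • (b - c • a) by rw [smul_sub, inv_smul_smul₀ hc.ne'], norm_smul,
      norm_inv, Real.norm_of_nonneg hc.le, inv_mul_lt_iff₀ hc]
    exact hb
  · rwa [norm_smul, norm_inv, Real.norm_of_nonneg hc.le, inv_mul_lt_iff₀ hc]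
  · rw [norm_smul, norm_inv, Real.norm_of_nonneg hc.le]
    field_simp

open Classical in
/-- The continuous linear map with the given values, if there is one. -/
noncomputable def lin (f : X → Z) : X →L[ℝ] Z :=
  if h : ∃ A : X →L[ℝ] Z, ∀ v, A v = f v then h.choose else 0

lemma lin_apply {f : X → Z} {M : ℝ} (hadd : ∀ u v, f (u + v) = f u + f v)
    (hsmul : ∀ (c : ℝ) v, f (c • v) = c • f v) (hM : ∀ v, ‖f v‖ ≤ M * ‖v‖) (v : X) :
    lin f v = f v := by
  have h : ∃ A : X →L[ℝ] Z, ∀ v, A v = f v :=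
    ⟨({ toFun := f, map_add' := hadd, map_smul' := hsmul } : X →ₗ[ℝ] Z).mkContinuous M hM,
      fun _ => rfl⟩
  rw [lin, dif_pos h]
  exact h.choose_spec v

/-- The derivative of the norm as a functional. -/
noncomputable abbrev phi (a : X) : X →L[ℝ] ℝ := lin (Dn a)

lemma phi_apply {a : X} (h : Smooth a) (v : X) : phi a v = Dn a v :=
  lin_apply (M := 1) h.map_add (fun c u => h.map_smul c u)
    (fun u => by rw [one_mul, Real.norm_eq_abs]; exact abs_Dn_le a u) v

lemma gap_le_of_smooth {a : X} (h : Smooth a) (u : X) : gap a u ≤ nd a u := by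
  have := gap_le_nd a u
  rwa [h u, add_zero, mul_zero, sub_zero] at this

/-- A map with quadratically exact linearisations has a Lipschitz linearisation. -/
lemma norm_sub_le_of_taylor {f : X → Z} {D : X → X → Z} {a : X} {ρ K : ℝ} (hρ : 0 < ρ)
    (hadd : ∀ b ∈ ball a ρ, ∀ u v, D b (u + v) = D b u + D b v)
    (hsmul : ∀ b ∈ ball a ρ, ∀ (c : ℝ) v, D b (c • v) = c • D b v)
    (h : ∀ b ∈ ball a ρ, ∀ u, ‖u‖ < 4 * ρ → ‖f (b + u) - f b - D b u‖ ≤ K * ‖u‖ ^ 2)
    {b c : X} (hb : b ∈ ball a ρ) (hc : c ∈ ball a ρ) (v : X) :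
    ‖D c v - D b v‖ ≤ 6 * K * ‖c - b‖ * ‖v‖ := by
  rcases eq_or_ne c b with rfl | hcb
  · simp
  rcases eq_or_ne v 0 with rfl | hv
  · have h1 := hsmul b hb 0 0
    have h2 := hsmul c hc 0 0
    rw [zero_smul, zero_smul] at h1 h2
    simp [h1, h2]
  set d := c - b with hd
  have hd0 : 0 < ‖d‖ := norm_pos_iff.2 (sub_ne_zero.2 hcb)
  have hd2 : ‖d‖ < 2 * ρ := by
    have h1 := norm_sub_le_norm_sub_add_norm_sub c a b
    rw [norm_sub_rev a b] at h1
    rw [mem_ball, dist_eq_norm] at hb hc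
    linarith
  set t := ‖d‖ / ‖v‖ with ht
  have hv0 : 0 < ‖v‖ := norm_pos_iff.2 hv
  have ht0 : 0 < t := div_pos hd0 hv0
  have hw : ‖t • v‖ = ‖d‖ := by
    rw [norm_smul, Real.norm_of_nonneg ht0.le, ht, div_mul_cancel₀ _ hv0.ne']
  have hdw : ‖d + t • v‖ ≤ 2 * ‖d‖ := (norm_add_le _ _).trans (by rw [hw]; linarith)
  have e1 := h b hb (d + t • v) (by linarith)
  have e2 := h b hb d (by linarith)
  have e3 := h c hc (t • v) (by rw [hw]; linarith)
  have e : f (b + (d + t • v)) - f b - D b (d + t • v) - (f (b + d) - f b - D b d)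
      - (f (c + t • v) - f c - D c (t • v)) = D c (t • v) - D b (t • v) := by
    rw [hadd b hb, show b + (d + t • v) = c + t • v by rw [hd]; abel,
      show b + d = c by rw [hd]; abel]
    abel
  rw [hw] at e3
  have hK : 0 ≤ K := by
    rcases le_or_gt 0 K with h' | h'
    · exact h'
    · exact absurd ((norm_nonneg _).trans e2) (not_le.2 (mul_neg_of_neg_of_pos h' (by positivity)))
  have e4 : ‖t • (D c v - D b v)‖ ≤ 6 * K * ‖d‖ ^ 2 := by
    rw [smul_sub, ← hsmul c hc, ← hsmul b hb, ← e]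
    refine (norm_sub_le _ _).trans ((add_le_add (norm_sub_le _ _) le_rfl).trans ?_)
    have := mul_le_mul_of_nonneg_left (pow_le_pow_left₀ (norm_nonneg _) hdw 2) hK
    nlinarith
  rw [norm_smul, Real.norm_of_nonneg ht0.le] at e4
  refine le_of_mul_le_mul_left (e4.trans (le_of_eq ?_)) ht0
  rw [ht]
  field_simp

variable {T : X → Y} {T' : Y → X} [CompleteSpace Y]

/-- The derivative of the extension as an operator. -/
noncomputable abbrev dTc (T : X → Y) (a : X) : X →L[ℝ] Y := lin (dT T a)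

lemma dT_smul' (hT : IsTingley T T') {C : ℝ} (hC : Ctrl T C) {a : X} (ha : a ≠ 0) (hs : Smooth a)
    (c : ℝ) (v : X) : dT T a (c • v) = c • dT T a v := by
  rcases le_total 0 c with hc | hc
  · exact dT_smul hT hC ha v hc
  · have h := dT_smul hT hC ha v (neg_nonneg.2 hc)
    rw [neg_smul, dT_neg_of_smooth hT hC ha hs, neg_smul] at h
    exact neg_injective h

lemma norm_dT_le (hT : IsTingley T T') {C : ℝ} (hC : Ctrl T C) {a : X} (ha : a ≠ 0) (v : X) :
    ‖dT T a v‖ ≤ 3 * ‖v‖ := by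
  have := norm_dT_sub_le hT hC ha v 0
  rwa [dT_zero hT hC ha, sub_zero, sub_zero] at this

lemma dTc_apply (hT : IsTingley T T') {C : ℝ} (hC : Ctrl T C) {a : X} (ha : a ≠ 0) (hs : Smooth a)
    (v : X) : dTc T a v = dT T a v :=
  lin_apply (M := 3) (dT_add_of_smooth hT hC ha hs) (dT_smul' hT hC ha hs)
    (norm_dT_le hT hC ha) v

/-- Uniform second order data on a ball. -/
structure Reg (T : X → Y) (a : X) (ρ K : ℝ) : Prop where
  pos : 0 < ρ
  nonneg : 0 ≤ K
  ne : ∀ b ∈ ball a ρ, b ≠ 0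
  c11 : ∀ b ∈ ball a ρ, C11At b
  gap_le : ∀ b ∈ ball a ρ, ∀ u, ‖u‖ < ρ → gap b u ≤ K * ‖u‖ ^ 2
  taylor : ∀ b ∈ ball a ρ, ∀ u, ‖u‖ < ρ → ‖T (b + u) - T b - dTc T b u‖ ≤ K * ‖u‖ ^ 2
  phi_lip : ∀ b ∈ ball a ρ, ∀ c ∈ ball a ρ, ‖phi c - phi b‖ ≤ K * ‖c - b‖
  dT_lip : ∀ b ∈ ball a ρ, ∀ c ∈ ball a ρ, ‖dTc T c - dTc T b‖ ≤ K * ‖c - b‖

lemma Reg.mono {a : X} {ρ K ρ' K' : ℝ} (h : Reg T a ρ K) (hρ' : 0 < ρ') (hρ : ρ' ≤ ρ)
    (hK : K ≤ K') : Reg T a ρ' K' where
  pos := hρ'
  nonneg := h.nonneg.trans hK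
  ne b hb := h.ne b (ball_subset_ball hρ hb)
  c11 b hb := h.c11 b (ball_subset_ball hρ hb)
  gap_le b hb u hu := (h.gap_le b (ball_subset_ball hρ hb) u (hu.trans_le hρ)).trans
    (mul_le_mul_of_nonneg_right hK (sq_nonneg _))
  taylor b hb u hu := (h.taylor b (ball_subset_ball hρ hb) u (hu.trans_le hρ)).trans
    (mul_le_mul_of_nonneg_right hK (sq_nonneg _))
  phi_lip b hb c hc := (h.phi_lip b (ball_subset_ball hρ hb) c (ball_subset_ball hρ hc)).trans
    (mul_le_mul_of_nonneg_right hK (norm_nonneg _))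
  dT_lip b hb c hc := (h.dT_lip b (ball_subset_ball hρ hb) c (ball_subset_ball hρ hc)).trans
    (mul_le_mul_of_nonneg_right hK (norm_nonneg _))

theorem exists_reg (hT : IsTingley T T') {C : ℝ} (hC : Ctrl T C) {a : X} (ha : a ≠ 0)
    (h : C11At a) : ∃ ρ K, Reg T a ρ K := by
  obtain ⟨s, hs, hev⟩ := Metric.eventually_nhds_iff.1 h.eventually
  obtain ⟨r, hr, B, hB⟩ := h
  have hn : 0 < ‖a‖ := norm_pos_iff.2 ha
  set ρ := min (min (r / 4) s) (‖a‖ / 16) with hρdef
  have h1 : ρ ≤ r / 4 := (min_le_left _ _).trans (min_le_left _ _)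
  have h2 : ρ ≤ s := (min_le_left _ _).trans (min_le_right _ _)
  have h3 : ρ ≤ ‖a‖ / 16 := min_le_right _ _
  have hρ : 0 < ρ := lt_min (lt_min (by linarith) hs) (by linarith)
  have hn' : ∀ b ∈ ball a ρ, ‖a‖ / 2 ≤ ‖b‖ := fun b hb => by
    rw [mem_ball, dist_eq_norm] at hb
    have := norm_sub_norm_le a b
    rw [norm_sub_rev] at this
    linarith
  have hne : ∀ b ∈ ball a ρ, b ≠ 0 := fun b hb => norm_pos_iff.1 (by linarith [hn' b hb])
  have hc : ∀ b ∈ ball a ρ, C11At b := fun b hb => hev ((mem_ball.1 hb).trans_le h2)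
  have hsm : ∀ b ∈ ball a ρ, Smooth b := fun b hb => (hc b hb).smooth
  have hC0 := hC.1
  set B' := max B 0 with hB'
  have hB0 : 0 ≤ B' := le_max_right _ _
  have hg : ∀ b ∈ ball a ρ, ∀ u, ‖u‖ < 4 * ρ → gap b u ≤ B' * ‖u‖ ^ 2 := fun b hb u hu =>
    (gap_le_of_smooth (hsm b hb) u).trans ((hB b u (by
      rw [mem_ball, dist_eq_norm] at hb; linarith) (by linarith)).trans
      (mul_le_mul_of_nonneg_right (le_max_left _ _) (sq_nonneg _)))
  set K₁ := C * (B' + 2 / ‖a‖) with hK₁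
  have hK₁0 : 0 ≤ K₁ := by positivity
  have ht : ∀ b ∈ ball a ρ, ∀ u, ‖u‖ < 4 * ρ →
      ‖T (b + u) - T b - dTc T b u‖ ≤ K₁ * ‖u‖ ^ 2 := by
    intro b hb u hu
    rw [dTc_apply hT hC (hne b hb) (hsm b hb)]
    refine (norm_sub_dT_le hT hC (hne b hb) (by linarith [hn' b hb])).trans ?_
    rw [hK₁, mul_assoc]
    refine mul_le_mul_of_nonneg_left ?_ hC0
    rw [add_mul]
    refine add_le_add (hg b hb u hu) ?_
    rw [div_mul_eq_mul_div, div_le_div_iff₀ (norm_pos_iff.2 (hne b hb)) hn]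
    nlinarith [hn' b hb, sq_nonneg ‖u‖]
  have hp : ∀ b ∈ ball a ρ, ∀ u, ‖u‖ < 4 * ρ →
      ‖‖b + u‖ - ‖b‖ - phi b u‖ ≤ B' * ‖u‖ ^ 2 := fun b hb u hu => by
    rw [phi_apply (hsm b hb)]
    have h5 := gap_nonneg b u
    have h6 := hg b hb u hu
    simp only [gap] at h5 h6
    rwa [Real.norm_of_nonneg h5]
  refine ⟨ρ, B' + K₁ + 6 * B' + 6 * K₁, hρ, by positivity, hne, hc, fun b hb u hu => ?_,
    fun b hb u hu => ?_, fun b hb c hc' => ?_, fun b hb c hc' => ?_⟩
  · refine (hg b hb u (by linarith)).trans (mul_le_mul_of_nonneg_right ?_ (sq_nonneg _))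
    linarith
  · refine (ht b hb u (by linarith)).trans (mul_le_mul_of_nonneg_right ?_ (sq_nonneg _))
    linarith
  · refine (ContinuousLinearMap.opNorm_le_bound _ (by positivity) fun v =>
      norm_sub_le_of_taylor (f := fun x : X => ‖x‖) (D := fun x v => phi x v) hρ
        (fun x _ => map_add (phi x)) (fun x _ c v => map_smul (phi x) c v) hp hb hc' v).trans ?_
    refine mul_le_mul_of_nonneg_right ?_ (norm_nonneg _)
    linarith
  · refine (ContinuousLinearMap.opNorm_le_bound _ (by positivity) fun v =>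
      norm_sub_le_of_taylor (D := fun x v => dTc T x v) hρ (fun x _ => map_add (dTc T x))
        (fun x _ c v => map_smul (dTc T x) c v) ht hb hc' v).trans ?_
    refine mul_le_mul_of_nonneg_right ?_ (norm_nonneg _)
    linarith

lemma phi_map (hT : IsTingley T T') {C : ℝ} (hC : Ctrl T C) {a : X} (ha : a ≠ 0)
    (hs : Smooth a) (hs' : Smooth (T a)) (v : X) : phi (T a) (dTc T a v) = phi a v := by
  rw [dTc_apply hT hC ha hs, phi_apply hs', phi_apply hs, Dn_dT hT hC ha]

theorem C11At.map (hT : IsTingley T T') {C : ℝ} (hC : Ctrl T C) {a : X} (ha : a ≠ 0)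
    (h : C11At a) : C11At (T a) := by
  obtain ⟨ρ, K, hR⟩ := exists_reg hT hC ha h
  refine ⟨ρ / 3, by linarith [hR.pos], 36 * K, fun b' k hb hk => ?_⟩
  set b := T' b' with hb'
  have l1 : ‖b - a‖ ≤ 3 * ‖b' - T a‖ := by
    have := hT.symm.lipschitz.norm_sub_le b' (T a)
    rwa [hT.left, NNReal.coe_ofNat] at this
  have hbm : b ∈ ball a ρ := by rw [mem_ball, dist_eq_norm]; linarith
  have hw : ∀ k' : Y, ‖k'‖ = ‖k‖ → ‖T' (b' + k') - b‖ ≤ 3 * ‖k‖ := fun k' hk' => by
    have := hT.symm.lipschitz.norm_sub_le (b' + k') b'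
    rwa [add_sub_cancel_left, hk', NNReal.coe_ofNat] at this
  set wp := T' (b' + k) - b with hwp
  set wm := T' (b' - k) - b with hwm
  have np : ‖wp‖ ≤ 3 * ‖k‖ := hw k rfl
  have nm : ‖wm‖ ≤ 3 * ‖k‖ := by
    rw [hwm, sub_eq_add_neg b' k]
    exact hw (-k) (norm_neg k)
  have ep : T (b + wp) = b' + k := by rw [hwp, add_sub_cancel, hT.right]
  have em : T (b + wm) = b' - k := by rw [hwm, add_sub_cancel, hT.right]
  have tp := hR.taylor b hbm wp (by linarith)
  have tm := hR.taylor b hbm wm (by linarith)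
  rw [ep, hT.right, add_sub_cancel_left] at tp
  rw [em, hT.right, sub_sub_cancel_left] at tm
  have gp := hR.gap_le b hbm wp (by linarith)
  have gm := hR.gap_le b hbm wm (by linarith)
  have hs := (hR.c11 b hbm).smooth
  have hL : ‖dT T b (wp + wm)‖ ≤ K * ‖wp‖ ^ 2 + K * ‖wm‖ ^ 2 := by
    rw [← dTc_apply hT hC (hR.ne b hbm) hs, map_add, ← norm_neg]
    rw [show -(dTc T b wp + dTc T b wm) = (k - dTc T b wp) + (-k - dTc T b wm) by abel]
    exact (norm_add_le _ _).trans (add_le_add tp tm)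
  have hD := (le_abs_self _).trans (abs_Dn_le (T b) (dT T b (wp + wm)))
  rw [Dn_dT hT hC (hR.ne b hbm), hs.map_add] at hD
  have e : nd b' k = gap b wp + gap b wm + (Dn b wp + Dn b wm) := by
    simp only [nd, gap]
    rw [← ep, ← em, hT.norm_map, hT.norm_map, ← hT.norm_map b, hT.right]
    ring
  rw [e]
  have q1 := mul_le_mul_of_nonneg_left (pow_le_pow_left₀ (norm_nonneg _) np 2) hR.nonneg
  have q2 := mul_le_mul_of_nonneg_left (pow_le_pow_left₀ (norm_nonneg _) nm 2) hR.nonneg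
  nlinarith

/-- Two smooth points of the unit sphere which lie in one face have the same derivative. -/
lemma Dn_eq_of_norm_add {p q : X} (hp : Smooth p) (hq : Smooth q)
    (h : ‖p + q‖ = ‖p‖ + ‖q‖) (u : X) : Dn p u = Dn q u := by
  obtain ⟨η, hη1, hη2⟩ := exists_dual_vector'' ℝ (p + q)
  simp only [RCLike.ofReal_real_eq_id, id_eq, map_add, h] at hη2
  have hle : ∀ x : X, η x ≤ ‖x‖ := fun x =>
    (le_abs_self _).trans ((η.le_opNorm x).trans (mul_le_of_le_one_left (norm_nonneg x) hη1))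
  have key : ∀ z : X, η z = ‖z‖ → ∀ w, η w ≤ Dn z w := fun z hz w => le_Dn z w fun t ht => by
    rw [le_inv_mul_iff₀ ht]
    have := hle (z + t • w)
    rw [map_add, map_smul, smul_eq_mul, hz] at this
    linarith
  have kp := key p (by linarith [hle p, hle q])
  have kq := key q (by linarith [hle p, hle q])
  have := kp (-u)
  have := kq (-u)
  rw [map_neg] at *
  linarith [kp u, kq u, hp u, hq u]

/-- The antipodal twin of a map. -/
def chk (T : X → Y) (x : X) : Y := -T (-x)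

omit [CompleteSpace Y] in
lemma isTingley_chk (hT : IsTingley T T') : IsTingley (chk T) (chk T') where
  norm_map x := by rw [chk, norm_neg, hT.norm_map, norm_neg]
  dist_map x y h := by
    rw [chk, chk, neg_sub_neg, hT.dist_map _ _ (by rw [norm_neg, norm_neg, h]), neg_sub_neg]
  homog s x hs := by rw [chk, chk, ← smul_neg, hT.homog s _ hs, smul_neg]
  left x := by simp [chk, hT.left]
  right y := by simp [chk, hT.right]

omit [CompleteSpace Y] in
lemma Dn_chk (hT : IsTingley T T') {x : X} (h1 : Smooth (T x)) (h2 : Smooth (chk T x)) (u : Y) :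
    Dn (chk T x) u = Dn (T x) u := by
  refine Dn_eq_of_norm_add h2 h1 ?_ u
  rw [chk, neg_add_eq_sub, hT.dist_map _ _ (norm_neg x).symm, sub_neg_eq_add, norm_neg,
    hT.norm_map, hT.norm_map, norm_neg, ← two_smul ℝ x, norm_smul, Real.norm_ofNat]
  ring

omit [CompleteSpace Y] in
lemma isTingley_comp {W : Type*} [NormedAddCommGroup W] [NormedSpace ℝ W] {S : Y → W} {S' : W → Y}
    (hT : IsTingley T T') (hS : IsTingley S S') : IsTingley (S ∘ T) (T' ∘ S') where
  norm_map x := by simp [hS.norm_map, hT.norm_map]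
  dist_map x y h := by
    simp [hS.dist_map _ _ (show ‖T x‖ = ‖T y‖ by rw [hT.norm_map, hT.norm_map, h]),
      hT.dist_map _ _ h]
  homog s x hs := by simp [hT.homog s x hs, hS.homog s _ hs]
  left x := by simp [hS.left, hT.left]
  right y := by simp [hT.right, hS.right]

/-- The chain rule for the directional derivatives. -/
lemma dT_comp {W : Type*} [NormedAddCommGroup W] [NormedSpace ℝ W] [CompleteSpace W] {S : Y → W}
    {S' : W → Y} (hT : IsTingley T T') (hS : IsTingley S S') {C C' C'' : ℝ} (hC : Ctrl T C)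
    (hC' : Ctrl S C') (hC'' : Ctrl (S ∘ T) C'') {a : X} (ha : a ≠ 0) (u : X) :
    dT (S ∘ T) a u = dT S (T a) (dT T a u) := by
  refine tendsto_nhds_unique (tendsto_dT (isTingley_comp hT hS) hC'' ha u)
    (tendsto_of_tendsto_of_dist (tendsto_dT hS hC' (hT.map_ne_zero ha) (dT T a u))
      (squeeze_zero' (Eventually.of_forall fun _ => dist_nonneg) ?_
        (by simpa using ((tendsto_iff_norm_sub_tendsto_zero.1
          (tendsto_dT hT hC ha u)).const_mul 3))))
  filter_upwards [self_mem_nhdsWithin] with t (ht : 0 < t)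
  have h := hS.lipschitz.norm_sub_le (T (a + t • u)) (T a + t • dT T a u)
  rw [NNReal.coe_ofNat] at h
  rw [dist_comm, dist_eq_norm, ← smul_sub, Function.comp_apply, Function.comp_apply,
    sub_sub_sub_cancel_right,
    show t⁻¹ • (T (a + t • u) - T a) - dT T a u
      = t⁻¹ • (T (a + t • u) - (T a + t • dT T a u)) by
    rw [smul_sub, smul_sub, smul_add, inv_smul_smul₀ ht.ne']; abel,
    norm_smul, norm_smul, norm_inv, Real.norm_of_nonneg ht.le, mul_left_comm]
  exact mul_le_mul_of_nonneg_left h (inv_nonneg.2 ht.le)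

end Vale.Agent.P084.Full
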