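import Vale.Agent.P084.Full.Mollify
import Mathlib.Analysis.Normed.Operator.LinearIsometry
import Mathlib.Analysis.Convex.Function

/-! A linear isometry which turns the derivative of a convex potential into that of another one
preserves the potential. -/

namespace Vale.Agent.P084.Full

open Filter Topology MollAux

namespace MollAux

variable {V : Type*} [NormedAddCommGroup V] [NormedSpace ℝ V]

/-- A quadratically approximated convex function lies above its tangents. -/
lemma tangent_le {Ω : V → ℝ} (hc : ConvexOn ℝ Set.univ Ω) {φ : V →L[ℝ] ℝ} {K : ℝ} {s : V}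
    (h : ∀ a, |Ω (s + a) - Ω s - φ a| ≤ K * ‖a‖ ^ 2) (a : V) : Ω s + φ a ≤ Ω (s + a) := by
  have key : ∀ t : ℝ, 0 < t → t ≤ 1 → Ω s + φ a - t * (K * ‖a‖ ^ 2) ≤ Ω (s + a) := by
    intro t ht ht1
    have h1 := (abs_le.1 (h (t • a))).1
    have h2 := hc.2 (Set.mem_univ s) (Set.mem_univ (s + a)) (sub_nonneg.2 ht1) ht.le
      (sub_add_cancel 1 t)
    rw [show (1 - t) • s + t • (s + a) = s + t • a by module] at h2
    simp only [smul_eq_mul] at h2
    simp only [map_smul, smul_eq_mul, norm_smul, Real.norm_of_nonneg ht.le] at h1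
    nlinarith
  refine le_of_tendsto (f := fun t : ℝ => Ω s + φ a - t * (K * ‖a‖ ^ 2)) (x := 𝓝[>] (0 : ℝ)) ?_ ?_
  · exact ((continuous_const.sub (continuous_id.mul continuous_const)).tendsto' 0 _ (by simp)).mono_left
      nhdsWithin_le_nhds
  · filter_upwards [Ioc_mem_nhdsGT (zero_lt_one (α := ℝ))] with t ht using key t ht.1 ht.2

/-- A bounded form invariant isometry, self adjoint and positive, is trivial for the form. -/
lemma form_fixed (B : V →L[ℝ] V →L[ℝ] ℝ) (hs : ∀ u w, B u w = B w u) (hp : ∀ u, 0 ≤ B u u)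
    {M : ℝ} (hM : ∀ u, B u u ≤ M * ‖u‖ ^ 2) (Λ : V ≃ₗᵢ[ℝ] V)
    (hsa : ∀ u w, B u (Λ w) = B w (Λ u)) (hpos : ∀ u, 0 ≤ B u (Λ u)) (u w : V) :
    B u (Λ w) = B u w := by
  -- one step monotonicity for any self adjoint isometry
  have step : ∀ (L : V ≃ₗᵢ[ℝ] V), (∀ u w, B u (L w) = B w (L u)) → ∀ u, B (L u) (L u) ≤ B u u := by
    intro L hL u
    let x : ℕ → V := fun n => (fun v => L v)^[n] u
    have hx : ∀ n, x (n + 1) = L (x n) := fun n => Function.iterate_succ_apply' _ n u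
    set a : ℕ → ℝ := fun n => B (x n) (x n) with ha
    have hn : ∀ n, ‖x n‖ = ‖u‖ := by
      intro n
      induction n with
      | zero => rfl
      | succ n ih => rw [hx, L.norm_map, ih]
    have hmid : ∀ n, 2 * a (n + 1) ≤ a n + a (n + 2) := by
      intro n
      have h1 := hp (x n - x (n + 2))
      have h2 : B (x n) (x (n + 2)) = a (n + 1) := by
        show _ = B (x (n + 1)) (x (n + 1))
        rw [hx (n + 1), hL, ← hx n, hs]
      simp only [map_sub, _root_.sub_apply, hs (x (n + 2)) (x n), h2] at h1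
      simp only [ha] at *
      linarith
    have hinc : ∀ n, a 1 - a 0 ≤ a (n + 1) - a n := by
      intro n
      induction n with
      | zero => exact le_rfl
      | succ n ih => linarith [hmid n]
    have hlin : ∀ n : ℕ, a 0 + n * (a 1 - a 0) ≤ a n := by
      intro n
      induction n with
      | zero => simp
      | succ n ih => push_cast; linarith [hinc n]
    by_contra hlt
    have hd : 0 < a 1 - a 0 := sub_pos.2 (by simpa [ha, x] using lt_of_not_ge hlt)
    obtain ⟨n, hn'⟩ := exists_nat_gt (M * ‖u‖ ^ 2 / (a 1 - a 0))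
    rw [div_lt_iff₀ hd] at hn'
    have h3 := hM (x n)
    rw [hn] at h3
    have h4 := hp (x 0)
    have h5 := hlin n
    simp only [ha] at *
    linarith
  have hinv : ∀ v, B (Λ v) (Λ v) = B v v := by
    intro v
    refine le_antisymm (step Λ hsa v) ?_
    have := step Λ.symm (fun p q => by
      have := hsa (Λ.symm p) (Λ.symm q)
      rw [Λ.apply_symm_apply, Λ.apply_symm_apply, hs _ q, hs _ p] at this
      exact this.symm) (Λ v)
    simpa using this
  have hpol : ∀ p q, B (Λ p) (Λ q) = B p q := fun p q => by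
    have := hinv (p + q)
    simp only [map_add, _root_.add_apply, hinv, hs (Λ q) (Λ p), hs q p] at this
    linarith
  set d := Λ w - w with hd
  have h1 : B d (Λ d) = -B d d := by
    have e1 := hpol w (Λ w)
    have e2 := hinv w
    have e3 : B w (Λ (Λ w)) = B w w := by rw [hsa, hinv]
    simp only [hd, map_sub, _root_.sub_apply, e1, e2, e3, hs (Λ w) w]
    ring
  have h2 : B d d = 0 := le_antisymm (by linarith [hpos d]) (hp d)
  have h3 : B u d = 0 := by
    have key : ∀ t : ℝ, 0 ≤ B u u + 2 * t * B u d := fun t => by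
      have := hp (u + t • d)
      simp only [map_add, map_smul, _root_.add_apply, _root_.smul_apply, smul_eq_mul, hs d u, h2] at this
      linarith
    by_contra hne
    have := key (-(B u u + 1) / (2 * B u d))
    rw [mul_div_assoc', div_mul_eq_mul_div, mul_comm 2 (-(B u u + 1)), mul_assoc,
      mul_div_assoc, div_self (mul_ne_zero two_ne_zero hne)] at this
    linarith
  rw [hd, map_sub] at h3
  linarith

end MollAux

theorem potential_eq {V : Type*} [NormedAddCommGroup V] [NormedSpace ℝ V] [CompleteSpace V]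
    [TopologicalSpace.SeparableSpace V] {Ω Ω₁ : V → ℝ} {Φ : V → V →L[ℝ] ℝ} {K : ℝ}
    (hΦ : Lip K Φ) (hΩc : ConvexOn ℝ Set.univ Ω) (hΩ₁c : ConvexOn ℝ Set.univ Ω₁)
    (hΩ0 : Ω 0 = 0) (hΩ₁0 : Ω₁ 0 = 0) (hΦ0 : Φ 0 = 0)
    (hΩ : ∀ s h, |Ω (s + h) - Ω s - Φ s h| ≤ K * ‖h‖ ^ 2) (Λ : V ≃ₗᵢ[ℝ] V)
    (hΩ₁ : ∀ s h, |Ω₁ (s + h) - Ω₁ s - Φ s (Λ h)| ≤ K * ‖h‖ ^ 2) :
    (∀ s, Ω₁ s = Ω s) ∧ ∀ s v, Φ s (Λ v) = Φ s v := by
  let Ψ : V → V →L[ℝ] ℝ := fun s => (Φ s).comp (Λ : V →L[ℝ] V)
  have hΨa : ∀ s v, Ψ s v = Φ s (Λ v) := fun s v => rfl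
  have hΨ : Lip K Ψ := ⟨hΦ.1, fun a b => by
    refine (ContinuousLinearMap.opNorm_le_bound _ (norm_nonneg _) fun v => ?_).trans (hΦ.2 a b)
    rw [_root_.sub_apply, hΨa, hΨa]
    have := (Φ a - Φ b).le_opNorm (Λ v)
    rwa [Λ.norm_map] at this⟩
  -- monotonicity of the two gradients
  have hmono : ∀ {O : V → ℝ} {G : V → V →L[ℝ] ℝ}, ConvexOn ℝ Set.univ O →
      (∀ s h, |O (s + h) - O s - G s h| ≤ K * ‖h‖ ^ 2) → ∀ (y u : V) (t : ℝ), 0 ≤ t →
      G y u ≤ G (y + t • u) u := by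
    intro O G hc hO y u t ht
    rcases ht.eq_or_lt with rfl | ht
    · simp
    have h1 := tangent_le hc (hO y) (t • u)
    have h2 := tangent_le hc (hO (y + t • u)) (-(t • u))
    rw [add_neg_cancel_right] at h2
    simp only [map_neg, map_smul, smul_eq_mul] at h1 h2
    nlinarith
  have hjz : ∀ r : ℝ, 0 < r → ∀ x p v, jet r Φ x p (Λ v) = jet r Φ x p v := by
    intro r hr x
    have hap : ∀ {G : V → V →L[ℝ] ℝ}, Lip K G → ∀ p v,
        jet r (fun y => G y v) x p = jet r G x p v := fun hG p v => by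
      simpa using jet_clm hr hG (ContinuousLinearMap.apply ℝ ℝ v) x p
    have hΨj : ∀ p v, jet r Ψ x p v = jet r Φ x p (Λ v) := fun p v => by
      rw [← hap hΨ, ← hap hΦ]
      rfl
    have hnn : ∀ {G : V → V →L[ℝ] ℝ} {O : V → ℝ}, Lip K G → ConvexOn ℝ Set.univ O →
        (∀ s h, |O (s + h) - O s - G s h| ≤ K * ‖h‖ ^ 2) → ∀ p, 0 ≤ jet r G x p p := by
      intro G O hG hc hO p
      rw [← hap hG]
      exact jet_nonneg hr (Lip_clm hG (ContinuousLinearMap.apply ℝ ℝ p)) x p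
        fun y t ht => hmono hc hO y p t ht
    refine form_fixed (jet r Φ x) (fun p v => jet_symm hr hΦ (by simpa only [Real.norm_eq_abs] using hΩ) x p v)
      (hnn hΦ hΩc hΩ) (M := K) (fun p => ?_) Λ (fun p v => ?_) (fun p => ?_)
    · refine (le_abs_self _).trans ?_
      rw [← Real.norm_eq_abs]
      refine (ContinuousLinearMap.le_opNorm _ _).trans ?_
      rw [sq, ← mul_assoc]
      exact mul_le_mul_of_nonneg_right (norm_jet_le hr hΦ x p) (norm_nonneg p)
    · rw [← hΨj, ← hΨj]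
      exact jet_symm hr hΨ (by simpa only [Real.norm_eq_abs, hΨa] using hΩ₁) x p v
    · rw [← hΨj]
      exact hnn hΨ hΩ₁c hΩ₁ p
  have hfix : ∀ s v, Φ s (Λ v) = Φ s v := by
    intro s v
    let A : (V →L[ℝ] ℝ) →L[ℝ] ℝ :=
      ContinuousLinearMap.apply ℝ ℝ (Λ v) - ContinuousLinearMap.apply ℝ ℝ v
    have hA : ∀ y, A (Φ y) = Φ y (Λ v) - Φ y v := fun y => by simp [A]
    have hg := Lip_clm hΦ A
    have hbd : ∀ r : ℝ, 0 < r → |Φ s (Λ v) - Φ s v| ≤ 4 * (‖A‖ * K) * r := by
      intro r hr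
      have hz : ∀ x p, jet r (fun y => A (Φ y)) x p = 0 := fun x p => by
        rw [jet_clm hr hΦ]
        simp [A, hjz r hr x p v]
      have h1 := norm_moll_sub_self hr hg s
      have h2 := norm_moll_sub_self hr hg 0
      rw [moll_eq_of_jet_zero hr hg hz s 0] at h1
      simp only [hA, hΦ0, map_zero, sub_zero, Real.norm_eq_abs, abs_le] at h1 h2
      rw [abs_le]
      constructor <;> linarith [h1.1, h1.2, h2.1, h2.2]
    have : |Φ s (Λ v) - Φ s v| ≤ 0 := by
      refine ge_of_tendsto (f := fun r : ℝ => 4 * (‖A‖ * K) * r) (x := 𝓝[>] (0 : ℝ)) ?_ ?_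
      · exact ((continuous_const.mul continuous_id).tendsto' 0 _ (by simp)).mono_left
          nhdsWithin_le_nhds
      · filter_upwards [self_mem_nhdsWithin] with r hr using hbd r hr
    exact sub_eq_zero.1 (abs_nonpos_iff.1 this)
  refine ⟨fun s => ?_, hfix⟩
  have hK := hΦ.1
  have hd : ∀ y, HasFDerivAt (fun z => Ω₁ z - Ω z) (0 : V →L[ℝ] ℝ) y := by
    intro y
    rw [hasFDerivAt_iff_isLittleO_nhds_zero, Asymptotics.isLittleO_iff]
    intro ε hε
    filter_upwards [Metric.ball_mem_nhds (0 : V) (div_pos hε (show 0 < 2 * K + 1 by linarith))] with h hh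
    rw [mem_ball_zero_iff, lt_div_iff₀ (by linarith)] at hh
    have h1 := abs_sub (Ω₁ (y + h) - Ω₁ y - Φ y (Λ h)) (Ω (y + h) - Ω y - Φ y h)
    rw [show (Ω₁ (y + h) - Ω₁ y - Φ y (Λ h)) - (Ω (y + h) - Ω y - Φ y h)
      = Ω₁ (y + h) - Ω (y + h) - (Ω₁ y - Ω y) by rw [hfix]; ring] at h1
    simp only [_root_.zero_apply, sub_zero, Real.norm_eq_abs]
    refine (h1.trans (add_le_add (hΩ₁ y h) (hΩ y h))).trans ?_
    nlinarith [norm_nonneg h]
  have := is_const_of_fderiv_eq_zero (fun y => (hd y).differentiableAt) (fun y => (hd y).fderiv) s 0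
  rw [hΩ0, hΩ₁0, sub_zero] at this
  linarith

end Vale.Agent.P084.Full
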