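import Mathlib.Analysis.Calculus.Deriv.Basic
import Mathlib.Analysis.Calculus.Deriv.Shift
import Mathlib.Analysis.Calculus.Deriv.Slope
import Mathlib.Analysis.Calculus.Deriv.MeanValue
import Mathlib.Analysis.Convex.Deriv
import Mathlib.Analysis.Convex.Function
import Mathlib.Analysis.Normed.Module.Basic
import Mathlib.Topology.Order.IntermediateValue

/-! A function of averaged slopes which agrees with averages is linear. -/

namespace Vale.Agent.P084.Full

open Set Filter Topology

/-- An average preserving function of the values has no positive bump between two zeros. -/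
lemma nonpos_of_mean {f γ Θ Ψ : ℝ → ℝ} (hf : Monotone f)
    (hγc : Continuous γ) (hΘ : ∀ t, HasDerivAt Θ (f t) t) (hΨ : ∀ t, HasDerivAt Ψ (γ t) t)
    (hfun : ∀ x y, f x = f y → γ x = γ y)
    (hmean : ∀ a b u, a < b → Θ b - Θ a = f u * (b - a) → Ψ b - Ψ a = γ u * (b - a))
    {a b : ℝ} (ha : γ a = 0) (hb : γ b = 0) :
    ∀ u ∈ Icc a b, γ u ≤ 0 := by
  intro u hu
  by_contra hpos
  push Not at hpos
  have hab : a ≤ b := hu.1.trans hu.2
  obtain ⟨w, hw, hwmax⟩ :=
    isCompact_Icc.exists_isMaxOn (nonempty_Icc.2 hab) hγc.continuousOn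
  set M := γ w with hM
  have hMpos : 0 < M := hpos.trans_le (hwmax hu)
  -- the largest maximum point
  set A : Set ℝ := Icc a b ∩ γ ⁻¹' {M} with hA
  have hAc : IsCompact A := isCompact_Icc.inter_right (isClosed_singleton.preimage hγc)
  obtain ⟨p, hpA, hpmax⟩ := hAc.exists_isMaxOn ⟨w, hw, rfl⟩ continuous_id.continuousOn
  obtain ⟨hpI, hpM⟩ := hpA
  simp only [mem_preimage, mem_singleton_iff] at hpM
  have hpb : p < b := lt_of_le_of_ne hpI.2 fun e => by
    rw [e, hb] at hpM
    linarith
  have hlt : ∀ x, p < x → x ≤ b → γ x < M := by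
    intro x hx hxb
    have hxI : x ∈ Icc a b := ⟨hpI.1.trans hx.le, hxb⟩
    refine lt_of_le_of_ne (hwmax hxI) fun e => ?_
    exact absurd (hpmax (show x ∈ A from ⟨hxI, e⟩)) (not_le.2 hx)
  have hright : ∀ x, p < x → x ≤ b → f p < f x := by
    intro x hx hxb
    refine lt_of_le_of_ne (hf hx.le) fun e => ?_
    exact (hlt x hx hxb).ne ((hfun p x e).symm.trans hpM)
  have hfap : f a < f p := by
    refine lt_of_le_of_ne (hf hpI.1) fun e => ?_
    rw [← hfun a p e, ha] at hpM
    linarith
  have hap : a < p := lt_of_le_of_ne hpI.1 fun e => by rw [e] at hfap; exact lt_irrefl _ hfap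
  set k : ℝ → ℝ := fun t => Θ t - f p * t with hk
  have hkd : ∀ t, HasDerivAt k (f t - f p) t := fun t => by
    have h := (hΘ t).sub ((hasDerivAt_id t).const_mul (f p))
    rwa [mul_one] at h
  have hkc : Continuous k := continuous_iff_continuousAt.2 fun t => (hkd t).continuousAt
  have hkanti : AntitoneOn k (Icc a p) := by
    refine antitoneOn_of_deriv_nonpos (convex_Icc a p) hkc.continuousOn
      (fun t _ => (hkd t).differentiableAt.differentiableWithinAt) fun t ht => ?_
    rw [(hkd t).deriv]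
    rw [interior_Icc] at ht
    linarith [hf ht.2.le]
  have hkmono : StrictMonoOn k (Icc p b) := by
    refine strictMonoOn_of_deriv_pos (convex_Icc p b) hkc.continuousOn fun t ht => ?_
    rw [(hkd t).deriv]
    rw [interior_Icc] at ht
    linarith [hright t ht.1 ht.2.le]
  have hka : k p < k a := by
    refine lt_of_le_of_ne (hkanti ⟨le_rfl, hap.le⟩ ⟨hap.le, le_rfl⟩ hap.le) fun e => ?_
    have hconst : ∀ t ∈ Icc a p, k t = k a := fun t ht =>
      le_antisymm (hkanti ⟨le_rfl, hap.le⟩ ht ht.1)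
        (e ▸ hkanti ht ⟨hap.le, le_rfl⟩ ht.2)
    have h1 : HasDerivWithinAt k (f a - f p) (Icc a p) a := (hkd a).hasDerivWithinAt
    have h2 : HasDerivWithinAt k 0 (Icc a p) a :=
      (hasDerivWithinAt_const a (Icc a p) (k a)).congr hconst rfl
    have := (uniqueDiffOn_Icc hap a ⟨le_rfl, hap.le⟩).eq_deriv _ h1 h2
    linarith
  -- a short interval to the right
  obtain ⟨y, ⟨hpy, hyb⟩, hky⟩ : ∃ y, (p < y ∧ y ≤ b) ∧ k y ≤ k a := by
    obtain ⟨r, hr, hball⟩ := Metric.mem_nhds_iff.1 (hkc.continuousAt.eventually (Iio_mem_nhds hka))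
    refine ⟨min b (p + r / 2), ⟨lt_min hpb (by linarith), min_le_left _ _⟩,
      le_of_lt (hball ?_)⟩
    have h1 := min_le_right b (p + r / 2)
    have h2 : p < min b (p + r / 2) := lt_min hpb (by linarith)
    rw [Metric.mem_ball, Real.dist_eq, abs_of_pos (by linarith)]
    linarith
  have hkpy : k p < k y := hkmono ⟨le_rfl, hpb.le⟩ ⟨hpy.le, hyb⟩ hpy
  obtain ⟨x, hx, hxy⟩ := intermediate_value_Icc' hap.le hkc.continuousOn ⟨hkpy.le, hky⟩
  have hxy' : x < y := hx.2.trans_lt hpy
  have hΨxy := hmean x y p hxy' (by simp only [hk] at hxy; linarith)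
  set l : ℝ → ℝ := fun t => Ψ t - M * t with hl
  have hld : ∀ t, HasDerivAt l (γ t - M) t := fun t => by
    have h := (hΨ t).sub ((hasDerivAt_id t).const_mul M)
    rwa [mul_one] at h
  have hlc : Continuous l := continuous_iff_continuousAt.2 fun t => (hld t).continuousAt
  have h1 : AntitoneOn l (Icc x p) := by
    refine antitoneOn_of_deriv_nonpos (convex_Icc x p) hlc.continuousOn
      (fun t _ => (hld t).differentiableAt.differentiableWithinAt) fun t ht => ?_
    rw [(hld t).deriv]
    rw [interior_Icc] at ht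
    linarith [show γ t ≤ γ w from hwmax ⟨hx.1.trans ht.1.le, ht.2.le.trans hpb.le⟩]
  have h2 : StrictAntiOn l (Icc p y) := by
    refine strictAntiOn_of_deriv_neg (convex_Icc p y) hlc.continuousOn fun t ht => ?_
    rw [(hld t).deriv]
    rw [interior_Icc] at ht
    linarith [hlt t ht.1 (ht.2.le.trans hyb)]
  have h3 := h1 ⟨le_rfl, hx.2⟩ ⟨hx.2, le_rfl⟩ hx.2
  have h4 := h2 ⟨le_rfl, hpy.le⟩ ⟨hpy.le, le_rfl⟩ hpy
  simp only [hl] at h3 h4
  rw [hpM] at hΨxy
  linarith

/-- An average preserving function of the values is affine. -/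
lemma line_eq {f γ Θ Ψ : ℝ → ℝ} (hf : Monotone f) (hfc : Continuous f) (hγc : Continuous γ)
    (hΘ : ∀ t, HasDerivAt Θ (f t) t) (hΨ : ∀ t, HasDerivAt Ψ (γ t) t)
    (hlip : ∀ x y, |γ x - γ y| ≤ 2 * |f x - f y|)
    (hmean : ∀ a b u, a < b → Θ b - Θ a = f u * (b - a) → Ψ b - Ψ a = γ u * (b - a))
    {a b : ℝ} (hfab : f a < f b) :
    ∀ u, γ u = (γ b - γ a) / (f b - f a) * (f u - f a) + γ a := by
  have seg : ∀ a b, f a < f b → ∀ u ∈ Icc a b,
      γ u = (γ b - γ a) / (f b - f a) * (f u - f a) + γ a := by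
    intro a b hfab u hu
    set δ := (γ b - γ a) / (f b - f a) with hδ
    set κ := γ a - δ * f a with hκ
    have hδb : δ * (f b - f a) = γ b - γ a := div_mul_cancel₀ _ (by linarith : f b - f a ≠ 0)
    have hfun : ∀ x y, f x = f y → γ x = γ y := fun x y e => by
      have := hlip x y
      rw [e, sub_self, abs_zero, mul_zero, abs_nonpos_iff, sub_eq_zero] at this
      exact this
    have h1 := nonpos_of_mean (γ := fun t => γ t - δ * f t - κ)
      (Ψ := fun t => Ψ t - δ * Θ t - κ * t) hf (by fun_prop) hΘ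
      (fun t => by
        have h := ((hΨ t).sub ((hΘ t).const_mul δ)).sub ((hasDerivAt_id t).const_mul κ)
        rwa [mul_one] at h)
      (fun x y e => by rw [hfun x y e, e])
      (fun x y w hxy hw => by linear_combination hmean x y w hxy hw - δ * hw)
      (by rw [hκ]; ring) (by rw [hκ]; linarith) u hu
    have h2 := nonpos_of_mean (γ := fun t => δ * f t + κ - γ t)
      (Ψ := fun t => δ * Θ t + κ * t - Ψ t) hf (by fun_prop) hΘ
      (fun t => by
        have h := (((hΘ t).const_mul δ).add ((hasDerivAt_id t).const_mul κ)).sub (hΨ t)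
        rwa [mul_one] at h)
      (fun x y e => by rw [hfun x y e, e])
      (fun x y w hxy hw => by linear_combination δ * hw - hmean x y w hxy hw)
      (by rw [hκ]; ring) (by rw [hκ]; linarith) u hu
    rw [hκ] at h1 h2
    linarith
  intro u
  set A := min a u with hA
  set B := max b u with hB
  have hab : a < b := not_le.1 fun h => (hf h).not_gt hfab
  have hAB : f A < f B :=
    (hf (min_le_left a u)).trans_lt (hfab.trans_le (hf (le_max_left b u)))
  have hu' := seg A B hAB u ⟨min_le_right _ _, le_max_right _ _⟩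
  have ha' := seg A B hAB a ⟨min_le_left _ _, hab.le.trans (le_max_left _ _)⟩
  have hb' := seg A B hAB b ⟨(min_le_left _ _).trans hab.le, le_max_left _ _⟩
  set D := (γ B - γ A) / (f B - f A) with hD
  have e : (γ b - γ a) / (f b - f a) = D := by
    rw [div_eq_iff (by linarith : f b - f a ≠ 0), hb', ha']
    ring
  rw [e, hu', ha']
  ring

/-- Bounds on the slopes along one line bound the slopes along all parallel lines. -/
lemma le_of_line_le {V : Type*} [NormedAddCommGroup V] [NormedSpace ℝ V] (v : V) {Ω c : V → ℝ}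
    (hΩ : ConvexOn ℝ univ Ω) (hdΩ : ∀ s, HasDerivAt (fun t : ℝ => Ω (s + t • v)) (c s) 0)
    {s s' : V} {L : ℝ} (hL : ∀ t : ℝ, c (s' + t • v) ≤ L) : c s ≤ L := by
  have hline : ∀ x : V, ConvexOn ℝ univ fun t : ℝ => Ω (x + t • v) := fun x =>
    ⟨convex_univ, fun a _ b _ p q hp hq hpq => by
      have h := hΩ.2 (mem_univ (x + a • v)) (mem_univ (x + b • v)) hp hq hpq
      have e : p • (x + a • v) + q • (x + b • v) = x + (p • a + q • b) • v := by
        obtain rfl : p = 1 - q := by linarith
        simp only [smul_eq_mul]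
        module
      rwa [e] at h⟩
  -- lower bound along the first line and upper bound along the second one
  have hlow : ∀ R : ℝ, 0 < R → Ω s + R * c s ≤ Ω (s + R • v) := by
    intro R hR
    have h := (hline s).le_slope_of_hasDerivAt (mem_univ (0 : ℝ)) (mem_univ R) hR (hdΩ s)
    simp only [slope_def_field, sub_zero, zero_smul, add_zero, le_div_iff₀ hR] at h
    linarith
  have hup : ∀ R : ℝ, 0 < R → Ω (s' + R • v) ≤ Ω s' + R * L := by
    intro R hR
    have hd : HasDerivAt (fun t : ℝ => Ω (s' + t • v)) (c (s' + R • v)) R := by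
      have h := (hdΩ (s' + R • v))
      rw [show (0 : ℝ) = R - R from (sub_self R).symm] at h
      refine (h.comp_sub_const R R).congr_of_eventuallyEq (Eventually.of_forall fun t => ?_)
      show Ω (s' + t • v) = Ω (s' + R • v + (t - R) • v)
      congr 1
      module
    have h := (hline s').slope_le_of_hasDerivAt (mem_univ (0 : ℝ)) (mem_univ R) hR hd
    simp only [slope_def_field, sub_zero, zero_smul, add_zero, div_le_iff₀ hR] at h
    nlinarith [mul_le_mul_of_nonneg_right (hL R) hR.le]
  by_contra hc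
  push Not at hc
  set K := (1 / 2) * Ω ((2 : ℝ) • s - s') + (1 / 2) * Ω s' - Ω s with hK
  set R := (|K| + 1) / (c s - L) with hR
  have hpos : 0 < c s - L := by linarith
  have hRpos : 0 < R := by positivity
  have hmul : R * (c s - L) = |K| + 1 := div_mul_cancel₀ _ hpos.ne'
  have h := hΩ.2 (mem_univ ((2 : ℝ) • s - s')) (mem_univ (s' + (2 * R) • v))
    (by norm_num : (0 : ℝ) ≤ 1 / 2) (by norm_num : (0 : ℝ) ≤ 1 / 2) (by norm_num)
  have e : (1 / 2 : ℝ) • ((2 : ℝ) • s - s') + (1 / 2 : ℝ) • (s' + (2 * R) • v) = s + R • v := by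
    module
  rw [e] at h
  simp only [smul_eq_mul] at h
  nlinarith [hlow R hRpos, hup (2 * R) (by linarith), le_abs_self K]

/-- Averages of slopes which are a Lipschitz function of each other are proportional. -/
theorem exists_slope {V : Type*} [NormedAddCommGroup V] [NormedSpace ℝ V] (v : V)
    {Ω ξ c g : V → ℝ} (hΩ : ConvexOn ℝ Set.univ Ω)
    (hdΩ : ∀ s, HasDerivAt (fun t : ℝ => Ω (s + t • v)) (c s) 0)
    (hdξ : ∀ s, HasDerivAt (fun t : ℝ => ξ (s + t • v)) (g s) 0)
    (hc : Continuous c) (hg : Continuous g) (hc0 : c 0 = 0) (hg0 : g 0 = 0)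
    (hF : ∀ (s s' : V) (R R' : ℝ), 0 < R → 0 < R' →
      |R⁻¹ * (ξ (s + R • v) - ξ s) - R'⁻¹ * (ξ (s' + R' • v) - ξ s')|
        ≤ 2 * |R⁻¹ * (Ω (s + R • v) - Ω s) - R'⁻¹ * (Ω (s' + R' • v) - Ω s')|) :
    ∃ δ : ℝ, |δ| ≤ 2 ∧ ∀ s, g s = δ * c s := by
  have lim : ∀ {F d : V → ℝ}, (∀ s, HasDerivAt (fun t : ℝ => F (s + t • v)) (d s) 0) → ∀ s,
      Tendsto (fun R : ℝ => R⁻¹ * (F (s + R • v) - F s)) (𝓝[>] 0) (𝓝 (d s)) := fun h s => by
    simpa using (h s).tendsto_slope_zero_right
  have hmid : ∀ (s s' : V) (R : ℝ), 0 < R → |R⁻¹ * (ξ (s + R • v) - ξ s) - g s'| ≤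
      2 * |R⁻¹ * (Ω (s + R • v) - Ω s) - c s'| := by
    intro s s' R hR
    refine le_of_tendsto_of_tendsto (((lim hdξ s').const_sub _).abs)
      (((lim hdΩ s').const_sub _).abs.const_mul 2) ?_
    filter_upwards [self_mem_nhdsWithin] with R' hR'
    exact hF s s' R R' hR hR'
  have hlip : ∀ s s', |g s - g s'| ≤ 2 * |c s - c s'| := by
    intro s s'
    refine le_of_tendsto_of_tendsto (((lim hdξ s).sub_const _).abs)
      (((lim hdΩ s).sub_const _).abs.const_mul 2) ?_
    filter_upwards [self_mem_nhdsWithin] with R hR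
    exact hmid s s' R hR
  have hderiv : ∀ {F d : V → ℝ}, (∀ s, HasDerivAt (fun t : ℝ => F (s + t • v)) (d s) 0) → ∀ u : ℝ,
      HasDerivAt (fun t : ℝ => F (t • v)) (d (u • v)) u := by
    intro F d h u
    have h' := h (u • v)
    rw [show (0 : ℝ) = u - u from (sub_self u).symm] at h'
    refine (h'.comp_sub_const u u).congr_of_eventuallyEq (Eventually.of_forall fun t => ?_)
    show F (t • v) = F (u • v + (t - u) • v)
    congr 1
    module
  set f : ℝ → ℝ := fun t => c (t • v) with hf
  have hfc : Continuous f := by fun_prop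
  have hconv : ConvexOn ℝ univ fun t : ℝ => Ω (t • v) := by
    refine ⟨convex_univ, fun a _ b _ p q hp hq hpq => ?_⟩
    have h := hΩ.2 (mem_univ (a • v)) (mem_univ (b • v)) hp hq hpq
    rwa [smul_smul, smul_smul, ← add_smul] at h
  have hfm : Monotone f := by
    refine monotone_iff_forall_lt.2 fun x y hxy => ?_
    exact (hconv.le_slope_of_hasDerivAt (mem_univ x) (mem_univ y) hxy (hderiv hdΩ x)).trans
      (hconv.slope_le_of_hasDerivAt (mem_univ x) (mem_univ y) hxy (hderiv hdΩ y))
  have hneg : ∀ {L : ℝ} (s : V), (∀ t, L ≤ f t) → L ≤ c s := by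
    intro L s hL
    have h := le_of_line_le (-v) (c := fun x => -c x) hΩ (s := s) (s' := 0) (L := -L)
      (fun x => by
        have h := hdΩ x
        rw [← neg_zero] at h
        have h' := HasDerivAt.comp (0 : ℝ) h (hasDerivAt_neg (0 : ℝ))
        rw [mul_neg_one] at h'
        simpa [Function.comp_def] using h')
      (fun t => by simpa [hf] using neg_le_neg (hL (-t)))
    linarith
  have hpos : ∀ {L : ℝ} (s : V), (∀ t, f t ≤ L) → c s ≤ L := fun s hL =>
    le_of_line_le v hΩ hdΩ (s' := 0) fun t => by simpa using hL t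
  by_cases hnc : ∃ a b, f a < f b
  · obtain ⟨a, b, hab⟩ := hnc
    set δ := (g (b • v) - g (a • v)) / (f b - f a) with hδ
    have hline := line_eq (γ := fun t => g (t • v)) (Ψ := fun t => ξ (t • v))
      (Θ := fun t => Ω (t • v)) hfm hfc (by fun_prop) (hderiv hdΩ) (hderiv hdξ)
      (fun x y => hlip _ _)
      (fun x y u hxy hu => by
        have h := hmid (x • v) (u • v) (y - x) (by linarith)
        rw [← add_smul, add_sub_cancel] at h
        have e : (y - x)⁻¹ * (Ω (y • v) - Ω (x • v)) = c (u • v) := by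
          rw [hu, mul_comm, mul_assoc, mul_inv_cancel₀ (by linarith : y - x ≠ 0), mul_one]
        rw [e, sub_self, abs_zero, mul_zero, abs_nonpos_iff, sub_eq_zero,
          inv_mul_eq_iff_eq_mul₀ (by linarith : y - x ≠ 0)] at h
        rw [h]; ring) hab
    have hδle : |δ| ≤ 2 := by
      rw [hδ, abs_div, div_le_iff₀ (by rw [abs_pos]; linarith)]
      exact hlip _ _
    have hlin : ∀ u, g (u • v) = δ * f u := by
      intro u
      have h0 : g ((0 : ℝ) • v) = δ * (f 0 - f a) + g (a • v) := hline 0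
      have h1 : g (u • v) = δ * (f u - f a) + g (a • v) := hline u
      simp only [hf, zero_smul, hc0, hg0] at h0
      simp only [hf] at h1 ⊢
      linarith
    refine ⟨δ, hδle, fun s => eq_of_sub_eq_zero <| abs_nonpos_iff.1 <|
      le_of_forall_pos_le_add fun ε hε => ?_⟩
    obtain ⟨t, ht⟩ : ∃ t, |c s - f t| ≤ ε / 4 := by
      by_cases h1 : ∀ t, f t ≤ c s
      · by_contra hc'
        push Not at hc'
        have := hpos s (L := c s - ε / 4) fun t => by
          have := hc' t
          rw [abs_of_nonneg (by linarith [h1 t])] at this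
          linarith
        linarith
      by_cases h2 : ∀ t, c s ≤ f t
      · by_contra hc'
        push Not at hc'
        have := hneg s (L := c s + ε / 4) fun t => by
          have := hc' t
          rw [abs_of_nonpos (by linarith [h2 t])] at this
          linarith
        linarith
      push Not at h1 h2
      obtain ⟨t₁, ht₁⟩ := h1
      obtain ⟨t₂, ht₂⟩ := h2
      have hle : t₂ ≤ t₁ := not_lt.1 fun h => by linarith [hfm h.le]
      obtain ⟨t, -, ht⟩ := intermediate_value_Icc hle hfc.continuousOn ⟨ht₂.le, ht₁.le⟩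
      exact ⟨t, by rw [ht, sub_self, abs_zero]; linarith⟩
    have h3 := hlip s (t • v)
    rw [hlin t] at h3
    have h4 : |δ * (f t - c s)| ≤ 2 * (ε / 4) := by
      rw [abs_mul, abs_sub_comm]
      exact mul_le_mul hδle ht (abs_nonneg _) (by norm_num)
    have h5 := abs_add_le (g s - δ * f t) (δ * (f t - c s))
    rw [show g s - δ * f t + δ * (f t - c s) = g s - δ * c s by ring] at h5
    simp only [hf] at ht h3 h4 h5 ⊢
    linarith
  · push Not at hnc
    have hf0 : ∀ t, f t = 0 := fun t => by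
      have h0 : f 0 = 0 := by simp [hf, hc0]
      exact h0 ▸ le_antisymm (hnc 0 t) (hnc t 0)
    refine ⟨0, by norm_num, fun s => ?_⟩
    have hcs : c s = 0 := le_antisymm (hpos s fun t => (hf0 t).le) (hneg s fun t => (hf0 t).ge)
    have h := hlip s 0
    rw [hcs, hc0, hg0, sub_zero, sub_zero, abs_zero, mul_zero, abs_nonpos_iff] at h
    rw [h, zero_mul]

end Vale.Agent.P084.Full
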