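import Vale.Agent.P084.Full.Mollify
import Vale.Agent.P084.Full.Potential
import Vale.Agent.P084.Full.Slope
import Vale.Agent.P084.Full.Algebra
import Vale.Agent.P084.Full.C11

/-! A linked pair of potentials has proportional derivatives. -/

namespace Vale.Agent.P084.Full

open Inf Filter Topology MollAux

namespace JetVectorAux

variable {V : Type*} [NormedAddCommGroup V] [NormedSpace ℝ V]

/-- A quadratic expansion gives the derivative along lines. -/
lemma hasDerivAt_of_quad {Z : Type*} [NormedAddCommGroup Z] [NormedSpace ℝ Z] {P : V → Z}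
    {A : V →L[ℝ] Z} {K : ℝ} {s : V} (hK : 0 ≤ K)
    (h : ∀ a, ‖P (s + a) - P s - A a‖ ≤ K * ‖a‖ ^ 2) (v : V) :
    HasDerivAt (fun t : ℝ => P (s + t • v)) (A v) 0 := by
  rw [hasDerivAt_iff_isLittleO, Asymptotics.isLittleO_iff]
  intro ε hε
  filter_upwards [Metric.ball_mem_nhds (0 : ℝ)
    (show 0 < ε / (K * ‖v‖ ^ 2 + 1) by positivity)] with t ht
  rw [mem_ball_zero_iff, lt_div_iff₀ (by positivity)] at ht
  have h1 := h (t • v)
  simp only [map_smul, norm_smul, zero_smul, add_zero, sub_zero] at h1 ⊢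
  refine h1.trans ?_
  rw [mul_pow, sq ‖t‖]
  nlinarith [norm_nonneg t, mul_nonneg hK (sq_nonneg ‖v‖)]

/-- In a separable Banach space the points of smoothness contain a dense countable intersection
of open sets. -/
lemma exists_dense_smooth (V : Type*) [NormedAddCommGroup V] [NormedSpace ℝ V] [CompleteSpace V]
    [TopologicalSpace.SeparableSpace V] : ∃ S : Set V, Dense S ∧ ∀ v ∈ S, Smooth v :=
  ⟨⋂ p : ℕ × ℕ, almostSmooth (TopologicalSpace.denseSeq V p.1) p.2,
    dense_iInter_of_isOpen (fun _ => isOpen_almostSmooth _ _) fun _ => dense_almostSmooth _ _,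
    fun _ hv => smooth_of_almostSmooth (TopologicalSpace.denseRange_denseSeq V)
      fun i m => Set.mem_iInter.1 hv (i, m)⟩

/-- The points seen by a nonzero form are an open dense set. -/
lemma dense_flip_ne_zero {H : V →L[ℝ] V →L[ℝ] ℝ} (hH : H ≠ 0) :
    IsOpen {v | H.flip v ≠ 0} ∧ Dense {v | H.flip v ≠ 0} := by
  refine ⟨isOpen_ne_fun H.flip.continuous continuous_const, ?_⟩
  obtain ⟨v₀, hv₀⟩ : ∃ v₀, H.flip v₀ ≠ 0 := by
    by_contra h
    push Not at h
    refine hH (ContinuousLinearMap.ext fun u => ContinuousLinearMap.ext fun w => ?_)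
    simpa using congrArg (fun L => L u) (h w)
  rw [Metric.dense_iff]
  intro v ρ hρ
  by_cases hv : H.flip v = 0
  · refine ⟨v + (ρ / (2 * (‖v₀‖ + 1))) • v₀, ?_, ?_⟩
    · rw [Metric.mem_ball, dist_self_add_left, norm_smul, Real.norm_of_nonneg (by positivity),
        div_mul_eq_mul_div, div_lt_iff₀ (by positivity)]
      nlinarith [norm_nonneg v₀]
    · simp only [Set.mem_ofPred_eq, map_add, map_smul, hv, zero_add]
      exact smul_ne_zero (by positivity) hv₀
  · exact ⟨v, Metric.mem_ball_self hρ, hv⟩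

/-- A vector invisible to the derivative of the norm on a dense set of points vanishes. -/
lemma eq_zero_of_Dn_dense {D : Set V} (hD : Dense D) {d : V}
    (h : ∀ v ∈ D, Smooth v ∧ Dn v d = 0) : d = 0 := by
  have hall : ∀ v : V, ‖v‖ ≤ ‖v - d‖ := fun v => hD.induction
    (fun w hw => by
      have h1 := norm_add_ge w (-d)
      have h2 := (h w hw).1 d
      rw [(h w hw).2, zero_add] at h2
      rw [h2, add_zero, ← sub_eq_add_neg] at h1
      exact h1)
    (isClosed_le continuous_norm (continuous_id.sub continuous_const).norm) v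
  simpa using hall d

end JetVectorAux

open JetVectorAux in
/-- Linked potentials have derivatives which differ by a fixed vector. -/
theorem exists_jet_vector {V : Type*} [NormedAddCommGroup V] [NormedSpace ℝ V] [CompleteSpace V]
    [TopologicalSpace.SeparableSpace V] {Ω : V → ℝ} {Ξ : V → V} {Φ : V → V →L[ℝ] ℝ}
    {Θ : V → V →L[ℝ] V} {K : ℝ} (hΦ : Lip K Φ) (hΘ : Lip K Θ)
    (hΩc : ConvexOn ℝ Set.univ Ω) (hΦ0 : Φ 0 = 0) (hΘ0 : Θ 0 = 0)
    (hΩ : ∀ s h, |Ω (s + h) - Ω s - Φ s h| ≤ K * ‖h‖ ^ 2)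
    (hΞ : ∀ s h, ‖Ξ (s + h) - Ξ s - Θ s h‖ ≤ K * ‖h‖ ^ 2)
    (hslope : ∀ v : V, Smooth v → ∀ (s s' : V) (R R' : ℝ), 0 < R → 0 < R' →
      |Dn v (R⁻¹ • (Ξ (s + R • v) - Ξ s) - R'⁻¹ • (Ξ (s' + R' • v) - Ξ s'))|
        ≤ 2 * |R⁻¹ * (Ω (s + R • v) - Ω s) - R'⁻¹ * (Ω (s' + R' • v) - Ω s')|) :
    ∃ G : V, ‖G‖ ≤ 2 ∧ ∀ s v, Θ s v = Φ s v • G := by
  have hΩn : ∀ s h, ‖Ω (s + h) - Ω s - Φ s h‖ ≤ K * ‖h‖ ^ 2 := by
    simpa only [Real.norm_eq_abs] using hΩ
  -- the factor at a smooth direction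
  have hδ : ∀ v : V, Smooth v → ∃ δ : ℝ, |δ| ≤ 2 ∧ ∀ r : ℝ, 0 < r → ∀ x u,
      Dn v (jet r Θ x u v) = δ * jet r Φ x u v := by
    intro v hv
    obtain ⟨δ, hδ2, hδe⟩ := exists_slope v (Ω := Ω) (ξ := fun s => phi v (Ξ s))
      (c := fun s => Φ s v) (g := fun s => phi v (Θ s v)) hΩc
      (fun s => hasDerivAt_of_quad hΦ.1 (hΩn s) v)
      (fun s => (phi v).hasFDerivAt.comp_hasDerivAt 0 (hasDerivAt_of_quad hΘ.1 (hΞ s) v))
      ((Lip_continuous hΦ).clm_apply continuous_const)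
      ((phi v).continuous.comp ((Lip_continuous hΘ).clm_apply continuous_const))
      (by simp [hΦ0]) (by simp [hΘ0])
      (fun s s' R R' hR hR' => by
        rw [← map_sub, ← map_sub, ← smul_eq_mul R⁻¹, ← smul_eq_mul R'⁻¹, ← map_smul, ← map_smul,
          ← map_sub, phi_apply hv]
        exact hslope v hv s s' R R' hR hR')
    refine ⟨δ, hδ2, fun r hr x u => ?_⟩
    have h1 := jet_clm hr hΘ ((phi v).comp (ContinuousLinearMap.apply ℝ V v)) x u
    have h2 := jet_clm hr hΦ (δ • ContinuousLinearMap.apply ℝ ℝ v) x u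
    rw [show (fun y => ((phi v).comp (ContinuousLinearMap.apply ℝ V v)) (Θ y)) =
      fun y => (δ • ContinuousLinearMap.apply ℝ ℝ v) (Φ y) from funext fun y => by simp [hδe]] at h1
    rw [h1] at h2
    simpa [phi_apply hv] using h2
  -- monotonicity and rank one at each scale
  have hone : ∀ r : ℝ, 0 < r → ∀ x, ∃ G : V, ∀ u w, jet r Θ x u w = jet r Φ x u w • G := by
    intro r hr x
    refine exists_rank_one (jet r Φ x) (jet r Θ x) (fun u w => jet_symm hr hΦ hΩn x u w)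
      (fun u => ?_) (fun u w => jet_symm hr hΘ hΞ x u w) fun v hv u => ?_
    · have hap : jet r (fun y => Φ y u) x u = jet r Φ x u u := by
        simpa using jet_clm hr hΦ (ContinuousLinearMap.apply ℝ ℝ u) x u
      rw [← hap]
      refine jet_nonneg hr (Lip_clm hΦ (ContinuousLinearMap.apply ℝ ℝ u)) x u fun y t ht => ?_
      rcases ht.eq_or_lt with rfl | ht
      · simp
      have h1 := tangent_le hΩc (hΩ y) (t • u)
      have h2 := tangent_le hΩc (hΩ (y + t • u)) (-(t • u))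
      rw [add_neg_cancel_right] at h2
      simp only [map_neg, map_smul, smul_eq_mul] at h1 h2
      show Φ y u ≤ Φ (y + t • u) u
      nlinarith
    · obtain ⟨δ, hδ2, hδe⟩ := hδ v hv
      rw [hδe r hr x u, abs_mul]
      exact mul_le_mul_of_nonneg_right hδ2 (abs_nonneg _)
  obtain ⟨S, hSd, hSs⟩ := exists_dense_smooth V
  -- the derivative of the norm at the vector is the factor
  have hval : ∀ r : ℝ, 0 < r → ∀ x (G : V), (∀ u w, jet r Θ x u w = jet r Φ x u w • G) →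
      ∀ v, Smooth v → (jet r Φ x).flip v ≠ 0 → ∀ δ : ℝ,
      (∀ r : ℝ, 0 < r → ∀ x u, Dn v (jet r Θ x u v) = δ * jet r Φ x u v) → Dn v G = δ := by
    intro r hr x G hG v hv hne δ hδe
    obtain ⟨u, hu⟩ : ∃ u, jet r Φ x u v ≠ 0 := by
      by_contra h
      push Not at h
      exact hne (ContinuousLinearMap.ext fun u => by simpa using h u)
    have h := hδe r hr x u
    rw [hG, hv.map_smul, mul_comm δ] at h
    exact mul_left_cancel₀ hu h
  obtain ⟨G, hG2, hG⟩ : ∃ G : V, ‖G‖ ≤ 2 ∧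
      ∀ r : ℝ, 0 < r → ∀ x u w, jet r Θ x u w = jet r Φ x u w • G := by
    by_cases hne : ∃ r x, 0 < r ∧ jet r Φ x ≠ 0
    swap
    · push Not at hne
      refine ⟨0, by simp, fun r hr x u w => ?_⟩
      obtain ⟨G, hG⟩ := hone r hr x
      rw [hG, hne r x hr]
      simp
    obtain ⟨r₀, x₀, hr₀, hH₀⟩ := hne
    obtain ⟨G₀, hG₀⟩ := hone r₀ hr₀ x₀
    obtain ⟨hU₀o, hU₀d⟩ := dense_flip_ne_zero hH₀
    refine ⟨G₀, ?_, fun r hr x u w => ?_⟩
    · refine le_of_forall_pos_le_add fun ε hε => ?_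
      obtain ⟨v, ⟨hvS, hvU⟩, hvd⟩ :=
        (hSd.inter_of_isOpen_right hU₀d hU₀o).exists_dist_lt G₀ (half_pos hε)
      obtain ⟨δ, hδ2, hδe⟩ := hδ v (hSs v hvS)
      have h1 := hval r₀ hr₀ x₀ G₀ hG₀ v (hSs v hvS) hvU δ hδe
      have h2 := (abs_le.1 (abs_Dn_sub_le v v G₀)).2
      rw [h1, Dn_self, norm_sub_rev] at h2
      have h3 := norm_le_norm_add_norm_sub' G₀ v
      rw [dist_eq_norm] at hvd
      linarith [(abs_le.1 hδ2).2]
    obtain ⟨G, hG⟩ := hone r hr x
    by_cases hH : jet r Φ x = 0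
    · rw [hG, hH]
      simp
    obtain ⟨hUo, hUd⟩ := dense_flip_ne_zero hH
    have hd := eq_zero_of_Dn_dense (d := G - G₀)
      (hSd.inter_of_isOpen_right (hUd.inter_of_isOpen_right hU₀d hU₀o) (hUo.inter hU₀o))
      fun v ⟨hvS, hvU, hvU₀⟩ => by
        have hv := hSs v hvS
        obtain ⟨δ, -, hδe⟩ := hδ v hv
        refine ⟨hv, ?_⟩
        rw [sub_eq_add_neg, hv.map_add, hval r hr x G hG v hv hvU δ hδe]
        have h3 := hv G₀
        rw [hval r₀ hr₀ x₀ G₀ hG₀ v hv hvU₀ δ hδe] at h3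
        linarith
    rw [hG, sub_eq_zero.1 hd]
  refine ⟨G, hG2, fun s w => ?_⟩
  let A : (V →L[ℝ] V) →L[ℝ] V := ContinuousLinearMap.apply ℝ V w
  let B : (V →L[ℝ] ℝ) →L[ℝ] V := (ContinuousLinearMap.apply ℝ ℝ w).smulRight G
  have hf : Lip (‖A‖ * K + ‖B‖ * K) fun y => A (Θ y) - B (Φ y) :=
    Lip_sub (Lip_clm hΘ A) (Lip_clm hΦ B)
  set K' := ‖A‖ * K + ‖B‖ * K with hK'
  have hbd : ∀ r : ℝ, 0 < r → ‖A (Θ s) - B (Φ s)‖ ≤ 4 * K' * r := by
    intro r hr
    have hz : ∀ x u, jet r (fun y => A (Θ y) - B (Φ y)) x u = 0 := fun x u => by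
      rw [jet_sub hr (Lip_clm hΘ A) (Lip_clm hΦ B), jet_clm hr hΘ, jet_clm hr hΦ]
      simp [A, B, hG r hr x u w]
    have h1 := norm_moll_sub_self hr hf s
    have h2 := norm_moll_sub_self hr hf 0
    rw [moll_eq_of_jet_zero hr hf hz s 0, norm_sub_rev] at h1
    simp only [hΘ0, hΦ0, map_zero, sub_zero] at h2
    have h3 := norm_le_norm_add_norm_sub' (A (Θ s) - B (Φ s))
      (moll r (fun y => A (Θ y) - B (Φ y)) 0)
    linarith
  have h0 : ‖A (Θ s) - B (Φ s)‖ ≤ 0 := by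
    refine ge_of_tendsto (f := fun r : ℝ => 4 * K' * r) (x := 𝓝[>] (0 : ℝ)) ?_
      (eventually_nhdsWithin_of_forall hbd)
    exact ((continuous_const.mul continuous_id).tendsto' 0 _ (by simp)).mono_left
      nhdsWithin_le_nhds
  simpa [A, B, sub_eq_zero] using h0

end Vale.Agent.P084.Full
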