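import Vale.Agent.P084.Full.Link

/-! Chord averages of the second order blow-ups. -/

namespace Vale.Agent.P084.Full

open Inf Filter Topology

variable {X Y : Type*} [NormedAddCommGroup X] [NormedSpace ℝ X] [CompleteSpace X]
  [NormedAddCommGroup Y] [NormedSpace ℝ Y] [CompleteSpace Y] {T : X → Y} {T' : Y → X} {a : X}
  {r : ℕ → ℝ} {ρ K : ℝ}

omit [CompleteSpace X] in
/-- The equal norm chord through two nearby points, rescaled. -/
lemma Pt.chord_sub_tendsto (h : Pt T T' a r ρ K) {f g : ℕ → X} {s v : Ultra X} (hf : Rep f s)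
    (hg : Rep g v) (hgk : ∀ n, phi a (g n) = 0) {R : ℝ} (hR : 0 < R) :
    ∃ W : ℕ → Y, Rep W (R⁻¹ • (bXi T a r (s + R • v) - bXi T a r s)) ∧
      Tendsto (fun n =>
        (‖g n - (r n * (R⁻¹ * (bOm a r (s + R • v) - bOm a r s))) • a‖
          - ‖dTc T a (g n)
              + r n • (W n - (R⁻¹ * (bOm a r (s + R • v) - bOm a r s)) • T a)‖) / r n)
        uf (𝓝 0) := by
  set c := R⁻¹ * (bOm a r (s + R • v) - bOm a r s) with hcdef
  set ξ : (ℕ → X) → ℕ → Y := fun F n =>
    (r n ^ 2)⁻¹ • (T (a + r n • F n) - T a - dTc T a (r n • F n)) with hξ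
  set F : ℕ → X := fun n => f n + R • g n with hF
  have hFr : Rep F (s + R • v) := hf.add (hg.smul R)
  refine ⟨fun n => R⁻¹ • (ξ F n - ξ f n), ((h.rep_bXi hFr).sub (h.rep_bXi hf)).smul _, ?_⟩
  set cn : ℕ → ℝ := fun n => R⁻¹ * (gap a (r n • F n) / r n ^ 2 - gap a (r n • f n) / r n ^ 2) with hcn
  have hc : Tendsto cn uf (𝓝 c) := ((h.tendsto_bOm hFr).sub (h.tendsto_bOm hf)).const_mul _
  set y : ℕ → X := fun n => a + r n • F n with hy
  have hy1 : Tendsto y uf (𝓝 a) := by
    rw [tendsto_iff_norm_sub_tendsto_zero]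
    have := h.rlim.mul hFr.tendsto_norm
    rw [zero_mul] at this
    refine this.congr fun n => ?_
    simp [hy, norm_smul, Real.norm_of_nonneg (h.rpos n).le]
  have hyn : Tendsto (fun n => ‖y n‖) uf (𝓝 1) := by simpa [h.unit] using hy1.norm
  have hTy : Tendsto (fun n => T (y n)) uf (𝓝 (T a)) :=
    (h.isT.lipschitz.continuous.tendsto a).comp hy1
  have e1 : Tendsto (fun n => ‖(cn n / ‖y n‖) • y n - c • a‖
      + ‖(cn n / ‖y n‖) • T (y n) - c • T a‖) uf (𝓝 0) := by
    have hq := hc.div hyn one_ne_zero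
    rw [div_one] at hq
    simpa using ((hq.smul hy1).sub_const (c • a)).norm.add ((hq.smul hTy).sub_const (c • T a)).norm
  refine squeeze_zero_norm' ?_ e1
  filter_upwards [h.mem hFr, h.mem hf] with n hmF hmf
  have hr := h.rpos n
  have hsm := h.smooth
  set x := a + r n • f n with hx
  have hy0 : y n ≠ 0 := h.reg.ne _ hmF
  have hx0 : x ≠ 0 := h.reg.ne _ hmf
  have hyp : 0 < ‖y n‖ := norm_pos_iff.2 hy0
  -- the norm increment
  have hgk' : Dn a (g n) = 0 := by rw [← phi_apply hsm, hgk]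
  have ed : ‖y n‖ - ‖x‖ = r n ^ 2 * (R * cn n) := by
    have : R * cn n = gap a (r n • F n) / r n ^ 2 - gap a (r n • f n) / r n ^ 2 := by
      rw [hcn]; field_simp
    rw [this, ← sub_div, mul_div_cancel₀ _ (by positivity)]
    simp only [gap, hy, hx, hF]
    rw [hsm.map_smul, hsm.map_smul, hsm.map_add, hsm.map_smul, hgk']
    ring
  set t := ‖x‖ / ‖y n‖ with ht
  have ht0 : 0 < t := div_pos (norm_pos_iff.2 hx0) hyp
  have key : ‖t • y n - x‖ = ‖t • T (y n) - T x‖ := by
    rw [← h.isT.homog t (y n) ht0, h.isT.dist_map _ _ ?_]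
    rw [norm_smul, Real.norm_of_nonneg ht0.le, ht, div_mul_cancel₀ _ hyp.ne']
  have hyx : y n - x = (r n * R) • g n := by
    simp only [hy, hx, hF, smul_add, smul_smul]
    abel
  have htd : t = 1 - r n ^ 2 * (R * (cn n / ‖y n‖)) := by
    rw [ht, show ‖x‖ = ‖y n‖ - r n ^ 2 * (R * cn n) by linarith]
    field_simp
  have eX : t • y n - x = (r n * R) • (g n - r n • ((cn n / ‖y n‖) • y n)) := by
    rw [smul_sub, ← hyx, htd, sub_smul, one_smul, smul_smul (r n * R) (r n),
      smul_smul (r n * R * r n), show r n * R * r n * (cn n / ‖y n‖) = r n ^ 2 * (R * (cn n / ‖y n‖)) by ring]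
    abel
  have eY : t • T (y n) - T x = (r n * R) • (dTc T a (g n)
      + r n • (R⁻¹ • (ξ F n - ξ f n) - (cn n / ‖y n‖) • T (y n))) := by
    rw [htd]
    simp only [hξ, hx, hy, map_smul, hF, map_add, smul_add]
    match_scalars <;> field_simp <;> ring
  rw [eX, eY, norm_smul, norm_smul] at key
  have key' := mul_left_cancel₀ (norm_ne_zero_iff.2 (mul_pos hr hR).ne') key
  rw [norm_div, Real.norm_eq_abs, Real.norm_of_nonneg hr.le, div_le_iff₀ hr]
  have b1 := abs_norm_sub_norm_le (g n - (r n * c) • a) (g n - r n • ((cn n / ‖y n‖) • y n))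
  rw [show g n - (r n * c) • a - (g n - r n • ((cn n / ‖y n‖) • y n))
    = r n • ((cn n / ‖y n‖) • y n - c • a) by rw [smul_sub, mul_smul]; abel,
    norm_smul, Real.norm_of_nonneg hr.le] at b1
  have b2 := abs_norm_sub_norm_le (dTc T a (g n) + r n • (R⁻¹ • (ξ F n - ξ f n) - c • T a))
    (dTc T a (g n) + r n • (R⁻¹ • (ξ F n - ξ f n) - (cn n / ‖y n‖) • T (y n)))
  rw [show dTc T a (g n) + r n • (R⁻¹ • (ξ F n - ξ f n) - c • T a)
      - (dTc T a (g n) + r n • (R⁻¹ • (ξ F n - ξ f n) - (cn n / ‖y n‖) • T (y n)))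
    = r n • ((cn n / ‖y n‖) • T (y n) - c • T a) by simp only [smul_sub]; abel,
    norm_smul, Real.norm_of_nonneg hr.le] at b2
  rw [abs_le] at b1 b2 ⊢
  constructor <;> linarith [b1.1, b1.2, b2.1, b2.2]

set_option linter.unusedVariables false in
theorem Two.slope_bound (h : Two T T' a r ρ K) {s s' v w : Ultra X} (hs : s ∈ kerU a)
    (hs' : s' ∈ kerU a) (hv : v ∈ kerU a) (hw : w ∈ kerU a) {R R' : ℝ} (hR : 0 < R) (hR' : 0 < R')
    (hlin : Dn v w + Dn v (-w) = 0)
    (hwe : bLin T a w = R⁻¹ • (bXi T a r (s + R • v) - bXi T a r s)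
      - R'⁻¹ • (bXi T a r (s' + R' • v) - bXi T a r s')) :
    |Dn v w| ≤ 2 * |R⁻¹ * (bOm a r (s + R • v) - bOm a r s)
      - R'⁻¹ * (bOm a r (s' + R' • v) - bOm a r s')| := by
  obtain ⟨g, hg, hgk⟩ := exists_rep_ker (A := phi a) (a := a)
    (by rw [phi_apply h.fst.smooth, Dn_self, h.fst.unit]) (mem_kerU.1 hv)
  obtain ⟨W, hW, hA⟩ := h.fst.chord_sub_tendsto (rep_self s) hg hgk hR
  obtain ⟨W', hW', hA'⟩ := h.fst.chord_sub_tendsto (rep_self s') hg hgk hR'
  set c := R⁻¹ * (bOm a r (s + R • v) - bOm a r s)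
  set c' := R'⁻¹ * (bOm a r (s' + R' • v) - bOm a r s')
  set p : ℕ → Y := fun n => W' n - c' • T a with hp
  set d : ℕ → Y := fun n => W n - W' n with hd
  set L : ℕ → Y := fun n => dTc T a (g n) with hLdef
  have hL : Rep L (bLin T a v) := rep_bLin hg
  have hd' : Rep d (bLin T a w) := by
    rw [hwe]
    exact hW.sub hW'
  have hp' := hW'.sub ((rep_iota (T a)).smul c')
  set P := R'⁻¹ • (bXi T a r (s' + R' • v) - bXi T a r s') - c' • iota (T a) with hP
  change Rep p P at hp'
  let k : ℝ → ℕ → ℝ := fun t n => (‖L n + r n • (p n + t • d n)‖ - ‖L n‖) / r n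
  have hk : ∀ t, Tendsto (k t) uf (𝓝 (ulim (k t))) := fun t => by
    refine tendsto_ulim (B := ‖P + t • bLin T a w‖ + 1) ?_
    filter_upwards [(hp'.add (hd'.smul t)).eventually_le] with n hn
    have hr := h.fst.rpos n
    have h1 := abs_norm_sub_norm_le (L n + r n • (p n + t • d n)) (L n)
    rw [add_sub_cancel_left, norm_smul, Real.norm_of_nonneg hr.le] at h1
    simp only [k]
    rw [abs_div, abs_of_pos hr, div_le_iff₀ hr]
    exact h1.trans ((mul_le_mul_of_nonneg_left hn hr.le).trans (le_of_eq (mul_comm _ _)))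
  -- first order upper bound
  have hup : ∀ t, ulim (k t) ≤ Dn (bLin T a v) P + t * Dn v w := by
    intro t
    have h1 : ulim (k t) ≤ Dn (bLin T a v) (P + t • bLin T a w) := by
      refine le_Dn _ _ fun ρ' hρ' => ?_
      have hup := ((hL.add ((hp'.add (hd'.smul t)).smul ρ')).tendsto_norm.sub hL.tendsto_norm).const_mul ρ'⁻¹
      refine le_of_tendsto_of_tendsto (hk t) hup ?_
      filter_upwards [h.fst.rlim.eventually (eventually_le_nhds hρ')] with n hn
      have hr := h.fst.rpos n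
      simp only [k]
      rw [div_eq_inv_mul]
      exact quot_mono (L n) (p n + t • d n) hr hn
    refine h1.trans ((Dn_add_le _ _ _).trans (add_le_add le_rfl (le_of_eq ?_)))
    have e : ∀ u ∈ kerU a, Dn (bLin T a v) (bLin T a u) = Dn v u := fun u hu => by
      refine tendsto_nhds_unique (tendsto_Dn _ _) ((tendsto_Dn v u).congr fun τ => ?_)
      rw [← map_smul, ← map_add, h.norm_bLin hv,
        h.norm_bLin (add_mem hv ((kerU a).smul_mem τ hu))]
    rw [← map_smul, e _ ((kerU a).smul_mem t hw)]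
    rcases le_total 0 t with ht | ht
    · rw [Dn_smul v w ht]
    · rw [show t • w = (-t) • (-w) by simp, Dn_smul v (-w) (neg_nonneg.2 ht),
        show Dn v (-w) = -Dn v w by linarith]
      ring
  -- convexity
  have hconv : ∀ t u l : ℝ, 0 ≤ l → l ≤ 1 →
      ulim (k ((1 - l) * t + l * u)) ≤ (1 - l) * ulim (k t) + l * ulim (k u) := by
    intro t u l h0 h1
    refine le_of_tendsto_of_tendsto (hk _) (((hk t).const_mul _).add ((hk u).const_mul _))
      (Eventually.of_forall fun n => ?_)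
    simp only [k]
    rw [mul_div_assoc', mul_div_assoc', ← add_div]
    refine div_le_div_of_nonneg_right ?_ (h.fst.rpos n).le
    have h2 := norm_add_le ((1 - l) • (L n + r n • (p n + t • d n)))
      (l • (L n + r n • (p n + u • d n)))
    rw [norm_smul, norm_smul, Real.norm_of_nonneg h0, Real.norm_of_nonneg (sub_nonneg.2 h1),
      show (1 - l) • (L n + r n • (p n + t • d n)) + l • (L n + r n • (p n + u • d n))
        = L n + r n • (p n + ((1 - l) * t + l * u) • d n) by module] at h2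
    linarith
  set M := Dn (bLin T a v) P with hM
  have hle : ulim (k 1) - Dn v w ≤ ulim (k 0) ∧ ulim (k 0) ≤ ulim (k 1) - Dn v w := by
    constructor <;> refine le_of_forall_pos_le_add fun ε hε => ?_
    · obtain ⟨N, hN⟩ := exists_nat_gt (max 1 ((M - ulim (k 0)) / ε))
      have h1 : (1 : ℝ) < N := (le_max_left _ _).trans_lt hN
      have h2 : M - ulim (k 0) < ε * N := by
        have := (le_max_right _ _).trans_lt hN
        rw [div_lt_iff₀ hε] at this
        linarith
      have h3 := hconv 0 N (N : ℝ)⁻¹ (by positivity) (inv_le_one_of_one_le₀ h1.le)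
      rw [mul_zero, zero_add, inv_mul_cancel₀ (by positivity)] at h3
      have h4 := hup N
      have h5 := mul_le_mul_of_nonneg_left h3 (show (0 : ℝ) ≤ N by positivity)
      rw [mul_add, ← mul_assoc (N : ℝ) (N : ℝ)⁻¹, mul_inv_cancel₀ (by positivity), one_mul,
        ← mul_assoc, mul_sub, mul_inv_cancel₀ (by positivity), mul_one] at h5
      nlinarith
    · obtain ⟨N, hN⟩ := exists_nat_gt (max 1 ((M - (ulim (k 1) - Dn v w)) / ε))
      have h1 : (1 : ℝ) < N := (le_max_left _ _).trans_lt hN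
      have h2 : M - (ulim (k 1) - Dn v w) < ε * N := by
        have := (le_max_right _ _).trans_lt hN
        rw [div_lt_iff₀ hε] at this
        linarith
      have h3 := hconv 1 (-(N : ℝ)) ((N : ℝ) + 1)⁻¹ (by positivity)
        (inv_le_one_of_one_le₀ (by linarith))
      rw [show (1 - ((N : ℝ) + 1)⁻¹) * 1 + ((N : ℝ) + 1)⁻¹ * -(N : ℝ) = 0 by field_simp; ring] at h3
      have h4 := hup (-(N : ℝ))
      have h5 := mul_le_mul_of_nonneg_left h3 (show (0 : ℝ) ≤ N + 1 by positivity)
      rw [mul_add, ← mul_assoc, mul_sub, mul_one, mul_inv_cancel₀ (by positivity),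
        ← mul_assoc, mul_inv_cancel₀ (by positivity), one_mul] at h5
      nlinarith
  -- the two chord identities
  have hdiff : |ulim (k 1) - ulim (k 0)| ≤ 2 * |c - c'| := by
    have hrhs := ((hA.abs.add hA'.abs).const_add (2 * |c - c'|))
    simp only [abs_zero, add_zero] at hrhs
    refine le_of_tendsto_of_tendsto ((hk 1).sub (hk 0)).abs hrhs (Eventually.of_forall fun n => ?_)
    have hr := h.fst.rpos n
    simp only [k]
    rw [zero_smul, add_zero, one_smul, ← sub_div, abs_div, abs_div, abs_div, abs_of_pos hr,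
      show p n + d n = W n - c' • T a by simp only [hp, hd]; abel,
      div_le_iff₀ hr, add_mul, add_mul, div_mul_cancel₀ _ hr.ne', div_mul_cancel₀ _ hr.ne']
    simp only [hp, hLdef]
    have hTa : ‖T a‖ = 1 := by rw [h.fst.isT.norm_map, h.fst.unit]
    have b1 := abs_norm_sub_norm_le (g n - (r n * c) • a) (g n - (r n * c') • a)
    rw [sub_sub_sub_cancel_left, ← sub_smul, norm_smul, h.fst.unit, mul_one, Real.norm_eq_abs,
      ← mul_sub, abs_mul, abs_of_pos hr, abs_sub_comm c'] at b1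
    have b2 := abs_norm_sub_norm_le (dTc T a (g n) + r n • (W n - c' • T a))
      (dTc T a (g n) + r n • (W n - c • T a))
    rw [add_sub_add_left_eq_sub, ← smul_sub, sub_sub_sub_cancel_left, ← sub_smul, norm_smul,
      norm_smul, hTa, mul_one, Real.norm_of_nonneg hr.le, Real.norm_eq_abs] at b2
    obtain ⟨b1l, b1r⟩ := abs_le.1 b1
    obtain ⟨b2l, b2r⟩ := abs_le.1 b2
    obtain ⟨b3l, b3r⟩ := abs_le.1 (le_refl |‖g n - (r n * c) • a‖ - ‖dTc T a (g n) + r n • (W n - c • T a)‖|)
    obtain ⟨b4l, b4r⟩ := abs_le.1 (le_refl |‖g n - (r n * c') • a‖ - ‖dTc T a (g n) + r n • (W' n - c' • T a)‖|)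
    rw [abs_le]
    constructor <;> linarith
  have e : Dn v w = ulim (k 1) - ulim (k 0) := by linarith [hle.1, hle.2]
  rw [e]
  exact hdiff

end Vale.Agent.P084.Full
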