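import Vale.Agent.P084.Full.Trace
import Vale.Agent.P084.Full.SlopeBound
import Vale.Agent.P084.Full.JetVector
import Vale.Agent.P084.Full.Moving

/-! At a `C^{1,1}` point the variation of the derivative is a multiple of that of the norm. -/

namespace Vale.Agent.P084.Full

open Inf Filter Topology Metric

variable {X Y : Type*} [NormedAddCommGroup X] [NormedSpace ℝ X] [CompleteSpace X]
  [NormedAddCommGroup Y] [NormedSpace ℝ Y] [CompleteSpace Y] {T : X → Y} {T' : Y → X}
  {a : X} {r : ℕ → ℝ} {ρ K : ℝ}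

omit [CompleteSpace X] in
lemma Dn_coe {V : Submodule ℝ X} (v w : V) : Dn v w = Dn (v : X) (w : X) := rfl

lemma Pt.continuous_bTh (h : Pt T T' a r ρ K) :
    Continuous fun p : Ultra X × Ultra X => bTh T a r p.1 p.2 := by
  have h1 : Continuous (bTh T a r) := continuous_iff_continuousAt.2 fun s => by
    refine (tendsto_iff_norm_sub_tendsto_zero (E := Ultra X →L[ℝ] Ultra Y)).2 ?_
    refine squeeze_zero (g := fun x => K * ‖x - s‖) (fun _ => ContinuousLinearMap.opNorm_nonneg _)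
      (fun x => h.norm_bTh_sub_le x s) ?_
    have : Continuous fun x : Ultra X => K * ‖x - s‖ := by fun_prop
    simpa using this.tendsto s
  exact (h1.comp continuous_fst).clm_apply continuous_snd

lemma Pt.continuous_bXi (h : Pt T T' a r ρ K) : Continuous (bXi T a r) := by
  refine continuous_iff_continuousAt.2 fun s => ?_
  rw [ContinuousAt, tendsto_iff_norm_sub_tendsto_zero]
  refine squeeze_zero (g := fun x => K * ‖x - s‖ ^ 2 + ‖bTh T a r s‖ * ‖x - s‖)
    (fun _ => norm_nonneg _) (fun x => ?_) ?_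
  · have h1 := h.norm_bXi_sub_le s (x - s)
    rw [add_sub_cancel] at h1
    refine (norm_le_norm_add_norm_sub' _ (bTh T a r s (x - s))).trans ?_
    exact (add_le_add ((bTh T a r s).le_opNorm _) h1).trans (le_of_eq (add_comm _ _))
  · have : Continuous fun x : Ultra X => K * ‖x - s‖ ^ 2 + ‖bTh T a r s‖ * ‖x - s‖ := by fun_prop
    simpa using this.tendsto s

/-- The rank one relation in the ultrapower. -/
theorem Two.exists_vector (h : Two T T' a r ρ K) {S : Set (Ultra X)} (hS : S.Countable)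
    (hSk : S ⊆ kerU a) :
    ∃ G : Ultra Y, ‖G‖ ≤ 2 ∧ ∀ s ∈ S, ∀ v ∈ S, bTh T a r s v = bPhi a r s v • G := by
  set L' := bLin T' (T a) with hL'
  have hback : ∀ y ∈ kerU (T a), L' y ∈ kerU a := fun y hy => by
    have := h.symm.bLin_mem hy
    rwa [h.fst.isT.left] at this
  obtain ⟨V, hVP, hVc, hVs, hSV, hVi⟩ := exists_separable_invariant (ι := Bool)
    (fun i p => if i then L' (bTh T a r p.1 p.2) else L' (bXi T a r p.1))
    (by
      rintro (_ | _)
      · simp only [Bool.false_eq_true, if_false]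
        exact L'.continuous.comp (h.fst.continuous_bXi.comp continuous_fst)
      · simp only [if_true]
        exact L'.continuous.comp h.fst.continuous_bTh)
    (isClosed_kerU a)
    (by
      rintro (_ | _) p hp hq
      · simpa using hback _ (h.bXi_mem hp)
      · simpa using hback _ (h.bTh_mem hp hq))
    hS hSk
  haveI := hVs
  haveI : CompleteSpace V := hVc.completeSpace_coe
  have hΘm : ∀ x ∈ V, ∀ w ∈ V, L' (bTh T a r x w) ∈ V :=
    fun x hx w hw => by simpa using hVi true x hx w hw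
  have hΞm : ∀ x ∈ V, L' (bXi T a r x) ∈ V := fun x hx => by simpa using hVi false x hx x hx
  let Φ : V → V →L[ℝ] ℝ := fun x => (bPhi a r x).comp V.subtypeL
  let Θ : V → V →L[ℝ] V := fun x =>
    ((L'.comp (bTh T a r x)).comp V.subtypeL).codRestrict V fun w => hΘm x x.2 w w.2
  let Ξ : V → V := fun x => ⟨L' (bXi T a r x), hΞm x x.2⟩
  set K' := K * (1 + ‖L'‖) with hK'
  have hK0 := h.fst.reg.nonneg
  have hKK : K ≤ K' := le_mul_of_one_le_right hK0 (by linarith [norm_nonneg L'])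
  have hLK : ‖L'‖ * K ≤ K' := by rw [hK']; nlinarith [norm_nonneg L']
  have hΦ : Lip K' Φ := ⟨hK0.trans hKK, fun x y => by
    refine ContinuousLinearMap.opNorm_le_bound _
      (mul_nonneg (hK0.trans hKK) (norm_nonneg _)) fun w => ?_
    refine ((bPhi a r (x : Ultra X) - bPhi a r (y : Ultra X)).le_opNorm w).trans
      (mul_le_mul_of_nonneg_right ?_ (norm_nonneg _))
    exact (h.fst.norm_bPhi_sub_le x y).trans (mul_le_mul_of_nonneg_right hKK (norm_nonneg _))⟩
  have hΘ : Lip K' Θ := ⟨hK0.trans hKK, fun x y => by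
    refine ContinuousLinearMap.opNorm_le_bound _
      (mul_nonneg (hK0.trans hKK) (norm_nonneg _)) fun w => ?_
    show ‖L' (bTh T a r (x : Ultra X) w) - L' (bTh T a r (y : Ultra X) w)‖ ≤ _
    rw [← map_sub]
    refine (L'.le_opNorm _).trans ?_
    have h1 := ((bTh T a r (x : Ultra X) - bTh T a r (y : Ultra X)).le_opNorm w).trans
      (mul_le_mul_of_nonneg_right (h.fst.norm_bTh_sub_le x y) (norm_nonneg _))
    refine (mul_le_mul_of_nonneg_left h1 (norm_nonneg _)).trans ?_
    rw [← mul_assoc, ← mul_assoc]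
    exact mul_le_mul_of_nonneg_right (mul_le_mul_of_nonneg_right hLK (norm_nonneg _)) (norm_nonneg _)⟩
  obtain ⟨G, hG, hrel⟩ := exists_jet_vector (Ω := fun x : V => bOm a r x) (Ξ := Ξ) hΦ hΘ
    ((h.fst.convexOn_bOm).comp_linearMap V.subtype)
    (ContinuousLinearMap.ext fun w => by simp [Φ, h.fst.bPhi_zero])
    (ContinuousLinearMap.ext fun w => Subtype.ext (by simp [Θ, h.fst.bTh_zero]))
    (fun x w => (h.fst.abs_bOm_sub_le (x : Ultra X) (w : Ultra X)).trans
      (mul_le_mul_of_nonneg_right hKK (sq_nonneg _)))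
    (fun x w => by
      show ‖L' (bXi T a r ((x : Ultra X) + w)) - L' (bXi T a r x) - L' (bTh T a r x w)‖ ≤ _
      rw [← map_sub, ← map_sub]
      refine (L'.le_opNorm _).trans ((mul_le_mul_of_nonneg_left (h.fst.norm_bXi_sub_le _ _)
        (norm_nonneg _)).trans ?_)
      rw [← mul_assoc]
      exact mul_le_mul_of_nonneg_right hLK (sq_nonneg _))
    (fun v hv s s' R R' hR hR' => by
      rw [Dn_coe]
      refine h.slope_bound (hVP s.2) (hVP s'.2) (hVP v.2) (hVP (Subtype.coe_prop _)) hR hR'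
        (hv _) ?_
      simp only [Ξ, Submodule.coe_sub, Submodule.coe_smul, Submodule.coe_add, map_sub, map_smul,
        hL', h.bLin_right])
  refine ⟨bLin T a (G : Ultra X), (h.norm_bLin (hVP G.2)).trans_le hG, fun s hs v hv => ?_⟩
  have e : L' (bTh T a r s v) = bPhi a r s v • (G : Ultra X) :=
    congrArg Subtype.val (hrel ⟨s, hSV hs⟩ ⟨v, hSV hv⟩)
  rw [← map_smul, ← e, hL', h.bLin_right]

lemma dT_smul_base (hT : IsTingley T T') {x : X} (hx : x ≠ 0) {c : ℝ} (hc : 0 < c) (v : X) :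
    dT T (c • x) v = dT T x v := by
  obtain ⟨C, hC⟩ := exists_ctrl hT
  rw [dT_normalize hT hC (smul_ne_zero hc.ne' hx), dT_normalize hT hC hx, norm_smul,
    Real.norm_of_nonneg hc.le, smul_smul]
  congr 2
  field_simp

lemma Dn_smul_pos (x v : X) {c : ℝ} (hc : 0 < c) : Dn (c • x) v = Dn x v :=
  Dn_smul_base x v hc

/-- The radial increments are of second order. -/
lemma Pt.radial (h : Pt T T' a r ρ K) (u : X) :
    Tendsto (fun n => (Dn (a + r n • u) a - Dn a a) / r n) uf (𝓝 0) ∧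
      Tendsto (fun n => ‖dT T (a + r n • u) a - dT T a a‖ / r n) uf (𝓝 0) := by
  obtain ⟨C, hC⟩ := h.ctrl
  have hmem := h.mem (rep_iota u)
  have hsm := h.small (rep_iota u) h.reg.pos
  have hlim : ∀ B : ℝ, Tendsto (fun n => r n * B) uf (𝓝 0) := fun B => by
    simpa using h.rlim.mul_const B
  have hK := h.reg.nonneg
  refine ⟨squeeze_zero_norm' ?_ (hlim (2 * K * ‖u‖ ^ 2)),
    squeeze_zero' (Eventually.of_forall fun n => div_nonneg (norm_nonneg _) (h.rpos n).le) ?_
      (hlim (2 * K * ‖u‖ ^ 2))⟩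
  · filter_upwards [hmem, hsm] with n hn hn'
    have hr := h.rpos n
    set b := a + r n • u with hb
    have hs := (h.reg.c11 b hn).smooth
    rw [Real.norm_eq_abs, abs_div, abs_of_pos hr, div_le_iff₀ hr,
      show a = b - r n • u by rw [hb]; abel, hs.map_sub_smul, Dn_self,
      show b - r n • u = a by rw [hb]; abel, Dn_self]
    have e1 := h.reg.gap_le a (mem_ball_self h.reg.pos) _ hn'
    have e2 := gap_nonneg a (r n • u)
    simp only [gap, ← hb, h.smooth.map_smul] at e1 e2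
    have e3 := ((phi b - phi a).le_opNorm u).trans (mul_le_mul_of_nonneg_right
      (h.reg.phi_lip a (mem_ball_self h.reg.pos) b hn) (norm_nonneg u))
    rw [ContinuousLinearMap.sub_apply, phi_apply hs, phi_apply h.smooth, Real.norm_eq_abs,
      show b - a = r n • u by rw [hb]; abel, norm_smul, Real.norm_of_nonneg hr.le] at e3
    rw [norm_smul, Real.norm_of_nonneg hr.le] at e1
    obtain ⟨e4, e5⟩ := abs_le.1 e3
    have e6 := mul_le_mul_of_nonneg_left e4 hr.le
    have e7 := mul_le_mul_of_nonneg_left e5 hr.le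
    rw [abs_le]
    constructor <;> nlinarith
  · filter_upwards [hmem, hsm] with n hn hn'
    have hr := h.rpos n
    set b := a + r n • u with hb
    have hb0 := h.reg.ne b hn
    have hs := (h.reg.c11 b hn).smooth
    have e1 := h.reg.taylor a (mem_ball_self h.reg.pos) _ hn'
    rw [← hb, map_smul, norm_smul, Real.norm_of_nonneg hr.le] at e1
    have e3 := ((dTc T b - dTc T a).le_opNorm u).trans (mul_le_mul_of_nonneg_right
      (h.reg.dT_lip a (mem_ball_self h.reg.pos) b hn) (norm_nonneg u))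
    rw [ContinuousLinearMap.sub_apply,
      show b - a = r n • u by rw [hb]; abel, norm_smul, Real.norm_of_nonneg hr.le] at e3
    have e : dT T b a - dT T a a
        = (T b - T a - r n • dTc T a u) - r n • (dTc T b u - dTc T a u) := by
      rw [← dTc_apply h.isT hC hb0 hs, show a = b - r n • u by rw [hb]; abel, map_sub, map_smul,
        show b - r n • u = a by rw [hb]; abel, dTc_apply h.isT hC hb0 hs b,
        dT_self h.isT hC hb0, dT_self h.isT hC h.ne_zero]
      module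
    rw [div_le_iff₀ hr, e]
    refine (norm_sub_le _ _).trans ?_
    rw [norm_smul (r n) (dTc T b u - dTc T a u), Real.norm_of_nonneg hr.le]
    have e4 := mul_le_mul_of_nonneg_left e3 hr.le
    nlinarith

/-- Replacing a direction by its tangential part. -/
lemma Pt.exists_rep_proj (h : Pt T T' a r ρ K) (u : X) :
    ∃ f : ℕ → X, Rep f (iota (u - Dn a u • a)) ∧ ∀ᶠ n in uf, a + r n • f n ≠ 0 ∧
      (∀ v, Dn (a + r n • u) v = Dn (a + r n • f n) v) ∧
      ∀ v, dT T (a + r n • u) v = dT T (a + r n • f n) v := by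
  set l := Dn a u with hl
  refine ⟨fun n => (1 + r n * l)⁻¹ • (u - l • a), (rep_iota _).congr ?_, ?_⟩
  · have h1 : Tendsto (fun n => |(1 + r n * l)⁻¹ - 1| * ‖u - l • a‖) uf (𝓝 0) := by
      have := ((((h.rlim.mul_const l).const_add (1 : ℝ)).inv₀ (by simp)).sub_const 1).abs.mul_const
        ‖u - l • a‖
      simpa using this
    refine h1.congr fun n => ?_
    rw [show (1 + r n * l)⁻¹ • (u - l • a) - (u - l • a)
      = ((1 + r n * l)⁻¹ - 1) • (u - l • a) by module, norm_smul, Real.norm_eq_abs]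
  · have h2 : ∀ᶠ n in uf, 0 < 1 + r n * l :=
      ((h.rlim.mul_const l).const_add (1 : ℝ)).eventually (eventually_gt_nhds (by simp))
    filter_upwards [h2, h.mem (rep_iota u)] with n hn hmem
    set g := a + r n • ((1 + r n * l)⁻¹ • (u - l • a)) with hg
    have e : a + r n • u = (1 + r n * l) • g := by
      rw [hg, smul_add, smul_comm (r n), smul_inv_smul₀ hn.ne']
      module
    have hg0 : g ≠ 0 := fun h0 => h.reg.ne _ hmem (by rw [e, h0, smul_zero])
    exact ⟨hg0, fun v => by rw [e, Dn_smul_pos _ v hn],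
      fun v => by rw [e, dT_smul_base h.isT hg0 hn]⟩

lemma Pt.tendsto_proj (h : Pt T T' a r ρ K) (u w : X) :
    Tendsto (fun n => (Dn (a + r n • u) w - Dn a w) / r n) uf
        (𝓝 (bPhi a r (iota (u - Dn a u • a)) (iota (w - Dn a w • a)))) ∧
      Rep (fun n => (r n)⁻¹ • (dT T (a + r n • u) w - dT T a w))
        (bTh T a r (iota (u - Dn a u • a)) (iota (w - Dn a w • a))) := by
  obtain ⟨C, hC⟩ := h.ctrl
  obtain ⟨f, hf, hev⟩ := h.exists_rep_proj u
  obtain ⟨r1, r2⟩ := h.radial u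
  set μ := Dn a w with hμ
  set w' := w - μ • a with hw'
  have ew : w = w' + μ • a := (sub_add_cancel _ _).symm
  refine ⟨?_, ?_⟩
  · have h1 := (h.tendsto_bPhi hf (rep_iota w')).add (r1.const_mul μ)
    rw [mul_zero, add_zero] at h1
    refine h1.congr' ?_
    filter_upwards [hev, h.mem hf] with n hn hfm
    have h0 : Dn a w' = 0 := by
      rw [hw', h.smooth.map_sub_smul, Dn_self, h.unit, mul_one, ← hμ, sub_self]
    rw [ew, hn.2.1 (w' + μ • a), hn.2.1 a, (h.reg.c11 _ hfm).smooth.map_add,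
      (h.reg.c11 _ hfm).smooth.map_smul, phi_apply (h.reg.c11 _ hfm).smooth,
      phi_apply h.smooth, h0, Dn_self, h.unit, div_eq_inv_mul, div_eq_inv_mul]
    ring
  · refine (h.rep_bTh hf (rep_iota w')).congr (squeeze_zero'
      (Eventually.of_forall fun _ => norm_nonneg _) ?_ (by simpa using r2.const_mul |μ|))
    filter_upwards [hev, h.mem hf] with n hn hfm
    have hr := h.rpos n
    have e1 : dT T (a + r n • u) w = dTc T (a + r n • f n) w' + μ • dT T (a + r n • u) a := by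
      rw [hn.2.2 w, hn.2.2 a, ← dTc_apply h.isT hC hn.1 (h.reg.c11 _ hfm).smooth,
        ← dTc_apply h.isT hC hn.1 (h.reg.c11 _ hfm).smooth, ← map_smul, ← map_add, ← ew]
    have e2 : dT T a w = dTc T a w' + μ • dT T a a := by
      rw [← dTc_apply h.isT hC h.ne_zero h.smooth, ← dTc_apply h.isT hC h.ne_zero h.smooth,
        ← map_smul, ← map_add, ← ew]
    rw [e1, e2, show (r n)⁻¹ • (dTc T (a + r n • f n) w' + μ • dT T (a + r n • u) a
        - (dTc T a w' + μ • dT T a a))
        - (r n)⁻¹ • (dTc T (a + r n • f n) w' - dTc T a w')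
      = ((r n)⁻¹ * μ) • (dT T (a + r n • u) a - dT T a a) by module, norm_smul, Real.norm_eq_abs,
      abs_mul, abs_inv, abs_of_pos hr, div_eq_inv_mul]
    exact le_of_eq (by ring)

/-- The common reduction to a unit point. -/
lemma exists_normalised (hT : IsTingley T T') {a : X} (ha : a ≠ 0) (h : C11At a) {r : ℕ → ℝ}
    (hr : ∀ n, 0 < r n) (hr0 : Tendsto r atTop (𝓝 0)) :
    ∃ (ρ K : ℝ), Two T T' (‖a‖⁻¹ • a) (fun n => r n / ‖a‖) ρ K ∧
      ∀ n u w, a + r n • u ≠ 0 →
        Dn (a + r n • u) w = Dn (‖a‖⁻¹ • a + (r n / ‖a‖) • u) w ∧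
        dT T (a + r n • u) w = dT T (‖a‖⁻¹ • a + (r n / ‖a‖) • u) w := by
  have hn : 0 < ‖a‖ := norm_pos_iff.2 ha
  obtain ⟨ρ, K, h2⟩ := exists_two hT (by rw [norm_smul, norm_inv, norm_norm, inv_mul_cancel₀ hn.ne'])
    (h.smul (inv_pos.2 hn)) (r := fun n => r n / ‖a‖) (fun n => div_pos (hr n) hn)
    (by simpa using (hr0.div_const ‖a‖).mono_left Nat.hyperfilter_le_atTop)
  refine ⟨ρ, K, h2, fun n u w hne => ?_⟩
  have e : ‖a‖⁻¹ • a + (r n / ‖a‖) • u = ‖a‖⁻¹ • (a + r n • u) := by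
    rw [smul_add, smul_smul, inv_mul_eq_div]
  rw [e, Dn_smul_pos _ _ (inv_pos.2 hn), dT_smul_base hT hne (inv_pos.2 hn)]
  exact ⟨rfl, rfl⟩

theorem rank_one (hT : IsTingley T T') {a : X} (ha : a ≠ 0) (h : C11At a) {S : Set X}
    (hS : S.Countable) {r : ℕ → ℝ} (hr : ∀ n, 0 < r n) (hr0 : Tendsto r atTop (𝓝 0))
    (η : Y →L[ℝ] ℝ) :
    ∃ ζ : ℝ, |ζ| ≤ 2 * ‖η‖ * 3 ∧ ∀ u ∈ S, ∀ w ∈ S, Tendsto
      (fun n => (η (dT T (a + r n • u) w - dT T a w) - ζ * (Dn (a + r n • u) w - Dn a w)) / r n)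
      uf (𝓝 0) := by
  obtain ⟨ρ, K, h2, hnorm⟩ := exists_normalised hT ha h hr hr0
  have hn : 0 < ‖a‖ := norm_pos_iff.2 ha
  set b := ‖a‖⁻¹ • a with hb
  set P : X → Ultra X := fun u => iota (u - Dn b u • b) with hP
  obtain ⟨G, hG, hrel⟩ := h2.exists_vector (S := P '' S) (hS.image P) (by
    rintro _ ⟨u, -, rfl⟩
    refine mem_kerU.2 (tendsto_nhds_unique (tendsto_bDn (rep_iota _))
      (tendsto_const_nhds.congr fun n => ?_))
    rw [phi_apply h2.fst.smooth, h2.fst.smooth.map_sub_smul, Dn_self, h2.fst.unit, mul_one,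
      sub_self])
  refine ⟨ufun (fun _ => η) G, ?_, fun u hu w hw => ?_⟩
  · refine le_of_tendsto (tendsto_ufun (A := fun _ : ℕ => η) (M := ‖η‖)
      (Eventually.of_forall fun _ => le_rfl) (rep_self G)).abs ?_
    filter_upwards [(rep_self G).eventually_le] with n hn'
    refine (η.le_opNorm _).trans ((mul_le_mul_of_nonneg_left
      (hn'.trans (by linarith : ‖G‖ + 1 ≤ 6)) (norm_nonneg _)).trans (le_of_eq (by ring)))
  obtain ⟨t1, t2⟩ := h2.fst.tendsto_proj u w
  rw [hrel _ ⟨u, hu, rfl⟩ _ ⟨w, hw, rfl⟩] at t2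
  have t3 := tendsto_ufun (A := fun _ : ℕ => η) (Eventually.of_forall fun _ => le_rfl) t2
  rw [map_smul, smul_eq_mul] at t3
  have t4 := (t3.sub (t1.const_mul (ufun (fun _ : ℕ => η) G))).const_mul ‖a‖⁻¹
  rw [show bPhi b (fun n => r n / ‖a‖) (P u) (P w) * ufun (fun _ : ℕ => η) G
    - ufun (fun _ : ℕ => η) G * bPhi b (fun n => r n / ‖a‖) (P u) (P w) = 0 by ring, mul_zero] at t4
  refine t4.congr' ?_
  filter_upwards [h2.fst.mem (rep_iota u)] with n hmem
  have hne : a + r n • u ≠ 0 := fun h0 => h2.fst.reg.ne _ hmem (by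
    show ‖a‖⁻¹ • a + (r n / ‖a‖) • u = 0
    rw [show ‖a‖⁻¹ • a + (r n / ‖a‖) • u = ‖a‖⁻¹ • (a + r n • u) by
      rw [smul_add, smul_smul, inv_mul_eq_div], h0, smul_zero])
  obtain ⟨e1, e2⟩ := hnorm n u w hne
  rw [e1, e2, show Dn a w = Dn b w from (Dn_smul_pos a w (inv_pos.2 hn)).symm,
    show dT T a w = dT T b w from (dT_smul_base hT ha (inv_pos.2 hn) w).symm, map_smul, smul_eq_mul]
  field_simp [(hr n).ne']

theorem trace_zero (hT : IsTingley T T') {a : X} (ha : a ≠ 0) (h : C11At a)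
    {r : ℕ → ℝ} (hr : ∀ n, 0 < r n) (hr0 : Tendsto r atTop (𝓝 0)) (u w : X) :
    Tendsto (fun n => Dn (T a) (dT T (a + r n • u) w - dT T a w) / r n) uf (𝓝 0) := by
  obtain ⟨ρ, K, h2, hnorm⟩ := exists_normalised hT ha h hr hr0
  have hn : 0 < ‖a‖ := norm_pos_iff.2 ha
  set b := ‖a‖⁻¹ • a with hb
  have hker : ∀ u : X, iota (u - Dn b u • b) ∈ kerU b := fun u =>
    mem_kerU.2 (tendsto_nhds_unique (tendsto_bDn (rep_iota _))
      (tendsto_const_nhds.congr fun n => by
        rw [phi_apply h2.fst.smooth, h2.fst.smooth.map_sub_smul, Dn_self, h2.fst.unit, mul_one,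
          sub_self]))
  obtain ⟨-, t2⟩ := h2.fst.tendsto_proj u w
  have t3 := (tendsto_bDn (a := T b) t2).const_mul ‖a‖⁻¹
  rw [mem_kerU.1 (h2.bTh_mem (hker u) (hker w)), mul_zero] at t3
  refine t3.congr' ?_
  filter_upwards [h2.fst.mem (rep_iota u)] with n hmem
  have hne : a + r n • u ≠ 0 := fun h0 => h2.fst.reg.ne _ hmem (by
    show ‖a‖⁻¹ • a + (r n / ‖a‖) • u = 0
    rw [show ‖a‖⁻¹ • a + (r n / ‖a‖) • u = ‖a‖⁻¹ • (a + r n • u) by
      rw [smul_add, smul_smul, inv_mul_eq_div], h0, smul_zero])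
  obtain ⟨-, e2⟩ := hnorm n u w hne
  have eT : T b = ‖a‖⁻¹ • T a := hT.homog _ _ (inv_pos.2 hn)
  rw [map_smul, smul_eq_mul, phi_apply h2.snd.smooth, eT, Dn_smul_base _ _ (inv_pos.2 hn), e2,
    show dT T a w = dT T b w from (dT_smul_base hT ha (inv_pos.2 hn) w).symm]
  field_simp [(hr n).ne']

end Vale.Agent.P084.Full
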