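import Mathlib.Analysis.Calculus.MeanValue
import Vale.Agent.P084.Full.RankOne

/-! If the derivative is locally constant where it is not isometric, it is isometric everywhere. -/

namespace Vale.Agent.P084.Full

open Inf Filter Topology Set

variable {X Y : Type*} [NormedAddCommGroup X] [NormedSpace ℝ X] [CompleteSpace X]
  [NormedAddCommGroup Y] [NormedSpace ℝ Y] [CompleteSpace Y] {T : X → Y} {T' : Y → X}

omit [CompleteSpace X] in
/-- Along a segment with constant derivative the extension is affine. -/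
lemma map_line_eq (hT : IsTingley T T') {C : ℝ} (hC : Ctrl T C) {p d : X} {c : Y} {r q : ℝ}
    (hne : ∀ t ∈ Ico r q, p + t • d ≠ 0) (hd : ∀ t ∈ Ico r q, dT T (p + t • d) d = c) :
    ∀ t ∈ Icc r q, T (p + t • d) = T (p + r • d) + (t - r) • c := by
  intro t ht
  have hTc := hT.lipschitz.continuous
  have h := constant_of_has_deriv_right_zero (f := fun s : ℝ => T (p + s • d) - s • c)
    (a := r) (b := q) (by fun_prop) (fun s hs => by
      rw [hasDerivWithinAt_iff_tendsto_slope, Ici_sdiff_left]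
      have hsub : Tendsto (fun w : ℝ => w - s) (𝓝[>] s) (𝓝[>] 0) :=
        tendsto_nhdsWithin_of_tendsto_nhds_of_eventually_within _
          (((continuous_id.sub continuous_const).tendsto' s 0 (sub_self s)).mono_left
            nhdsWithin_le_nhds)
          (eventually_nhdsWithin_of_forall fun w (hw : s < w) => show (0 : ℝ) < w - s from
            sub_pos.2 hw)
      have hl := ((tendsto_dT hT hC (hne s hs) d).comp hsub).sub_const c
      rw [hd s hs, sub_self] at hl
      refine hl.congr' (eventually_nhdsWithin_of_forall fun w (hw : s < w) => ?_)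
      rw [slope_def_module, Function.comp_apply,
        show p + s • d + (w - s) • d = p + w • d by module]
      rw [show T (p + w • d) - w • c - (T (p + s • d) - s • c)
        = T (p + w • d) - T (p + s • d) - (w - s) • c by module,
        smul_sub (w - s)⁻¹ (T (p + w • d) - T (p + s • d)), inv_smul_smul₀ (sub_pos.2 hw).ne'])
    t ht
  rw [← sub_add_cancel (T (p + t • d)) (t • c), h]
  module

/-- At a point without isometric derivative, the derivative in a direction is locally constant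
along that direction. -/
lemma eventually_dT_eq (hT : IsTingley T T')
    (h : ∀ y : X, ‖y‖ = 1 → C11At y → ¬ (∀ v, ‖dT T y v‖ = ‖v‖) → ∀ e : X, Dn y e = 0 →
      ∀ᶠ t in 𝓝 (0 : ℝ), dT T (y + t • e) e = dT T y e)
    {y v : X} (hy : y ≠ 0) (hc : C11At y) (hv : ‖dT T y v‖ ≠ ‖v‖) :
    ∀ᶠ s in 𝓝 (0 : ℝ), C11At (y + s • v) ∧ dT T (y + s • v) v = dT T y v := by
  obtain ⟨C, hC⟩ := exists_ctrl hT
  set m := ‖y‖ with hm
  have hm0 : 0 < m := norm_pos_iff.2 hy
  set c := Dn y v / m with hcdef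
  set e := v - c • y with he
  have hs := hc.smooth
  have he0 : Dn y e = 0 := by
    rw [he, hs.map_sub_smul, Dn_self, hcdef, div_mul_cancel₀ _ hm0.ne', sub_self]
  set y₁ := m⁻¹ • y with hy₁
  have hy₁n : ‖y₁‖ = 1 := by
    rw [hy₁, norm_smul, norm_inv, hm, norm_norm, inv_mul_cancel₀ hm0.ne']
  have hb : ∀ w, dT T y w = dT T y₁ w := fun w => dT_normalize hT hC hy w
  have h1 := h y₁ hy₁n (hc.smul (inv_pos.2 hm0)) (fun hiso => hv (by rw [hb, hiso])) e
    (by rw [hy₁, Dn_smul_pos _ _ (inv_pos.2 hm0), he0])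
  have hline : Tendsto (fun t : ℝ => y + t • e) (𝓝 0) (𝓝 y) :=
    (continuous_const.add (continuous_id.smul continuous_const)).tendsto' 0 y (by simp)
  have hev : ∀ᶠ t in 𝓝 (0 : ℝ),
      (C11At (y + t • e) ∧ y + t • e ≠ 0) ∧ dT T (y + t • e) e = dT T y e := by
    have hdiv : Tendsto (fun t : ℝ => t / m) (𝓝 0) (𝓝 0) :=
      (continuous_id.div_const m).tendsto' 0 0 (zero_div m)
    refine ((hline.eventually hc.eventually).and (hline.eventually_ne hy)).and ?_
    filter_upwards [hline.eventually_ne hy, hdiv.eventually h1] with t htne ht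
    rw [hb e, ← ht, ← dT_smul_base hT htne (inv_pos.2 hm0) e, hy₁,
      show m⁻¹ • (y + t • e) = m⁻¹ • y + (t / m) • e by rw [smul_add, smul_smul, inv_mul_eq_div]]
  obtain ⟨δ, hδ, hball⟩ := Metric.eventually_nhds_iff.1 hev
  have key : ∀ t : ℝ, |t| < δ / 2 →
      C11At (y + t • e) ∧ y + t • e ≠ 0 ∧ dT T (y + t • e) v = dT T y v := by
    intro t ht
    have hI : ∀ {s : ℝ}, |s| ≤ δ / 2 →
        (C11At (y + s • e) ∧ y + s • e ≠ 0) ∧ dT T (y + s • e) e = dT T y e :=
      fun hs' => hball (by rw [Real.dist_0_eq_abs]; linarith)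
    have hJ : ∀ {s : ℝ}, s ∈ Ico (-(δ / 2)) (δ / 2) → |s| ≤ δ / 2 := fun hs' =>
      abs_le.2 ⟨hs'.1, hs'.2.le⟩
    have hl := map_line_eq hT hC (c := dT T y e) (fun s hs' => (hI (hJ hs')).1.2)
      (fun s hs' => (hI (hJ hs')).2)
    have hl0 := hl 0 ⟨by linarith, by linarith⟩
    have hlt := hl t ⟨(abs_le.1 ht.le).1, (abs_le.1 ht.le).2⟩
    rw [zero_smul, add_zero] at hl0
    obtain ⟨⟨hz11, hz0⟩, hze⟩ := hI ht.le
    refine ⟨hz11, hz0, ?_⟩
    set z := y + t • e with hz
    have hTz : T z = T y + t • dT T y e := by rw [hlt, hl0]; module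
    have hzy : dT T z y = dT T y y := by
      have h2 := dT_add_of_smooth hT hC hz0 hz11.smooth y (t • e)
      rw [← hz, dT_self hT hC hz0, dT_smul' hT hC hz0 hz11.smooth, hze, hTz] at h2
      rw [dT_self hT hC hy]
      exact (add_right_cancel h2).symm
    have hve : v = e + c • y := (sub_add_cancel _ _).symm
    rw [hve, dT_add_of_smooth hT hC hz0 hz11.smooth, dT_smul' hT hC hz0 hz11.smooth, hze, hzy,
      dT_add_of_smooth hT hC hy hs, dT_smul' hT hC hy hs]
  have hμ : Tendsto (fun s : ℝ => 1 + s * c) (𝓝 0) (𝓝 1) :=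
    (continuous_const.add (continuous_id.mul continuous_const)).tendsto' 0 1 (by simp)
  have hφ : Tendsto (fun s : ℝ => |s / (1 + s * c)|) (𝓝 0) (𝓝 0) := by
    simpa using ((tendsto_id (α := ℝ) (x := 𝓝 0)).div hμ one_ne_zero).abs
  filter_upwards [hμ.eventually (eventually_gt_nhds one_pos),
    hφ.eventually (eventually_lt_nhds (half_pos hδ))] with s hs1 hs2
  obtain ⟨k1, k2, k3⟩ := key _ hs2
  have e1 : y + s • v = (1 + s * c) • (y + (s / (1 + s * c)) • e) := by
    rw [smul_add, smul_smul, mul_div_cancel₀ _ hs1.ne', he]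
    module
  rw [e1, dT_smul_base hT k2 hs1]
  exact ⟨k1.smul hs1, k3⟩

theorem norm_dT_of_locally_const (hT : IsTingley T T')
    (h : ∀ y : X, ‖y‖ = 1 → C11At y → ¬ (∀ v, ‖dT T y v‖ = ‖v‖) → ∀ e : X, Dn y e = 0 →
      ∀ᶠ t in 𝓝 (0 : ℝ), dT T (y + t • e) e = dT T y e)
    {a : X} (ha : a ≠ 0) (v : X) : ‖dT T a v‖ = ‖v‖ := by
  obtain ⟨C, hC⟩ := exists_ctrl hT
  by_contra hv
  set Lv := dT T a v with hLv
  have hray : ∀ s : ℝ, 0 ≤ s → a + s • v ≠ 0 := by
    intro s hs h0
    rcases eq_or_lt_of_le hs with rfl | hs'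
    · exact ha (by simpa using h0)
    have e1 : v = s⁻¹ • -a := by
      rw [eq_inv_smul_iff₀ hs'.ne']
      exact eq_neg_of_add_eq_zero_right h0
    refine hv ?_
    rw [hLv, e1, dT_smul hT hC ha _ (inv_nonneg.2 hs), dT_neg_self hT hC ha, norm_smul, norm_smul,
      norm_neg, norm_neg, hT.norm_map]
  set Good : ℝ → Prop := fun s => C11At (a + s • v) ∧ dT T (a + s • v) v = Lv with hGood
  have h0 : Good 0 := by
    simp only [hGood, zero_smul, add_zero]
    exact ⟨by_contra fun hn => hv (norm_dT_of_not_c11 hT ha hn v), hLv.symm⟩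
  have hopen : ∀ s, 0 ≤ s → Good s → ∀ᶠ w in 𝓝 s, Good w := by
    intro s hs hg
    have hsub : Tendsto (fun w : ℝ => w - s) (𝓝 s) (𝓝 0) :=
      (continuous_id.sub continuous_const).tendsto' s 0 (sub_self s)
    filter_upwards [hsub.eventually (eventually_dT_eq hT h (hray s hs) hg.1
      (by rw [hg.2]; exact hv))] with w hw
    rw [show a + s • v + (w - s) • v = a + w • v by module, hg.2] at hw
    exact hw
  have hline : ∀ q : ℝ, (∀ s ∈ Ico 0 q, Good s) → ∀ s ∈ Icc 0 q, T (a + s • v) = T a + s • Lv := by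
    intro q hq s hs
    simpa using map_line_eq hT hC (fun w hw => hray w hw.1) (fun w hw => (hq w hw).2) s hs
  by_cases hall : ∀ s, 0 ≤ s → Good s
  · have hd : 0 < |‖Lv‖ - ‖v‖| := abs_pos.2 (sub_ne_zero.2 hv)
    set s := (2 * ‖a‖ + 1) / |‖Lv‖ - ‖v‖| with hs
    have hs0 : 0 < s := by positivity
    have h1 := hline s (fun w hw => hall w hw.1) s ⟨hs0.le, le_rfl⟩
    have h2 : ‖T a + s • Lv‖ = ‖a + s • v‖ := by rw [← h1, hT.norm_map]
    have h3 := abs_norm_sub_norm_le (T a + s • Lv) (s • Lv)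
    have h4 := abs_norm_sub_norm_le (a + s • v) (s • v)
    rw [add_sub_cancel_right, h2, hT.norm_map, norm_smul, Real.norm_of_nonneg hs0.le] at h3
    rw [add_sub_cancel_right, norm_smul, Real.norm_of_nonneg hs0.le] at h4
    have h5 : |s * ‖Lv‖ - s * ‖v‖| ≤ 2 * ‖a‖ := by
      rw [abs_le] at h3 h4 ⊢
      constructor <;> linarith [h3.1, h3.2, h4.1, h4.2]
    rw [← mul_sub, abs_mul, abs_of_pos hs0, hs, div_mul_cancel₀ _ hd.ne'] at h5
    linarith
  push Not at hall
  obtain ⟨s₁, hs₁, hbad⟩ := hall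
  set B : Set ℝ := {s | 0 ≤ s ∧ ¬ Good s}
  have hBne : B.Nonempty := ⟨s₁, hs₁, hbad⟩
  have hBb : BddBelow B := ⟨0, fun s hs => hs.1⟩
  set b := sInf B
  have hb0 : 0 ≤ b := le_csInf hBne fun s hs => hs.1
  have hlt : ∀ s ∈ Ico 0 b, Good s := fun s hs => by
    by_contra hn
    exact absurd (csInf_le hBb (show s ∈ B from ⟨hs.1, hn⟩)) (not_le.2 hs.2)
  have hbg : ¬ Good b := fun hg => by
    obtain ⟨δ, hδ, hball⟩ := Metric.eventually_nhds_iff.1 (hopen b hb0 hg)
    obtain ⟨s, hsB, hsb⟩ := exists_lt_of_csInf_lt hBne (lt_add_of_pos_right b hδ)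
    refine hsB.2 (hball ?_)
    rw [Real.dist_eq, abs_lt]
    constructor <;> linarith [csInf_le hBb hsB]
  have hbpos : 0 < b := lt_of_le_of_ne hb0 fun he => hbg (he ▸ h0)
  have hb1 : a + b • v ≠ 0 := hray b hb0
  have hnot : ¬ C11At (a + b • v) := fun hc => hbg ⟨hc, by
    obtain ⟨ρ, K, hR⟩ := exists_reg hT hC hb1 hc
    have hball : ∀ᶠ s in 𝓝[<] b, a + s • v ∈ Metric.ball (a + b • v) ρ :=
      (((continuous_const.add (continuous_id.smul continuous_const)).tendsto b).mono_left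
        nhdsWithin_le_nhds).eventually (Metric.ball_mem_nhds _ hR.pos)
    refine sub_eq_zero.1 (norm_le_zero_iff.1 (ge_of_tendsto
      (f := fun s => K * |b - s| * ‖v‖ * ‖v‖) (x := 𝓝[<] b) ?_ ?_))
    · have : Continuous fun s => K * |b - s| * ‖v‖ * ‖v‖ := by fun_prop
      simpa using (this.tendsto b).mono_left nhdsWithin_le_nhds
    · filter_upwards [hball, Ico_mem_nhdsLT hbpos] with s hs hs'
      rw [← dTc_apply hT hC hb1 hc.smooth v, ← (hlt s hs').2,
        ← dTc_apply hT hC (hR.ne _ hs) (hR.c11 _ hs).smooth v, ← sub_apply]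
      refine ((dTc T (a + b • v) - dTc T (a + s • v)).le_opNorm v).trans
        (mul_le_mul_of_nonneg_right ?_ (norm_nonneg _))
      refine (hR.dT_lip _ hs _ (Metric.mem_ball_self hR.pos)).trans (le_of_eq ?_)
      rw [show a + b • v - (a + s • v) = (b - s) • v by module, norm_smul, Real.norm_eq_abs,
        mul_assoc]⟩
  have hlim : dT T (a + b • v) (-v) = -Lv := by
    refine tendsto_nhds_unique (tendsto_dT hT hC hb1 (-v)) (tendsto_const_nhds.congr' ?_)
    filter_upwards [Ioo_mem_nhdsGT hbpos] with t ht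
    rw [show a + b • v + t • -v = a + (b - t) • v by module,
      hline b hlt (b - t) ⟨by linarith [ht.2], by linarith [ht.1]⟩,
      hline b hlt b ⟨hb0, le_rfl⟩,
      show T a + (b - t) • Lv - (T a + b • Lv) = t • -Lv by module, inv_smul_smul₀ ht.1.ne']
  have := norm_dT_of_not_c11 hT hb1 hnot (-v)
  rw [hlim, norm_neg, norm_neg] at this
  exact hv this

end Vale.Agent.P084.Full
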