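import Vale.Agent.P084.Inf.Ultra
import Mathlib.Analysis.Normed.Operator.ContinuousLinearMap

/-! Classes of eventually bounded sequences in the ultrapower. -/

namespace Vale.Agent.P084.Full

open Inf Filter Topology
open scoped BoundedContinuousFunction

variable {X Y : Type*} [NormedAddCommGroup X] [NormedSpace ℝ X] [NormedAddCommGroup Y]
  [NormedSpace ℝ Y]

/-- A chosen representing sequence. -/
noncomputable def rep (s : Ultra X) : ℕ → X := ((Ultra.exists_rep s).choose : ℕ →ᵇ X)

/-- `f` represents `s`. -/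
def Rep (f : ℕ → X) (s : Ultra X) : Prop := Tendsto (fun n => ‖f n - rep s n‖) uf (𝓝 0)

/-- The class of a constant sequence. -/
noncomputable def iota (x : X) : Ultra X := Ultra.mk (.const ℕ x)

lemma rep_self (s : Ultra X) : Rep (rep s) s := by simp [Rep]

lemma rep_mk (f : ℕ →ᵇ X) : Rep f (Ultra.mk f) :=
  Ultra.mk_eq.1 (Ultra.exists_rep (Ultra.mk f)).choose_spec.symm

lemma rep_iota (x : X) : Rep (fun _ => x) (iota x) := rep_mk (BoundedContinuousFunction.const ℕ x)

lemma rep_bdd (s : Ultra X) : ∃ B, 0 ≤ B ∧ ∀ n, ‖rep s n‖ ≤ B :=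
  ⟨_, norm_nonneg _, fun n => (Ultra.exists_rep s).choose.norm_coe_le_norm n⟩

namespace Rep

variable {f g : ℕ → X} {s t : Ultra X}

lemma congr (hf : Rep f s) (h : Tendsto (fun n => ‖g n - f n‖) uf (𝓝 0)) : Rep g s :=
  squeeze_zero (fun _ => norm_nonneg _) (fun n => norm_sub_le_norm_sub_add_norm_sub _ (f n) _)
    (by simpa using Tendsto.add h hf)

lemma congr' (hf : Rep f s) (h : ∀ᶠ n in uf, g n = f n) : Rep g s :=
  hf.congr (tendsto_const_nhds.congr' (h.mono fun n hn => by simp [hn]))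

lemma tendsto_norm (hf : Rep f s) : Tendsto (fun n => ‖f n‖) uf (𝓝 ‖s‖) := by
  have h1 := Ultra.tendsto_norm (Ultra.exists_rep s).choose
  rw [(Ultra.exists_rep s).choose_spec] at h1
  refine tendsto_of_tendsto_of_dist h1 (squeeze_zero (fun _ => dist_nonneg) (fun n => ?_) hf)
  rw [dist_comm, Real.dist_eq]
  exact abs_norm_sub_norm_le _ _

lemma eventually_le (hf : Rep f s) : ∀ᶠ n in uf, ‖f n‖ ≤ ‖s‖ + 1 :=
  hf.tendsto_norm.eventually (eventually_le_nhds (lt_add_one _))

lemma tendsto_sub (hf : Rep f s) (hg : Rep g t) :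
    Tendsto (fun n => ‖f n - g n‖) uf (𝓝 ‖s - t‖) := by
  have h1 := Ultra.tendsto_norm ((Ultra.exists_rep s).choose - (Ultra.exists_rep t).choose)
  rw [map_sub, (Ultra.exists_rep s).choose_spec, (Ultra.exists_rep t).choose_spec] at h1
  refine tendsto_of_tendsto_of_dist h1 (squeeze_zero (fun _ => dist_nonneg) (fun n => ?_)
    (by simpa using Tendsto.add hf hg))
  rw [dist_comm, Real.dist_eq]
  refine (abs_norm_sub_norm_le _ _).trans ?_
  rw [BoundedContinuousFunction.sub_apply]
  show ‖f n - g n - (rep s n - rep t n)‖ ≤ _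
  rw [sub_sub_sub_comm]
  exact norm_sub_le _ _

lemma eq (hf : Rep f s) (hf' : Rep f t) : s = t := by
  have h := hf.tendsto_sub hf'
  simp only [sub_self, norm_zero] at h
  exact sub_eq_zero.1 (norm_eq_zero.1 (tendsto_nhds_unique h tendsto_const_nhds))

lemma of_mk {F : ℕ →ᵇ X} (h : Ultra.mk F = s) : Rep F s := h ▸ rep_mk F

lemma add (hf : Rep f s) (hg : Rep g t) : Rep (fun n => f n + g n) (s + t) := by
  refine (of_mk (F := (Ultra.exists_rep s).choose + (Ultra.exists_rep t).choose) ?_).congr ?_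
  · rw [map_add, (Ultra.exists_rep s).choose_spec, (Ultra.exists_rep t).choose_spec]
  · refine squeeze_zero (fun _ => norm_nonneg _) (fun n => ?_) (by simpa using Tendsto.add hf hg)
    rw [BoundedContinuousFunction.add_apply]
    show ‖f n + g n - (rep s n + rep t n)‖ ≤ _
    rw [add_sub_add_comm]
    exact norm_add_le _ _

lemma smul (c : ℝ) (hf : Rep f s) : Rep (fun n => c • f n) (c • s) := by
  refine (of_mk (F := c • (Ultra.exists_rep s).choose) ?_).congr ?_
  · rw [map_smul, (Ultra.exists_rep s).choose_spec]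
  · refine squeeze_zero (fun _ => norm_nonneg _) (fun n => le_of_eq ?_)
      (by simpa using Tendsto.const_mul ‖c‖ hf)
    rw [BoundedContinuousFunction.smul_apply, ← smul_sub, norm_smul]
    rfl

lemma neg (hf : Rep f s) : Rep (fun n => -f n) (-s) := by
  simpa using hf.smul (-1)

lemma sub (hf : Rep f s) (hg : Rep g t) : Rep (fun n => f n - g n) (s - t) := by
  simpa [sub_eq_add_neg] using hf.add hg.neg

lemma zero : Rep (fun _ => (0 : X)) 0 := by
  simpa using (rep_iota (0 : X)).smul 0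

lemma eq_zero (hf : Rep f s) (h : Tendsto (fun n => ‖f n‖) uf (𝓝 0)) : s = 0 :=
  norm_eq_zero.1 (tendsto_nhds_unique hf.tendsto_norm h)

end Rep

lemma norm_iota (x : X) : ‖iota x‖ = ‖x‖ :=
  tendsto_nhds_unique (rep_iota x).tendsto_norm tendsto_const_nhds

open Classical in
/-- The class of an eventually bounded sequence. -/
noncomputable def ucl (g : ℕ → X) : Ultra X :=
  if h : ∃ B : ℝ, 0 ≤ B ∧ ∀ᶠ n in uf, ‖g n‖ ≤ B then
    Ultra.mk (.ofNormedAddCommGroupDiscrete (fun n => if ‖g n‖ ≤ h.choose then g n else 0) h.choose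
      fun n => by split_ifs with hn <;> simp [hn, h.choose_spec.1])
  else 0

lemma rep_ucl {g : ℕ → X} {B : ℝ} (h : ∀ᶠ n in uf, ‖g n‖ ≤ B) : Rep g (ucl g) := by
  classical
  have hex : ∃ B : ℝ, 0 ≤ B ∧ ∀ᶠ n in uf, ‖g n‖ ≤ B :=
    ⟨max B 0, le_max_right _ _, h.mono fun n hn => hn.trans (le_max_left _ _)⟩
  unfold ucl
  rw [dif_pos hex]
  refine (rep_mk _).congr' (hex.choose_spec.2.mono fun n hn => ?_)
  simp [hn]

/-- The limit along the ultrafilter. -/
noncomputable def ulim (g : ℕ → ℝ) : ℝ := limUnder uf g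

lemma tendsto_ulim {g : ℕ → ℝ} {B : ℝ} (h : ∀ᶠ n in uf, |g n| ≤ B) :
    Tendsto g uf (𝓝 (ulim g)) := by
  refine tendsto_nhds_limUnder ?_
  obtain ⟨l, -, hl⟩ := (isCompact_Icc (a := -B) (b := B)).ultrafilter_le_nhds
    ((Filter.hyperfilter ℕ).map g)
    (le_principal_iff.2 (mem_map.2 (h.mono fun n hn => abs_le.1 hn)))
  exact ⟨l, hl⟩

lemma ulim_eq {g : ℕ → ℝ} {l : ℝ} (h : Tendsto g uf (𝓝 l)) : ulim g = l := h.limUnder_eq

section Clm

variable {A : ℕ → X →L[ℝ] Y} {M : ℝ}

/-- The ultrapower of a bounded sequence of operators. -/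
noncomputable def ufam (A : ℕ → X →L[ℝ] Y) : Ultra X →L[ℝ] Ultra Y :=
  open Classical in
  if h : ∃ L : Ultra X →L[ℝ] Ultra Y, ∀ s, L s = ucl fun n => A n (rep s n) then h.choose else 0

lemma eventually_norm_apply_le (hA : ∀ᶠ n in uf, ‖A n‖ ≤ M) {f : ℕ → X} {s : Ultra X}
    (hf : Rep f s) : ∀ᶠ n in uf, ‖A n (f n)‖ ≤ M * (‖s‖ + 1) := by
  filter_upwards [hA, hf.eventually_le] with n h1 h2
  exact ((A n).le_opNorm _).trans
    (mul_le_mul h1 h2 (norm_nonneg _) (le_trans (norm_nonneg _) h1))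

lemma rep_ufam (hA : ∀ᶠ n in uf, ‖A n‖ ≤ M) {f : ℕ → X} {s : Ultra X} (hf : Rep f s) :
    Rep (fun n => A n (f n)) (ufam A s) := by
  have hu : ∀ {f : ℕ → X} {s : Ultra X}, Rep f s →
      Rep (fun n => A n (f n)) (ucl fun n => A n (rep s n)) := by
    intro f s hf
    refine (rep_ucl (eventually_norm_apply_le hA (rep_self s))).congr (squeeze_zero'
      (Eventually.of_forall fun _ => norm_nonneg _) ?_ (by simpa using Tendsto.const_mul M hf))
    filter_upwards [hA] with n hn
    rw [← map_sub]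
    exact ((A n).le_opNorm _).trans (mul_le_mul_of_nonneg_right hn (norm_nonneg _))
  have hex : ∃ L : Ultra X →L[ℝ] Ultra Y, ∀ s, L s = ucl fun n => A n (rep s n) := by
    let L : Ultra X →ₗ[ℝ] Ultra Y :=
      { toFun := fun s => ucl fun n => A n (rep s n)
        map_add' := fun s t => (hu ((rep_self s).add (rep_self t))).eq (by
          simpa using (hu (rep_self s)).add (hu (rep_self t)))
        map_smul' := fun c s => (hu ((rep_self s).smul c)).eq (by
          simpa using (hu (rep_self s)).smul c) }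
    refine ⟨L.mkContinuous M fun s => ?_, fun _ => rfl⟩
    refine le_of_tendsto_of_tendsto (hu (rep_self s)).tendsto_norm
      ((rep_self s).tendsto_norm.const_mul M) ?_
    filter_upwards [hA] with n hn
    exact ((A n).le_opNorm _).trans (mul_le_mul_of_nonneg_right hn (norm_nonneg _))
  rw [ufam, dif_pos hex, hex.choose_spec]
  exact hu hf

lemma norm_ufam_le (hA : ∀ᶠ n in uf, ‖A n‖ ≤ M) (s : Ultra X) : ‖ufam A s‖ ≤ M * ‖s‖ := by
  refine le_of_tendsto_of_tendsto (rep_ufam hA (rep_self s)).tendsto_norm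
    ((rep_self s).tendsto_norm.const_mul M) ?_
  filter_upwards [hA] with n hn
  exact ((A n).le_opNorm _).trans (mul_le_mul_of_nonneg_right hn (norm_nonneg _))

/-- The ultrapower of a bounded sequence of functionals. -/
noncomputable def ufun (A : ℕ → X →L[ℝ] ℝ) : Ultra X →L[ℝ] ℝ :=
  open Classical in
  if h : ∃ L : Ultra X →L[ℝ] ℝ, ∀ s, L s = ulim fun n => A n (rep s n) then h.choose else 0

lemma tendsto_ufun {A : ℕ → X →L[ℝ] ℝ} (hA : ∀ᶠ n in uf, ‖A n‖ ≤ M) {f : ℕ → X} {s : Ultra X}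
    (hf : Rep f s) : Tendsto (fun n => A n (f n)) uf (𝓝 (ufun A s)) := by
  have hu : ∀ {f : ℕ → X} {s : Ultra X}, Rep f s →
      Tendsto (fun n => A n (f n)) uf (𝓝 (ulim fun n => A n (rep s n))) := by
    intro f s hf
    refine tendsto_of_tendsto_of_dist (tendsto_ulim ((eventually_norm_apply_le hA (rep_self s)).mono
      fun n hn => by rwa [Real.norm_eq_abs] at hn)) (squeeze_zero'
      (Eventually.of_forall fun _ => dist_nonneg) ?_ (by simpa using Tendsto.const_mul M hf))
    filter_upwards [hA] with n hn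
    rw [dist_comm, dist_eq_norm, ← map_sub]
    exact ((A n).le_opNorm _).trans (mul_le_mul_of_nonneg_right hn (norm_nonneg _))
  have hex : ∃ L : Ultra X →L[ℝ] ℝ, ∀ s, L s = ulim fun n => A n (rep s n) := by
    let L : Ultra X →ₗ[ℝ] ℝ :=
      { toFun := fun s => ulim fun n => A n (rep s n)
        map_add' := fun s t => tendsto_nhds_unique (hu ((rep_self s).add (rep_self t))) (by
          simpa using (hu (rep_self s)).add (hu (rep_self t)))
        map_smul' := fun c s => tendsto_nhds_unique (hu ((rep_self s).smul c)) (by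
          simpa using (hu (rep_self s)).const_mul c) }
    refine ⟨L.mkContinuous M fun s => ?_, fun _ => rfl⟩
    refine le_of_tendsto_of_tendsto (hu (rep_self s)).norm
      ((rep_self s).tendsto_norm.const_mul M) ?_
    filter_upwards [hA] with n hn
    exact ((A n).le_opNorm _).trans (mul_le_mul_of_nonneg_right hn (norm_nonneg _))
  rw [ufun, dif_pos hex, hex.choose_spec]
  exact hu hf

/-- Representatives in the kernel of a functional. -/
lemma exists_rep_ker {A : X →L[ℝ] ℝ} {a : X} (ha : A a = 1) {s : Ultra X}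
    (hs : ufun (fun _ => A) s = 0) : ∃ f : ℕ → X, Rep f s ∧ ∀ n, A (f n) = 0 := by
  refine ⟨fun n => rep s n - A (rep s n) • a, (rep_self s).congr ?_, fun n => by simp [ha]⟩
  have h := ((tendsto_ufun (A := fun _ => A) (Eventually.of_forall fun _ => le_rfl)
    (rep_self s)).abs.mul_const ‖a‖)
  rw [hs, abs_zero, zero_mul] at h
  refine h.congr fun n => ?_
  rw [sub_sub_cancel_left, norm_neg, norm_smul, Real.norm_eq_abs]

end Clm

end Vale.Agent.P084.Full
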