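import Vale.Agent.P084.Full.C11
import Vale.Agent.P084.Full.Ucl
import Mathlib.Analysis.Convex.Function

/-! Second order blow-up of the extension at a point where the norm is `C^{1,1}`. -/

namespace Vale.Agent.P084.Full

open Inf Filter Topology Metric

variable {X Y : Type*} [NormedAddCommGroup X] [NormedSpace ℝ X] [NormedAddCommGroup Y]
  [NormedSpace ℝ Y]

/-- Second order blow-up of the norm. -/
noncomputable def bOm (a : X) (r : ℕ → ℝ) (s : Ultra X) : ℝ :=
  ulim fun n => gap a (r n • rep s n) / r n ^ 2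

/-- Blow-up of the derivative of the norm. -/
noncomputable def bPhi (a : X) (r : ℕ → ℝ) (s : Ultra X) : Ultra X →L[ℝ] ℝ :=
  ufun fun n => (r n)⁻¹ • (phi (a + r n • rep s n) - phi a)

/-- The derivative of the norm on the ultrapower. -/
noncomputable def bDn (a : X) : Ultra X →L[ℝ] ℝ := ufun fun _ => phi a

/-- The tangent space in the ultrapower. -/
noncomputable def kerU (a : X) : Submodule ℝ (Ultra X) := LinearMap.ker (bDn a).toLinearMap

lemma mem_kerU {a : X} {s : Ultra X} : s ∈ kerU a ↔ bDn a s = 0 := LinearMap.mem_ker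

lemma isClosed_kerU (a : X) : IsClosed (kerU a : Set (Ultra X)) := (bDn a).isClosed_ker

variable [CompleteSpace Y]

/-- The derivative of the extension on the ultrapower. -/
noncomputable def bLin (T : X → Y) (a : X) : Ultra X →L[ℝ] Ultra Y := ufam fun _ => dTc T a

/-- Blow-up of the derivative of the extension. -/
noncomputable def bTh (T : X → Y) (a : X) (r : ℕ → ℝ) (s : Ultra X) : Ultra X →L[ℝ] Ultra Y :=
  ufam fun n => (r n)⁻¹ • (dTc T (a + r n • rep s n) - dTc T a)

/-- Second order blow-up of the extension. -/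
noncomputable def bXi (T : X → Y) (a : X) (r : ℕ → ℝ) (s : Ultra X) : Ultra Y :=
  ucl fun n => (r n ^ 2)⁻¹ • (T (a + r n • rep s n) - T a - dTc T a (r n • rep s n))

/-- A unit `C^{1,1}` point with a null sequence of scales. -/
structure Pt (T : X → Y) (T' : Y → X) (a : X) (r : ℕ → ℝ) (ρ K : ℝ) : Prop where
  isT : IsTingley T T'
  ctrl : ∃ C, Ctrl T C
  unit : ‖a‖ = 1
  reg : Reg T a ρ K
  rpos : ∀ n, 0 < r n
  rlim : Tendsto r uf (𝓝 0)

variable {T : X → Y} {T' : Y → X} {a : X} {r : ℕ → ℝ} {ρ K : ℝ}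

lemma tendsto_bDn {f : ℕ → X} {s : Ultra X} (hf : Rep f s) :
    Tendsto (fun n => phi a (f n)) uf (𝓝 (bDn a s)) :=
  tendsto_ufun (A := fun _ => phi a) (Eventually.of_forall fun _ => le_rfl) hf

lemma rep_bLin {f : ℕ → X} {s : Ultra X} (hf : Rep f s) :
    Rep (fun n => dTc T a (f n)) (bLin T a s) :=
  rep_ufam (A := fun _ => dTc T a) (Eventually.of_forall fun _ => le_rfl) hf

namespace Pt

variable (h : Pt T T' a r ρ K)
include h

lemma ne_zero : a ≠ 0 := h.reg.ne a (mem_ball_self h.reg.pos)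

lemma smooth : Smooth a := (h.reg.c11 a (mem_ball_self h.reg.pos)).smooth

lemma small {f : ℕ → X} {s : Ultra X} (hf : Rep f s) {c : ℝ} (hc : 0 < c) :
    ∀ᶠ n in uf, ‖r n • f n‖ < c := by
  have h1 := h.rlim.mul hf.tendsto_norm
  rw [zero_mul] at h1
  filter_upwards [h1.eventually (eventually_lt_nhds hc)] with n hn
  rwa [norm_smul, Real.norm_of_nonneg (h.rpos n).le]

lemma mem {f : ℕ → X} {s : Ultra X} (hf : Rep f s) : ∀ᶠ n in uf, a + r n • f n ∈ ball a ρ := by
  filter_upwards [h.small hf h.reg.pos] with n hn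
  rwa [mem_ball, dist_eq_norm, add_sub_cancel_left]

lemma phi_le {f g : ℕ → X} {s t : Ultra X} (hf : Rep f s) (hg : Rep g t) : ∀ᶠ n in uf,
    ‖(r n)⁻¹ • (phi (a + r n • f n) - phi (a + r n • g n))‖ ≤ K * ‖f n - g n‖ := by
  filter_upwards [h.mem hf, h.mem hg] with n h1 h2
  rw [norm_smul, norm_inv, Real.norm_of_nonneg (h.rpos n).le, inv_mul_le_iff₀ (h.rpos n)]
  refine (h.reg.phi_lip _ h2 _ h1).trans (le_of_eq ?_)
  rw [add_sub_add_left_eq_sub, ← smul_sub, norm_smul, Real.norm_of_nonneg (h.rpos n).le]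
  ring

lemma dT_le {f g : ℕ → X} {s t : Ultra X} (hf : Rep f s) (hg : Rep g t) : ∀ᶠ n in uf,
    ‖(r n)⁻¹ • (dTc T (a + r n • f n) - dTc T (a + r n • g n))‖ ≤ K * ‖f n - g n‖ := by
  filter_upwards [h.mem hf, h.mem hg] with n h1 h2
  rw [norm_smul, norm_inv, Real.norm_of_nonneg (h.rpos n).le, inv_mul_le_iff₀ (h.rpos n)]
  refine (h.reg.dT_lip _ h2 _ h1).trans (le_of_eq ?_)
  rw [add_sub_add_left_eq_sub, ← smul_sub, norm_smul, Real.norm_of_nonneg (h.rpos n).le]
  ring

lemma phi_bdd {f : ℕ → X} {s : Ultra X} (hf : Rep f s) :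
    ∀ᶠ n in uf, ‖(r n)⁻¹ • (phi (a + r n • f n) - phi a)‖ ≤ K * (‖s‖ + 1) := by
  filter_upwards [h.phi_le hf Rep.zero, hf.eventually_le] with n h1 h2
  simp only [smul_zero, add_zero, sub_zero] at h1
  exact h1.trans (mul_le_mul_of_nonneg_left h2 h.reg.nonneg)

lemma dT_bdd {f : ℕ → X} {s : Ultra X} (hf : Rep f s) :
    ∀ᶠ n in uf, ‖(r n)⁻¹ • (dTc T (a + r n • f n) - dTc T a)‖ ≤ K * (‖s‖ + 1) := by
  filter_upwards [h.dT_le hf Rep.zero, hf.eventually_le] with n h1 h2
  simp only [smul_zero, add_zero, sub_zero] at h1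
  exact h1.trans (mul_le_mul_of_nonneg_left h2 h.reg.nonneg)

lemma tendsto_bPhi {f g : ℕ → X} {s v : Ultra X} (hf : Rep f s) (hg : Rep g v) :
    Tendsto (fun n => (r n)⁻¹ * (phi (a + r n • f n) (g n) - phi a (g n))) uf
      (𝓝 (bPhi a r s v)) := by
  refine tendsto_of_tendsto_of_dist (tendsto_ufun (h.phi_bdd (rep_self s)) hg) (squeeze_zero'
    (Eventually.of_forall fun _ => dist_nonneg) ?_
    (show Tendsto (fun n => K * (‖v‖ + 1) * ‖f n - rep s n‖) uf (𝓝 0) by
      simpa using Tendsto.const_mul (K * (‖v‖ + 1)) hf))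
  filter_upwards [h.phi_le hf (rep_self s), hg.eventually_le] with n h1 h2
  rw [dist_comm, dist_eq_norm]
  refine le_trans (le_of_eq ?_) ((((r n)⁻¹ • (phi (a + r n • f n) - phi (a + r n • rep s n))).le_opNorm
    (g n)).trans ((mul_le_mul h1 h2 (norm_nonneg _) (by
      have := h.reg.nonneg
      positivity)).trans (le_of_eq (by ring))))
  simp only [smul_sub, ContinuousLinearMap.sub_apply, ContinuousLinearMap.smul_apply, smul_eq_mul]
  congr 1
  ring

lemma rep_bTh {f g : ℕ → X} {s v : Ultra X} (hf : Rep f s) (hg : Rep g v) :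
    Rep (fun n => (r n)⁻¹ • (dTc T (a + r n • f n) (g n) - dTc T a (g n))) (bTh T a r s v) := by
  refine (rep_ufam (h.dT_bdd (rep_self s)) hg).congr (squeeze_zero'
    (Eventually.of_forall fun _ => norm_nonneg _) ?_
    (show Tendsto (fun n => K * (‖v‖ + 1) * ‖f n - rep s n‖) uf (𝓝 0) by
      simpa using Tendsto.const_mul (K * (‖v‖ + 1)) hf))
  filter_upwards [h.dT_le hf (rep_self s), hg.eventually_le] with n h1 h2
  refine le_trans (le_of_eq ?_) ((((r n)⁻¹ • (dTc T (a + r n • f n)
    - dTc T (a + r n • rep s n))).le_opNorm (g n)).trans ((mul_le_mul h1 h2 (norm_nonneg _) (by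
      have := h.reg.nonneg
      positivity)).trans (le_of_eq (by ring))))
  simp only [smul_sub, ContinuousLinearMap.sub_apply, ContinuousLinearMap.smul_apply]
  congr 1
  abel

lemma norm_bPhi_sub_le (s t : Ultra X) : ‖bPhi a r s - bPhi a r t‖ ≤ K * ‖s - t‖ := by
  refine ContinuousLinearMap.opNorm_le_bound _ (mul_nonneg h.reg.nonneg (norm_nonneg _)) fun v => ?_
  refine le_of_tendsto_of_tendsto (((h.tendsto_bPhi (rep_self s) (rep_self v)).sub
    (h.tendsto_bPhi (rep_self t) (rep_self v))).norm)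
    ((((rep_self s).tendsto_sub (rep_self t)).const_mul K).mul (rep_self v).tendsto_norm) ?_
  filter_upwards [h.phi_le (rep_self s) (rep_self t)] with n hn
  refine le_trans (le_of_eq ?_) ((((r n)⁻¹ • (phi (a + r n • rep s n)
    - phi (a + r n • rep t n))).le_opNorm (rep v n)).trans
      (mul_le_mul_of_nonneg_right hn (norm_nonneg _)))
  simp only [smul_sub, ContinuousLinearMap.sub_apply, ContinuousLinearMap.smul_apply, smul_eq_mul]
  congr 1
  ring

lemma norm_bTh_sub_le (s t : Ultra X) : ‖bTh T a r s - bTh T a r t‖ ≤ K * ‖s - t‖ := by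
  refine ContinuousLinearMap.opNorm_le_bound _ (mul_nonneg h.reg.nonneg (norm_nonneg _)) fun v => ?_
  refine le_of_tendsto_of_tendsto (((h.rep_bTh (rep_self s) (rep_self v)).sub
    (h.rep_bTh (rep_self t) (rep_self v))).tendsto_norm)
    ((((rep_self s).tendsto_sub (rep_self t)).const_mul K).mul (rep_self v).tendsto_norm) ?_
  filter_upwards [h.dT_le (rep_self s) (rep_self t)] with n hn
  refine le_trans (le_of_eq ?_) ((((r n)⁻¹ • (dTc T (a + r n • rep s n)
    - dTc T (a + r n • rep t n))).le_opNorm (rep v n)).trans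
      (mul_le_mul_of_nonneg_right hn (norm_nonneg _)))
  simp only [smul_sub, ContinuousLinearMap.sub_apply, ContinuousLinearMap.smul_apply]
  congr 1
  abel

lemma bPhi_zero : bPhi a r 0 = 0 := by
  refine ContinuousLinearMap.ext fun v => ?_
  refine tendsto_nhds_unique (h.tendsto_bPhi Rep.zero (rep_self v))
    (tendsto_const_nhds.congr fun n => ?_)
  simp

lemma bTh_zero : bTh T a r 0 = 0 := by
  refine ContinuousLinearMap.ext fun v => ?_
  refine (h.rep_bTh Rep.zero (rep_self v)).eq_zero (tendsto_const_nhds.congr fun n => ?_)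
  simp

lemma gap_eq {b : X} (hb : b ∈ ball a ρ) (u : X) :
    gap a (b - a + u) - gap a (b - a) - (phi b u - phi a u) = gap b u := by
  have hs := h.smooth
  simp only [gap]
  rw [phi_apply (h.reg.c11 b hb).smooth, phi_apply hs, hs.map_add,
    show a + (b - a + u) = b + u by abel, add_sub_cancel]
  ring

lemma abs_gap_sub_le {u w : X} (hu : ‖u‖ < ρ / 2) (hw : ‖w‖ < ρ / 2) :
    |gap a w - gap a u| ≤ 2 * K * (‖u‖ + ‖w‖) * ‖w - u‖ := by
  have hb : a + u ∈ ball a ρ := by
    rw [mem_ball, dist_eq_norm, add_sub_cancel_left]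
    linarith [h.reg.pos]
  have hd : ‖w - u‖ ≤ ‖u‖ + ‖w‖ := (norm_sub_le w u).trans (le_of_eq (add_comm _ _))
  have e := h.gap_eq hb (w - u)
  rw [add_sub_cancel_left, add_sub_cancel] at e
  have e1 := h.reg.gap_le _ hb (w - u) (by linarith)
  have e2 := gap_nonneg (a + u) (w - u)
  have e3 := h.reg.phi_lip a (mem_ball_self h.reg.pos) _ hb
  rw [add_sub_cancel_left] at e3
  have e4 := ((phi (a + u) - phi a).le_opNorm (w - u)).trans
    (mul_le_mul_of_nonneg_right e3 (norm_nonneg _))
  rw [ContinuousLinearMap.sub_apply, Real.norm_eq_abs] at e4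
  obtain ⟨e5, e6⟩ := abs_le.1 e4
  have hK := h.reg.nonneg
  have hm := mul_le_mul_of_nonneg_left hd (mul_nonneg hK (norm_nonneg (w - u)))
  have hw0 : 0 ≤ K * ‖w‖ * ‖w - u‖ := by positivity
  rw [abs_le]
  constructor <;> nlinarith

lemma tendsto_bOm {f : ℕ → X} {s : Ultra X} (hf : Rep f s) :
    Tendsto (fun n => gap a (r n • f n) / r n ^ 2) uf (𝓝 (bOm a r s)) := by
  have hB : ∀ᶠ n in uf, |gap a (r n • rep s n) / r n ^ 2| ≤ K * (‖s‖ + 1) ^ 2 := by
    filter_upwards [h.small (rep_self s) h.reg.pos, (rep_self s).eventually_le] with n h1 h2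
    have hr := h.rpos n
    rw [abs_div, abs_of_nonneg (gap_nonneg _ _), abs_of_pos (by positivity),
      div_le_iff₀ (by positivity)]
    refine (h.reg.gap_le a (mem_ball_self h.reg.pos) _ h1).trans ?_
    rw [norm_smul, Real.norm_of_nonneg hr.le, mul_pow, mul_assoc K, mul_comm (r n ^ 2)]
    gcongr
    exact h.reg.nonneg
  refine tendsto_of_tendsto_of_dist (tendsto_ulim hB) (squeeze_zero'
    (Eventually.of_forall fun _ => dist_nonneg) ?_
    (show Tendsto (fun n => 4 * K * (‖s‖ + 1) * ‖f n - rep s n‖) uf (𝓝 0) by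
      simpa using Tendsto.const_mul (4 * K * (‖s‖ + 1)) hf))
  filter_upwards [h.small hf (half_pos h.reg.pos), h.small (rep_self s) (half_pos h.reg.pos),
    hf.eventually_le, (rep_self s).eventually_le] with n h1 h2 h3 h4
  have hr := h.rpos n
  rw [dist_comm, Real.dist_eq, ← sub_div, abs_div, abs_of_pos (by positivity : 0 < r n ^ 2),
    div_le_iff₀ (by positivity)]
  refine (h.abs_gap_sub_le h2 h1).trans ?_
  rw [← smul_sub, norm_smul, norm_smul, norm_smul, Real.norm_of_nonneg hr.le]
  have := mul_le_mul_of_nonneg_left (add_le_add h4 h3)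
    (mul_nonneg (mul_nonneg h.reg.nonneg (sq_nonneg (r n))) (norm_nonneg (f n - rep s n)))
  nlinarith

lemma bOm_zero : bOm a r 0 = 0 := by
  refine tendsto_nhds_unique (h.tendsto_bOm Rep.zero) (tendsto_const_nhds.congr fun n => ?_)
  have h0 := map_zero (phi a)
  rw [phi_apply h.smooth] at h0
  simp [gap, h0]

lemma abs_bOm_sub_le (s u : Ultra X) :
    |bOm a r (s + u) - bOm a r s - bPhi a r s u| ≤ K * ‖u‖ ^ 2 := by
  refine le_of_tendsto_of_tendsto
    ((((h.tendsto_bOm ((rep_self s).add (rep_self u))).sub (h.tendsto_bOm (rep_self s))).sub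
      (h.tendsto_bPhi (rep_self s) (rep_self u))).abs)
    (((rep_self u).tendsto_norm.pow 2).const_mul K) ?_
  filter_upwards [h.mem (rep_self s), h.small (rep_self u) h.reg.pos] with n h1 h2
  have hr := h.rpos n
  have e := h.gap_eq h1 (r n • rep u n)
  rw [add_sub_cancel_left, ← smul_add, map_smul, map_smul, smul_eq_mul, smul_eq_mul] at e
  rw [show gap a (r n • (rep s n + rep u n)) / r n ^ 2 - gap a (r n • rep s n) / r n ^ 2
      - (r n)⁻¹ * (phi (a + r n • rep s n) (rep u n) - phi a (rep u n))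
      = gap (a + r n • rep s n) (r n • rep u n) / r n ^ 2 by
    rw [← e]; field_simp,
    abs_div, abs_of_nonneg (gap_nonneg _ _), abs_of_pos (by positivity : 0 < r n ^ 2),
    div_le_iff₀ (by positivity)]
  refine (h.reg.gap_le _ h1 _ h2).trans (le_of_eq ?_)
  rw [norm_smul, Real.norm_of_nonneg hr.le]
  ring

lemma convexOn_bOm : ConvexOn ℝ Set.univ (bOm a r) := by
  refine ⟨convex_univ, fun s _ t _ p q hp hq hpq => ?_⟩
  simp only [smul_eq_mul]
  refine le_of_tendsto_of_tendsto
    (h.tendsto_bOm (((rep_self s).smul p).add ((rep_self t).smul q)))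
    (((h.tendsto_bOm (rep_self s)).const_mul p).add ((h.tendsto_bOm (rep_self t)).const_mul q)) ?_
  refine Eventually.of_forall fun n => ?_
  beta_reduce
  have hs := h.smooth
  have hr := h.rpos n
  rw [mul_div_assoc', mul_div_assoc', ← add_div]
  refine div_le_div_of_nonneg_right ?_ (by positivity)
  simp only [gap]
  rw [smul_add, hs.map_add, smul_comm (r n) p, smul_comm (r n) q, hs.map_smul p, hs.map_smul q]
  have e : a + (p • r n • rep s n + q • r n • rep t n)
      = p • (a + r n • rep s n) + q • (a + r n • rep t n) := by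
    rw [smul_add, smul_add, add_add_add_comm, ← add_smul, hpq, one_smul]
  have := norm_add_le (p • (a + r n • rep s n)) (q • (a + r n • rep t n))
  rw [← e, norm_smul, norm_smul, Real.norm_of_nonneg hp, Real.norm_of_nonneg hq] at this
  linear_combination this + ‖a‖ * hpq

lemma taylor_eq {b : X} (u : X) :
    (T (b + u) - T a - dTc T a (b - a + u)) - (T b - T a - dTc T a (b - a))
      - (dTc T b u - dTc T a u) = T (b + u) - T b - dTc T b u := by
  rw [map_add]
  abel

lemma rep_bXi {f : ℕ → X} {s : Ultra X} (hf : Rep f s) :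
    Rep (fun n => (r n ^ 2)⁻¹ • (T (a + r n • f n) - T a - dTc T a (r n • f n)))
      (bXi T a r s) := by
  have hB : ∀ᶠ n in uf, ‖(r n ^ 2)⁻¹ • (T (a + r n • rep s n) - T a - dTc T a (r n • rep s n))‖
      ≤ K * (‖s‖ + 1) ^ 2 := by
    filter_upwards [h.small (rep_self s) h.reg.pos, (rep_self s).eventually_le] with n h1 h2
    have hr := h.rpos n
    rw [norm_smul, norm_inv, Real.norm_of_nonneg (by positivity), inv_mul_le_iff₀ (by positivity)]
    refine (h.reg.taylor a (mem_ball_self h.reg.pos) _ h1).trans ?_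
    rw [norm_smul, Real.norm_of_nonneg hr.le, mul_pow, mul_left_comm]
    gcongr
    exact h.reg.nonneg
  refine (rep_ucl hB).congr (squeeze_zero' (Eventually.of_forall fun _ => norm_nonneg _) ?_
    (show Tendsto (fun n => 4 * K * (‖s‖ + 1) * ‖f n - rep s n‖) uf (𝓝 0) by
      simpa using Tendsto.const_mul (4 * K * (‖s‖ + 1)) hf))
  filter_upwards [h.small hf (half_pos h.reg.pos), h.small (rep_self s) (half_pos h.reg.pos),
    hf.eventually_le, (rep_self s).eventually_le, h.mem (rep_self s),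
    h.dT_le (rep_self s) Rep.zero] with n h1 h2 h3 h4 h5 h6
  have hr := h.rpos n
  simp only [smul_zero, add_zero, sub_zero] at h6
  set u := r n • f n - r n • rep s n with hu
  have hun : ‖u‖ = r n * ‖f n - rep s n‖ := by
    rw [hu, ← smul_sub, norm_smul, Real.norm_of_nonneg hr.le]
  have e := h.taylor_eq (b := a + r n • rep s n) u
  rw [add_sub_cancel_left, show a + r n • rep s n + u = a + r n • f n by rw [hu]; abel,
    show r n • rep s n + u = r n • f n by rw [hu]; abel, sub_eq_iff_eq_add] at e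
  rw [← smul_sub, e, norm_smul, norm_inv, Real.norm_of_nonneg (by positivity),
    inv_mul_le_iff₀ (by positivity)]
  have e1 := h.reg.taylor _ h5 u (by
    rw [hu]; linarith [norm_sub_le (r n • f n) (r n • rep s n)])
  rw [show a + r n • rep s n + u = a + r n • f n by rw [hu]; abel] at e1
  have e2 := (((r n)⁻¹ • (dTc T (a + r n • rep s n) - dTc T a)).le_opNorm u).trans
    (mul_le_mul_of_nonneg_right h6 (norm_nonneg u))
  rw [ContinuousLinearMap.smul_apply, norm_smul, norm_inv, Real.norm_of_nonneg hr.le,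
    inv_mul_le_iff₀ hr, ContinuousLinearMap.sub_apply] at e2
  refine (norm_add_le _ _).trans ((add_le_add e1 e2).trans ?_)
  rw [hun]
  have h7 := norm_sub_le (f n) (rep s n)
  have hK := h.reg.nonneg
  have := mul_le_mul_of_nonneg_left (show ‖f n - rep s n‖ + ‖rep s n‖ ≤ 4 * (‖s‖ + 1) by linarith [norm_nonneg s])
    (mul_nonneg (mul_nonneg hK (sq_nonneg (r n))) (norm_nonneg (f n - rep s n)))
  nlinarith

lemma bXi_zero : bXi T a r 0 = 0 :=
  (h.rep_bXi Rep.zero).eq_zero (tendsto_const_nhds.congr fun n => by simp)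

lemma norm_bXi_sub_le (s u : Ultra X) :
    ‖bXi T a r (s + u) - bXi T a r s - bTh T a r s u‖ ≤ K * ‖u‖ ^ 2 := by
  refine le_of_tendsto_of_tendsto
    (((h.rep_bXi ((rep_self s).add (rep_self u))).sub (h.rep_bXi (rep_self s))).sub
      (h.rep_bTh (rep_self s) (rep_self u))).tendsto_norm
    (((rep_self u).tendsto_norm.pow 2).const_mul K) ?_
  filter_upwards [h.mem (rep_self s), h.small (rep_self u) h.reg.pos] with n h1 h2
  have hr := h.rpos n
  have e := h.taylor_eq (b := a + r n • rep s n) (r n • rep u n)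
  rw [add_sub_cancel_left, add_assoc, ← smul_add, map_smul (dTc T (a + r n • rep s n)),
    map_smul (dTc T a) (r n) (rep u n)] at e
  rw [show (r n ^ 2)⁻¹ • (T (a + r n • (rep s n + rep u n)) - T a
        - dTc T a (r n • (rep s n + rep u n)))
      - (r n ^ 2)⁻¹ • (T (a + r n • rep s n) - T a - dTc T a (r n • rep s n))
      - (r n)⁻¹ • (dTc T (a + r n • rep s n) (rep u n) - dTc T a (rep u n))
      = (r n ^ 2)⁻¹ • (T (a + r n • rep s n + r n • rep u n) - T (a + r n • rep s n)
          - dTc T (a + r n • rep s n) (r n • rep u n)) by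
    rw [add_assoc, ← smul_add, map_smul (dTc T (a + r n • rep s n)), ← e]
    match_scalars <;> field_simp,
    norm_smul, norm_inv, Real.norm_of_nonneg (by positivity), inv_mul_le_iff₀ (by positivity)]
  refine (h.reg.taylor _ h1 _ h2).trans (le_of_eq ?_)
  rw [norm_smul, Real.norm_of_nonneg hr.le]
  ring

end Pt

end Vale.Agent.P084.Full
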