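import Vale.Agent.P084.Full.RankOne

/-! A flat segment which leaves the `C^{1,1}` set forces an isometric derivative. -/

namespace Vale.Agent.P084.Full

open Inf Filter Topology

variable {X Y : Type*} [NormedAddCommGroup X] [NormedSpace ℝ X] [CompleteSpace X]
  [NormedAddCommGroup Y] [NormedSpace ℝ Y] [CompleteSpace Y] {T : X → Y} {T' : Y → X}

namespace ExitAux

/-- A function whose difference quotients from the right tend to zero along the ultrafilter, for
every sequence, has right derivative zero. -/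
lemma hasDerivWithinAt_zero_of_seq {g : ℝ → ℝ} {s : ℝ}
    (h : ∀ r : ℕ → ℝ, (∀ n, 0 < r n) → Tendsto r atTop (𝓝 0) →
      Tendsto (fun n => (g (s + r n) - g s) / r n) uf (𝓝 0)) :
    HasDerivWithinAt g 0 (Set.Ici s) s := by
  rw [hasDerivWithinAt_iff_tendsto_slope, Set.Ici_sdiff_left, Metric.tendsto_nhdsWithin_nhds]
  by_contra hc
  push Not at hc
  obtain ⟨ε, hε, hc⟩ := hc
  have hsel : ∀ n : ℕ, ∃ u, s < u ∧ dist u s < 1 / ((n : ℝ) + 1) ∧ ε ≤ dist (slope g s u) 0 :=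
    fun n => by
      obtain ⟨u, hu1, hu2, hu3⟩ := hc (1 / ((n : ℝ) + 1)) (by positivity)
      exact ⟨u, hu1, hu2, hu3⟩
  choose u hu1 hu2 hu3 using hsel
  have hr0 : Tendsto (fun n => u n - s) atTop (𝓝 0) := by
    refine squeeze_zero (fun n => (sub_pos.2 (hu1 n)).le) (fun n => ?_)
      tendsto_one_div_add_atTop_nhds_zero_nat
    have h1 := hu2 n
    rw [Real.dist_eq] at h1
    exact (le_abs_self _).trans h1.le
  obtain ⟨n, hn⟩ := ((Metric.tendsto_nhds.1
    (h (fun n => u n - s) (fun n => sub_pos.2 (hu1 n)) hr0)) ε hε).exists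
  rw [add_sub_cancel] at hn
  have h2 := hu3 n
  rw [slope_def_field] at h2
  linarith

omit [CompleteSpace X] in
/-- The points of the segment lie on the sphere. -/
lemma norm_segment {x e : X} (hx : ‖x‖ = 1) (he : Dn x e = 0) (hsph : ‖x + e‖ = 1) {t : ℝ}
    (h0 : 0 ≤ t) (h1 : t ≤ 1) : ‖x + t • e‖ = 1 := by
  refine le_antisymm ?_ ?_
  · rw [show x + t • e = (1 - t) • x + t • (x + e) by module]
    refine (norm_add_le _ _).trans (le_of_eq ?_)
    rw [norm_smul, norm_smul, hx, hsph, Real.norm_of_nonneg (by linarith),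
      Real.norm_of_nonneg h0]
    ring
  · have h2 := norm_add_ge x (t • e)
    rw [Dn_smul x e h0, he, hx, mul_zero, add_zero] at h2
    exact h2

omit [CompleteSpace X] in
/-- The point of first exit. -/
lemma exists_first {x e : X} (hxU : C11At x) (hout : ¬ C11At (x + e)) :
    ∃ t₀ : ℝ, 0 < t₀ ∧ t₀ ≤ 1 ∧ ¬ C11At (x + t₀ • e) ∧
      ∀ t, 0 ≤ t → t < t₀ → C11At (x + t • e) := by
  set S : Set ℝ := Set.Icc (0 : ℝ) 1 ∩ {t | ¬ C11At (x + t • e)} with hS
  have hop : IsOpen {b : X | C11At b} := isOpen_iff_eventually.2 fun b hb => hb.eventually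
  have hcl : IsClosed S := isClosed_Icc.inter
    ((hop.preimage (show Continuous fun t : ℝ => x + t • e by fun_prop)).isClosed_compl)
  have h1 : (1 : ℝ) ∈ S :=
    ⟨⟨zero_le_one, le_rfl⟩, show ¬ C11At (x + (1 : ℝ) • e) by rwa [one_smul]⟩
  have hbd : BddBelow S := ⟨0, fun t ht => ht.1.1⟩
  obtain ⟨⟨hm0, hm1⟩, hm⟩ := hcl.csInf_mem ⟨1, h1⟩ hbd
  refine ⟨sInf S, lt_of_le_of_ne hm0 fun h0 => ?_, hm1, hm, fun t ht0 ht => ?_⟩
  · have hm' : ¬ C11At (x + sInf S • e) := hm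
    rw [← h0, zero_smul, add_zero] at hm'
    exact hm' hxU
  · by_contra hc
    exact absurd (csInf_le hbd ⟨⟨ht0, ht.le.trans hm1⟩, hc⟩) (not_le.2 ht)

/-- The derivative is constant up to the exit. -/
lemma dT_const (hT : IsTingley T T') {x e : X} {t₀ : ℝ} (h01 : t₀ ≤ 1)
    (hn : ∀ t : ℝ, 0 ≤ t → t ≤ 1 → ‖x + t • e‖ = 1)
    (hC11 : ∀ t : ℝ, 0 ≤ t → t < t₀ → C11At (x + t • e))
    (hphi : ∀ t : ℝ, 0 ≤ t → t < t₀ → ∀ u, Dn (x + t • e) u = Dn x u) (v : X) {t : ℝ}
    (ht0 : 0 ≤ t) (ht : t < t₀) : dT T (x + t • e) v = dT T x v := by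
  obtain ⟨C, hC⟩ := exists_ctrl hT
  have hne : ∀ s, 0 ≤ s → s < t₀ → x + s • e ≠ 0 := fun s h h' hz => by
    have := hn s h (h'.le.trans h01)
    rw [hz, norm_zero] at this
    exact zero_ne_one this
  have key : ∀ η : Y →L[ℝ] ℝ, η (dT T (x + t • e) v) = η (dT T x v) := by
    intro η
    set g : ℝ → ℝ := fun s => η (dT T (x + s • e) v) with hg
    have hcont : ContinuousOn g (Set.Icc 0 t) := by
      intro s hs
      have hs' : s < t₀ := hs.2.trans_lt ht
      obtain ⟨ρ, K, hR⟩ := exists_reg hT hC (hne s hs.1 hs') (hC11 s hs.1 hs')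
      have hc1 : ContinuousAt (dTc T) (x + s • e) := by
        refine ((LipschitzOnWith.of_dist_le_mul (K := ⟨K, hR.nonneg⟩) fun p hp q hq => ?_
          ).continuousOn.continuousAt (Metric.ball_mem_nhds _ hR.pos))
        rw [dist_eq_norm, dist_eq_norm]
        exact hR.dT_lip q hq p hp
      have hc2 : ContinuousAt (fun y : ℝ => η (dTc T (x + y • e) v)) s :=
        η.continuous.continuousAt.comp (((ContinuousLinearMap.apply ℝ Y v).continuous.continuousAt
          ).comp (hc1.comp (f := fun y : ℝ => x + y • e) (by fun_prop)))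
      refine hc2.continuousWithinAt.congr (fun y hy => ?_) ?_ <;> simp only [hg]
      · have hy' : y < t₀ := hy.2.trans_lt ht
        rw [dTc_apply hT hC (hne y hy.1 hy') (hC11 y hy.1 hy').smooth]
      · rw [dTc_apply hT hC (hne s hs.1 hs') (hC11 s hs.1 hs').smooth]
    have hd : ∀ s ∈ Set.Ico (0 : ℝ) t, HasDerivWithinAt g 0 (Set.Ici s) s := by
      intro s hs
      have hs' : s < t₀ := hs.2.trans ht
      refine hasDerivWithinAt_zero_of_seq fun r hr hr0 => ?_
      obtain ⟨ζ, -, hζ⟩ := rank_one hT (hne s hs.1 hs') (hC11 s hs.1 hs') (S := {e, v})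
        ((Set.countable_singleton v).insert e) hr hr0 η
      have hlim := hζ e (Set.mem_insert e _) v (Set.mem_insert_of_mem _ rfl)
      refine hlim.congr' ?_
      filter_upwards [(hr0.mono_left Nat.hyperfilter_le_atTop).eventually
        (eventually_lt_nhds (sub_pos.2 hs'))] with n hn'
      have hsr : x + s • e + r n • e = x + (s + r n) • e := by module
      rw [hsr, hphi (s + r n) (by linarith [hr n, hs.1]) (by linarith), hphi s hs.1 hs', sub_self,
        mul_zero, sub_zero, map_sub]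
    have := constant_of_has_deriv_right_zero hcont hd t ⟨ht0, le_rfl⟩
    simpa [hg] using this
  obtain ⟨η, -, hη⟩ := exists_dual_vector'' ℝ (dT T (x + t • e) v - dT T x v)
  simp only [RCLike.ofReal_real_eq_id, id_eq, map_sub, key η, sub_self] at hη
  exact sub_eq_zero.1 (norm_eq_zero.1 hη.symm)

end ExitAux

open ExitAux in
/-- A flat segment leaving the `C^{1,1}` set forces an isometric derivative at its start. -/
theorem norm_dT_of_flat_exit (hT : IsTingley T T') {x e : X} (hx : ‖x‖ = 1) (hxU : C11At x)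
    (he : Dn x e = 0) (hsph : ‖x + e‖ = 1) (hout : ¬ C11At (x + e)) (v : X) :
    ‖dT T x v‖ = ‖v‖ := by
  obtain ⟨C, hC⟩ := exists_ctrl hT
  have hn : ∀ t : ℝ, 0 ≤ t → t ≤ 1 → ‖x + t • e‖ = 1 := fun t => norm_segment hx he hsph
  obtain ⟨t₀, ht0, ht1, hb, hC11⟩ := exists_first hxU hout
  have hxs := hxU.smooth
  have hphi : ∀ t : ℝ, 0 ≤ t → t < t₀ → ∀ u, Dn (x + t • e) u = Dn x u := fun t h h' u => by
    refine (Dn_eq_of_norm_add hxs (hC11 t h h').smooth ?_ u).symm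
    rw [show x + (x + t • e) = (2 : ℝ) • (x + (t / 2) • e) by module, norm_smul, Real.norm_ofNat,
      hn _ (by linarith) (by linarith), hn t h (by linarith), hx]
    norm_num
  have hL := fun (t : ℝ) (h : 0 ≤ t) (h' : t < t₀) => dT_const hT ht1 hn hC11 hphi v h h'
  set b := x + t₀ • e with hbdef
  have hb1 : ‖b‖ = 1 := hn t₀ ht0.le ht1
  have hb0 : b ≠ 0 := norm_ne_zero_iff.1 (by rw [hb1]; exact one_ne_zero)
  have hx0 : x ≠ 0 := norm_ne_zero_iff.1 (by rw [hx]; exact one_ne_zero)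
  obtain ⟨A, hA, hAn⟩ := exists_isometry_of_not_c11 hT hb0 hb
  obtain ⟨ρ, K, hR⟩ := exists_reg hT hC hx0 hxU
  suffices h : dT T x v = A v by rw [h, hAn]
  have hC0 := hC.1
  have hK0 := hR.nonneg
  set d := x - b with hd
  have hφd : Dn x d = 0 := by
    rw [hd, hbdef, show x - (x + t₀ • e) = (-t₀) • e by module, hxs.map_smul, he, mul_zero]
  have hφb : Dn x b = 1 := by
    rw [hbdef, hxs.map_add, hxs.map_smul, he, Dn_self, hx]
    ring
  have hsub : ∀ u, Dn x u ≤ Dn b u := fun u => le_Dn b u fun s hs => by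
    rw [le_inv_mul_iff₀ hs, hb1]
    have h1 := (le_abs_self _).trans (abs_Dn_le x (b + s • u))
    rw [hxs.map_add, hxs.map_smul, hφb] at h1
    linarith
  -- the three first order approximations
  have main : ∀ τ : ℝ, 0 < τ → τ * ‖v‖ < ρ → ∀ ε : ℝ, 0 < ε → ε < 1 →
      ε * (‖d‖ + τ * ‖v‖) ≤ 1 / 2 →
      ‖dT T x v - A v‖ ≤ C * (2 * K * τ * ‖v‖ ^ 2 +
        ε * ((τ * ‖v‖) ^ 2 + (‖d‖ + τ * ‖v‖) ^ 2 + ‖d‖ ^ 2) / τ) := by
    intro τ hτ hτρ ε hε hε1 hsmall
    set w := τ • v with hw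
    have hwn : ‖w‖ = τ * ‖v‖ := by rw [hw, norm_smul, Real.norm_of_nonneg hτ.le]
    have hw0 : 0 ≤ τ * ‖v‖ := by positivity
    set t := (1 - ε) * t₀ with ht
    have hta : 0 ≤ t := mul_nonneg (by linarith) ht0.le
    have htb : t < t₀ := by nlinarith
    set z := x + t • e with hz
    have hze : z = b + ε • d := by rw [hz, hd, hbdef, ht]; module
    have hz1 : ‖z‖ = 1 := hn t hta (htb.le.trans ht1)
    have hz0 : z ≠ 0 := norm_ne_zero_iff.1 (by rw [hz1]; exact one_ne_zero)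
    have hgx : gap x w ≤ K * (τ * ‖v‖) ^ 2 := by
      have := hR.gap_le x (Metric.mem_ball_self hR.pos) w (by rwa [hwn])
      rwa [hwn] at this
    simp only [gap, hx] at hgx
    have hconv : ‖z + ε • w‖ ≤ (1 - ε) + ε * ‖x + w‖ := by
      rw [show z + ε • w = (1 - ε) • b + ε • (x + w) by rw [hze, hd]; module]
      refine (norm_add_le _ _).trans (le_of_eq ?_)
      rw [norm_smul, norm_smul, hb1, Real.norm_of_nonneg (by linarith),
        Real.norm_of_nonneg hε.le, mul_one]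
    have g1 : gap z (ε • w) ≤ ε * (K * (τ * ‖v‖) ^ 2) := by
      simp only [gap, hz, hphi t hta htb, hxs.map_smul]
      rw [← hz]
      nlinarith
    have g2 : gap b (ε • d + ε • w) ≤ ε * (K * (τ * ‖v‖) ^ 2) := by
      have h1 := hsub (ε • d + ε • w)
      rw [hxs.map_add, hxs.map_smul, hxs.map_smul, hφd] at h1
      simp only [gap, hb1]
      rw [← add_assoc, ← hze]
      nlinarith
    have g3 : gap b (ε • d) ≤ 0 := by
      have h1 := hsub (ε • d)
      rw [hxs.map_smul, hφd] at h1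
      simp only [gap, hb1]
      rw [← hze, hz1]
      linarith
    have n2 : ‖ε • d + ε • w‖ ≤ ε * (‖d‖ + τ * ‖v‖) := by
      rw [← smul_add, norm_smul, Real.norm_of_nonneg hε.le, ← hwn]
      exact mul_le_mul_of_nonneg_left (norm_add_le d w) hε.le
    have n1 : ‖ε • w‖ = ε * (τ * ‖v‖) := by rw [norm_smul, Real.norm_of_nonneg hε.le, hwn]
    have n3 : ‖ε • d‖ = ε * ‖d‖ := by rw [norm_smul, Real.norm_of_nonneg hε.le]
    have e1 := norm_sub_dT_le hT hC hz0 (u := ε • w) (by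
      rw [n1, hz1]; nlinarith [mul_nonneg hε.le (norm_nonneg d)])
    have e2 := norm_sub_dT_le hT hC hb0 (u := ε • d + ε • w) (by rw [hb1]; linarith)
    have e3 := norm_sub_dT_le hT hC hb0 (u := ε • d) (by
      rw [n3, hb1]; nlinarith [mul_nonneg hε.le hw0])
    have hdz : dT T z (ε • w) = (ε * τ) • dT T x v := by
      rw [hw, smul_smul, dT_smul hT hC hz0 v (mul_pos hε hτ).le, hz, hL t hta htb]
    rw [hdz, hz1, n1, div_one] at e1
    rw [hA, hb1, div_one, ← add_assoc, ← hze, map_add, map_smul, map_smul, hw, map_smul,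
      ← hw] at e2
    rw [hA, hb1, n3, div_one, ← hze, map_smul] at e3
    have e : (ε * τ) • (dT T x v - A v) = (T (z + ε • w) - T b - (ε • A d + ε • τ • A v))
        - (T z - T b - ε • A d) - (T (z + ε • w) - T z - (ε * τ) • dT T x v) := by module
    have h4 : ‖(ε * τ) • (dT T x v - A v)‖ ≤ C * (ε * (K * (τ * ‖v‖) ^ 2)
        + (ε * (‖d‖ + τ * ‖v‖)) ^ 2) + C * (0 + (ε * ‖d‖) ^ 2)
        + C * (ε * (K * (τ * ‖v‖) ^ 2) + (ε * (τ * ‖v‖)) ^ 2) := by
      rw [e]
      refine (norm_sub_le _ _).trans (add_le_add ((norm_sub_le _ _).trans (add_le_add ?_ ?_)) ?_)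
      · refine e2.trans (mul_le_mul_of_nonneg_left (add_le_add g2 ?_) hC0)
        exact pow_le_pow_left₀ (norm_nonneg _) n2 2
      · exact e3.trans (mul_le_mul_of_nonneg_left (add_le_add g3 le_rfl) hC0)
      · exact e1.trans (mul_le_mul_of_nonneg_left (add_le_add g1 le_rfl) hC0)
    rw [norm_smul, Real.norm_of_nonneg (mul_pos hε hτ).le] at h4
    refine le_of_mul_le_mul_left (h4.trans (le_of_eq ?_)) (mul_pos hε hτ)
    field_simp
    ring
  have hτ' : ∀ τ : ℝ, 0 < τ → τ * ‖v‖ < ρ → ‖dT T x v - A v‖ ≤ C * (2 * K * τ * ‖v‖ ^ 2) := by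
    intro τ hτ hτρ
    refine ge_of_tendsto (x := 𝓝[>] (0 : ℝ)) (f := fun ε : ℝ => C * (2 * K * τ * ‖v‖ ^ 2 +
      ε * ((τ * ‖v‖) ^ 2 + (‖d‖ + τ * ‖v‖) ^ 2 + ‖d‖ ^ 2) / τ)) ?_ ?_
    · exact ((show Continuous fun ε : ℝ => C * (2 * K * τ * ‖v‖ ^ 2 +
        ε * ((τ * ‖v‖) ^ 2 + (‖d‖ + τ * ‖v‖) ^ 2 + ‖d‖ ^ 2) / τ) by fun_prop).tendsto' 0 _
        (by simp)).mono_left nhdsWithin_le_nhds
    · have h1 : ∀ᶠ ε in 𝓝[>] (0 : ℝ), ε * (‖d‖ + τ * ‖v‖) < 1 / 2 :=
        (((continuous_id.mul continuous_const).tendsto' (0 : ℝ) 0 (by simp)).eventually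
          (eventually_lt_nhds (by norm_num : (0 : ℝ) < 1 / 2))).filter_mono nhdsWithin_le_nhds
      filter_upwards [h1, Ioo_mem_nhdsGT (zero_lt_one (α := ℝ))] with ε h2 h3
      exact main τ hτ hτρ ε h3.1 h3.2 h2.le
  have h0 : ‖dT T x v - A v‖ ≤ 0 := by
    refine ge_of_tendsto (x := 𝓝[>] (0 : ℝ)) (f := fun τ : ℝ => C * (2 * K * τ * ‖v‖ ^ 2)) ?_ ?_
    · exact ((show Continuous fun τ : ℝ => C * (2 * K * τ * ‖v‖ ^ 2) by fun_prop).tendsto' 0 _
        (by simp)).mono_left nhdsWithin_le_nhds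
    · have h1 : ∀ᶠ τ in 𝓝[>] (0 : ℝ), τ * ‖v‖ < ρ :=
        (((continuous_id.mul continuous_const).tendsto' (0 : ℝ) 0 (by simp)).eventually
          (eventually_lt_nhds hR.pos)).filter_mono nhdsWithin_le_nhds
      filter_upwards [h1, self_mem_nhdsWithin] with τ h2 (h3 : 0 < τ)
      exact hτ' τ h3 h2
  exact sub_eq_zero.1 (norm_le_zero_iff.1 h0)

end Vale.Agent.P084.Full
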