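import Vale.Agent.P084.Full.GlobalFlat

/-! Planes of tangent directions at a point where the derivative is not isometric. -/

namespace Vale.Agent.P084.Full

open Inf Filter Topology Metric Set MeasureTheory

variable {X Y : Type*} [NormedAddCommGroup X] [NormedSpace ℝ X] [CompleteSpace X]
  [NormedAddCommGroup Y] [NormedSpace ℝ Y] [CompleteSpace Y] {T : X → Y} {T' : Y → X}

/-- A plane of directions at a point. -/
def pl (x e₁ e₂ : X) (s : ℝ × ℝ) : X := x + (s.1 • e₁ + s.2 • e₂)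

/-- The gradient of the norm in the plane. -/
noncomputable def grad (x e₁ e₂ : X) (s : ℝ × ℝ) : ℝ × ℝ :=
  (Dn (pl x e₁ e₂ s) e₁, Dn (pl x e₁ e₂ s) e₂)

/-- The scalar image of the variation of the derivative in the plane. -/
noncomputable def gradT (T : X → Y) (η : Y →L[ℝ] ℝ) (x e₁ e₂ : X) (s : ℝ × ℝ) : ℝ × ℝ :=
  (η (dT T (pl x e₁ e₂ s) e₁), η (dT T (pl x e₁ e₂ s) e₂))

/-- The points of the plane on the sphere. -/
def trap (x e₁ e₂ : X) : Set (ℝ × ℝ) := {s | ‖pl x e₁ e₂ s‖ = 1}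

omit [CompleteSpace X] in
lemma continuous_pl (x e₁ e₂ : X) : Continuous (pl x e₁ e₂) := by unfold pl; fun_prop

omit [CompleteSpace X] in
lemma pl_zero (x e₁ e₂ : X) : pl x e₁ e₂ 0 = x := by simp [pl]

omit [CompleteSpace X] in
lemma pl_add (x e₁ e₂ : X) (s v : ℝ × ℝ) (r : ℝ) :
    pl x e₁ e₂ (s + r • v) = pl x e₁ e₂ s + r • (v.1 • e₁ + v.2 • e₂) := by
  simp only [pl, Prod.fst_add, Prod.snd_add, Prod.smul_fst, Prod.smul_snd, smul_eq_mul]
  module

omit [CompleteSpace X] in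
/-- The trap is compact. -/
lemma isCompact_trap {x e₁ e₂ : X} (hi : LinearIndependent ℝ ![e₁, e₂]) :
    IsCompact (trap x e₁ e₂) := by
  let L : ℝ × ℝ →ₗ[ℝ] X :=
    { toFun := fun s => s.1 • e₁ + s.2 • e₂
      map_add' := fun s v => by simp only [Prod.fst_add, Prod.snd_add]; module
      map_smul' := fun c s => by
        simp only [Prod.smul_fst, Prod.smul_snd, smul_eq_mul, RingHom.id_apply]; module }
  have hker : LinearMap.ker L = ⊥ := LinearMap.ker_eq_bot'.2 fun s hs => by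
    obtain ⟨h1, h2⟩ := LinearIndependent.pair_iff.1 hi s.1 s.2 hs
    exact Prod.ext h1 h2
  obtain ⟨K, hK, hKL⟩ := L.exists_antilipschitzWith hker
  refine Metric.isCompact_of_isClosed_isBounded
    (isClosed_eq (continuous_pl x e₁ e₂).norm continuous_const) ((Metric.isBounded_iff_subset_closedBall 0).2
    ⟨K * (1 + ‖x‖), fun s hs => ?_⟩)
  rw [mem_closedBall, dist_zero_right]
  have h := hKL.le_mul_dist s 0
  rw [dist_zero_right, dist_eq_norm, map_zero, sub_zero] at h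
  refine h.trans (mul_le_mul_of_nonneg_left ?_ K.2)
  have h1 := norm_sub_le (pl x e₁ e₂ s) x
  rw [show pl x e₁ e₂ s - x = L s by simp [pl, L], show ‖pl x e₁ e₂ s‖ = 1 from hs] at h1
  exact h1

omit [CompleteSpace X] in
lemma convexOn_norm_pl (x e₁ e₂ : X) : ConvexOn ℝ univ fun s => ‖pl x e₁ e₂ s‖ := by
  refine ⟨convex_univ, fun s _ v _ a b ha hb hab => ?_⟩
  simp only [smul_eq_mul]
  rw [show pl x e₁ e₂ (a • s + b • v) = a • pl x e₁ e₂ s + b • pl x e₁ e₂ v by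
    rw [show b = 1 - a by linarith]
    simp only [pl, Prod.fst_add, Prod.snd_add, Prod.smul_fst, Prod.smul_snd, smul_eq_mul]
    module]
  refine (norm_add_le _ _).trans ?_
  rw [norm_smul, norm_smul, Real.norm_of_nonneg ha, Real.norm_of_nonneg hb]

omit [CompleteSpace X] in
lemma one_le_norm_pl {x e₁ e₂ : X} (hx : ‖x‖ = 1) (hs : Smooth x) (h1 : Dn x e₁ = 0)
    (h2 : Dn x e₂ = 0) (s : ℝ × ℝ) : 1 ≤ ‖pl x e₁ e₂ s‖ := by
  have h := norm_add_ge x (s.1 • e₁ + s.2 • e₂)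
  rwa [hs.map_add, hs.map_smul, hs.map_smul, h1, h2, hx, mul_zero, mul_zero, add_zero,
    add_zero] at h

omit [CompleteSpace X] in
lemma convex_trap {x e₁ e₂ : X} (hx : ‖x‖ = 1) (hs : Smooth x) (h1 : Dn x e₁ = 0)
    (h2 : Dn x e₂ = 0) : Convex ℝ (trap x e₁ e₂) := by
  have h := (convexOn_norm_pl x e₁ e₂).convex_le 1
  convert h using 1
  ext s
  simp only [trap, mem_setOf_eq, mem_univ, true_and]
  exact ⟨le_of_eq, fun h => le_antisymm h (one_le_norm_pl hx hs h1 h2 s)⟩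

omit [CompleteSpace X] in
/-- The Fréchet derivative of the norm in the plane. -/
lemma hasFDerivAt_norm_pl {x e₁ e₂ : X} {s : ℝ × ℝ} (h : C11At (pl x e₁ e₂ s)) :
    HasFDerivAt (fun s => ‖pl x e₁ e₂ s‖)
      ((grad x e₁ e₂ s).1 • ContinuousLinearMap.fst ℝ ℝ ℝ
        + (grad x e₁ e₂ s).2 • ContinuousLinearMap.snd ℝ ℝ ℝ) s := by
  set L : ℝ × ℝ →L[ℝ] X := (ContinuousLinearMap.fst ℝ ℝ ℝ).smulRight e₁
    + (ContinuousLinearMap.snd ℝ ℝ ℝ).smulRight e₂ with hL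
  have hp : HasFDerivAt (pl x e₁ e₂) L s := by
    have := L.hasFDerivAt (x := s) |>.const_add x
    exact this
  refine ((hasFDerivAt_norm h).comp s hp).congr_fderiv ?_
  have h0 : Dn (pl x e₁ e₂ s) 0 = 0 := by simpa using h.smooth.map_smul 0 0
  ext <;> simp [hL, grad, phi_apply h.smooth, h0]

/-- Planar sets on which the first coordinate vanishes are null. -/
lemma volume_fst_zero : volume {p : ℝ × ℝ | p.1 = 0} = 0 := by
  rw [show {p : ℝ × ℝ | p.1 = 0} = ({0} : Set ℝ) ×ˢ (univ : Set ℝ) by ext; simp,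
    Measure.volume_eq_prod, Measure.prod_prod]
  simp

/-- What is needed of a plane. -/
structure PlaneData (T : X → Y) (x e₁ e₂ : X) (β : Y) (O : Set (ℝ × ℝ)) : Prop where
  isOpen : IsOpen O
  subset : trap x e₁ e₂ ⊆ O
  eqn₁ : ∀ s ∈ O, dT T (pl x e₁ e₂ s) e₁ - dT T x e₁ = (grad x e₁ e₂ s).1 • β
  eqn₂ : ∀ s ∈ O, dT T (pl x e₁ e₂ s) e₂ - dT T x e₂ = (grad x e₁ e₂ s).2 • β
  c11 : ∀ s ∈ O, C11At (pl x e₁ e₂ s)
  ne : ∀ s ∈ O, pl x e₁ e₂ s ≠ 0
  curved : ∀ O₂ : Set (ℝ × ℝ), IsOpen O₂ → trap x e₁ e₂ ⊆ O₂ →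
    ∃ s ∈ O₂ ∩ O, (grad x e₁ e₂ s).1 ≠ 0 ∧ Dn (T (pl x e₁ e₂ s)) β = 0

variable (hT : IsTingley T T') {x e₁ e₂ : X}

include hT in
/-- The rank one relation between the two planar derivatives. -/
lemma planar_rank_one {s : ℝ × ℝ} (hs0 : pl x e₁ e₂ s ≠ 0) (hsc : C11At (pl x e₁ e₂ s))
    (η : Y →L[ℝ] ℝ) {A B : ℝ × ℝ →L[ℝ] ℝ × ℝ} (hA : HasFDerivAt (grad x e₁ e₂) A s)
    (hB : HasFDerivAt (gradT T η x e₁ e₂) B s) :
    ∃ ζ : ℝ, |ζ| ≤ 6 * ‖η‖ ∧ B = ζ • A := by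
  set q : ℕ → ℝ := fun n => 1 / ((n : ℝ) + 1) with hq
  have hq0 : ∀ n, 0 < q n := fun n => by rw [hq]; positivity
  have hqlim : Tendsto q atTop (𝓝 0) := tendsto_one_div_add_atTop_nhds_zero_nat
  have hqu : Tendsto q uf (𝓝[>] 0) := tendsto_nhdsWithin_of_tendsto_nhds_of_eventually_within _
    (hqlim.mono_left Nat.hyperfilter_le_atTop) (Eventually.of_forall hq0)
  obtain ⟨ζ, hζb, hζ⟩ := rank_one hT hs0 hsc (S := {e₁, e₂}) (Set.toFinite _).countable hq0 hqlim η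
  refine ⟨ζ, hζb.trans (le_of_eq (by ring)), ?_⟩
  have key : ∀ v : ℝ × ℝ, v.1 • e₁ + v.2 • e₂ ∈ ({e₁, e₂} : Set X) → B v = ζ • A v := by
    intro v hv
    have h1 := (hA.hasLineDerivAt v).tendsto_slope_zero_right.comp hqu
    have h2 := (hB.hasLineDerivAt v).tendsto_slope_zero_right.comp hqu
    have h3 := h2.sub (h1.const_smul ζ)
    have h4 := (hζ _ hv e₁ (by simp)).prodMk_nhds (hζ _ hv e₂ (by simp))
    have h5 := tendsto_nhds_unique h3 (h4.congr fun n => by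
      simp only [Function.comp_apply, grad, gradT, pl_add, map_sub, Prod.smul_mk, Prod.mk_sub_mk,
        smul_eq_mul, Prod.mk.injEq]
      constructor <;> ring)
    exact sub_eq_zero.1 h5
  have k1 := key (1, 0) (by simp)
  have k2 := key (0, 1) (by simp)
  refine ContinuousLinearMap.ext fun v => ?_
  have e : v = v.1 • ((1 : ℝ), (0 : ℝ)) + v.2 • ((0 : ℝ), (1 : ℝ)) := by ext <;> simp
  rw [e, map_add, map_add, map_smul, map_smul, map_smul, map_smul, k1, k2]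
  simp only [ContinuousLinearMap.smul_apply]

include hT in
/-- Where the planar gradient has nonzero derivative the trace kills the shear. -/
lemma planar_trace {s : ℝ × ℝ} {β : Y} {O : Set (ℝ × ℝ)} (hO : IsOpen O) (hs : s ∈ O)
    (hs0 : pl x e₁ e₂ s ≠ 0) (hsc : C11At (pl x e₁ e₂ s))
    (h₁ : ∀ u ∈ O, dT T (pl x e₁ e₂ u) e₁ - dT T x e₁ = (grad x e₁ e₂ u).1 • β)
    (h₂ : ∀ u ∈ O, dT T (pl x e₁ e₂ u) e₂ - dT T x e₂ = (grad x e₁ e₂ u).2 • β)
    {A : ℝ × ℝ →L[ℝ] ℝ × ℝ} (hA : HasFDerivAt (grad x e₁ e₂) A s) (hA0 : A ≠ 0) :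
    Dn (T (pl x e₁ e₂ s)) β = 0 := by
  obtain ⟨C, hC⟩ := exists_ctrl hT
  by_contra hβ
  refine hA0 (ContinuousLinearMap.ext fun v => ?_)
  set q : ℕ → ℝ := fun n => 1 / ((n : ℝ) + 1) with hq
  have hq0 : ∀ n, 0 < q n := fun n => by rw [hq]; positivity
  have hqlim : Tendsto q atTop (𝓝 0) := tendsto_one_div_add_atTop_nhds_zero_nat
  have hqu : Tendsto q uf (𝓝[>] 0) := tendsto_nhdsWithin_of_tendsto_nhds_of_eventually_within _
    (hqlim.mono_left Nat.hyperfilter_le_atTop) (Eventually.of_forall hq0)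
  have hsY := (hsc.map hT hC hs0).smooth
  have hin : ∀ᶠ n in uf, s + q n • v ∈ O := by
    refine (((continuous_const.add (continuous_id.smul continuous_const)).tendsto' (0 : ℝ) s
      (by simp)).comp (hqlim.mono_left Nat.hyperfilter_le_atTop)).eventually (hO.mem_nhds hs)
  have h1 := (((hA.hasLineDerivAt v).tendsto_slope_zero_right.comp hqu).const_smul
    (Dn (T (pl x e₁ e₂ s)) β))
  have h2 := (trace_zero hT hs0 hsc hq0 hqlim (v.1 • e₁ + v.2 • e₂) e₁).prodMk_nhds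
    (trace_zero hT hs0 hsc hq0 hqlim (v.1 • e₁ + v.2 • e₂) e₂)
  have h3 := tendsto_nhds_unique h1 (h2.congr' ?_)
  · exact (smul_eq_zero.1 h3).resolve_left hβ
  filter_upwards [hin] with n hn
  rw [← pl_add]
  have a1 : dT T (pl x e₁ e₂ (s + q n • v)) e₁ - dT T (pl x e₁ e₂ s) e₁
      = ((grad x e₁ e₂ (s + q n • v)).1 - (grad x e₁ e₂ s).1) • β := by
    rw [sub_smul, ← h₁ _ hn, ← h₁ _ hs]; abel
  have a2 : dT T (pl x e₁ e₂ (s + q n • v)) e₂ - dT T (pl x e₁ e₂ s) e₂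
      = ((grad x e₁ e₂ (s + q n • v)).2 - (grad x e₁ e₂ s).2) • β := by
    rw [sub_smul, ← h₂ _ hn, ← h₂ _ hs]; abel
  simp only [Function.comp_apply]
  rw [a1, a2, hsY.map_smul, hsY.map_smul]
  generalize grad x e₁ e₂ (s + q n • v) = g
  generalize grad x e₁ e₂ s = g'
  ext <;> simp <;> ring

variable (hx : ‖x‖ = 1) (hc : C11At x) {w₀ : X} (hw₀ : ‖dT T x w₀‖ ≠ ‖w₀‖)
include hT hx hc hw₀

/-- The whole trap lies in the `C^{1,1}` set. -/
lemma c11_trap (h1 : Dn x e₁ = 0) (h2 : Dn x e₂ = 0) {s : ℝ × ℝ} (hs : s ∈ trap x e₁ e₂) :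
    C11At (pl x e₁ e₂ s) := by
  by_contra hn
  refine hw₀ (isometric_of_exit hT hx hc (e := s.1 • e₁ + s.2 • e₂) zero_le_one (fun t ht => ?_)
    (by rwa [one_smul]) w₀)
  have h := (convex_trap hx hc.smooth h1 h2) (x := 0) (by simp [trap, pl_zero, hx]) hs
    (sub_nonneg.2 ht.2) ht.1 (sub_add_cancel 1 t)
  rw [smul_zero, zero_add] at h
  simp only [trap, mem_setOf_eq, pl, Prod.smul_fst, Prod.smul_snd, smul_eq_mul] at h
  rwa [smul_add, smul_smul, smul_smul]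

/-- The shear of a plane. -/
theorem exists_planeData (hi : LinearIndependent ℝ ![e₁, e₂]) (h1 : Dn x e₁ = 0)
    (h2 : Dn x e₂ = 0) : ∃ β O, PlaneData T x e₁ e₂ β O := by
  obtain ⟨C, hC⟩ := exists_ctrl hT
  set p := pl x e₁ e₂ with hp
  set Kt := trap x e₁ e₂ with hKt
  have hKc : IsCompact Kt := isCompact_trap hi
  have h0K : (0 : ℝ × ℝ) ∈ Kt := by simp [hKt, trap, pl_zero, hx]
  have hKne : ∀ s ∈ Kt, p s ≠ 0 := fun s hs =>
    norm_ne_zero_iff.1 (by rw [show ‖p s‖ = 1 from hs]; exact one_ne_zero)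
  have hV : IsOpen {s | p s ≠ 0 ∧ C11At (p s)} :=
    (isOpen_ne.preimage (continuous_pl x e₁ e₂)).inter (isOpen_c11.preimage (continuous_pl x e₁ e₂))
  obtain ⟨δ, hδ, hsub⟩ := hKc.exists_cthickening_subset_open hV
    fun s hs => ⟨hKne s hs, c11_trap hT hx hc hw₀ h1 h2 hs⟩
  have hcc : IsCompact (cthickening δ Kt) := hKc.cthickening
  set O := thickening δ Kt with hOdef
  have hO : IsOpen O := isOpen_thickening
  have hKO : Kt ⊆ O := self_subset_thickening hδ Kt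
  have hOc : O ⊆ cthickening δ Kt := thickening_subset_cthickening δ Kt
  have hOconv : Convex ℝ O := (convex_trap hx hc.smooth h1 h2).thickening δ
  have hOne : ∀ s ∈ O, p s ≠ 0 := fun s hs => (hsub (hOc hs)).1
  have hO11 : ∀ s ∈ O, C11At (p s) := fun s hs => (hsub (hOc hs)).2
  set M := ‖e₁‖ + ‖e₂‖ with hM
  have hpL : ∀ a b : ℝ × ℝ, ‖p a - p b‖ ≤ M * ‖a - b‖ := by
    intro a b
    rw [show p a - p b = (a.1 - b.1) • e₁ + (a.2 - b.2) • e₂ by simp only [hp, pl]; module]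
    refine (norm_add_le _ _).trans ?_
    rw [norm_smul, norm_smul, hM, add_mul]
    exact add_le_add ((mul_comm _ _).le.trans (mul_le_mul_of_nonneg_left
      (by simpa using norm_fst_le (a - b)) (norm_nonneg _)))
      ((mul_comm _ _).le.trans (mul_le_mul_of_nonneg_left
      (by simpa using norm_snd_le (a - b)) (norm_nonneg _)))
  have hlocG : LocallyLipschitzOn (cthickening δ Kt) (grad x e₁ e₂) := by
    intro s hs
    obtain ⟨ρ, K, hρ, hK0, hl⟩ := exists_lip hT hC (hsub hs).1 (hsub hs).2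
    refine ⟨(K * M * M).toNNReal, p ⁻¹' ball (p s) ρ,
      mem_nhdsWithin_of_mem_nhds ((continuous_pl x e₁ e₂).continuousAt.preimage_mem_nhds
        (ball_mem_nhds _ hρ)), LipschitzOnWith.of_dist_le_mul fun a ha b hb => ?_⟩
    rw [dist_eq_norm, dist_eq_norm, Real.coe_toNNReal _ (by positivity), Prod.norm_def]
    refine max_le ?_ ?_
    · refine ((hl _ hb _ ha e₁).1).trans ?_
      have h3 := hpL a b
      have : ‖e₁‖ ≤ M := le_add_of_nonneg_right (norm_nonneg _)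
      rw [mul_assoc (K * M) M]
      gcongr
    · refine ((hl _ hb _ ha e₂).1).trans ?_
      have h3 := hpL a b
      have : ‖e₂‖ ≤ M := le_add_of_nonneg_left (norm_nonneg _)
      rw [mul_assoc (K * M) M]
      gcongr
  have hlocF : ∀ η : Y →L[ℝ] ℝ, LocallyLipschitzOn (cthickening δ Kt) (gradT T η x e₁ e₂) := by
    intro η s hs
    obtain ⟨ρ, K, hρ, hK0, hl⟩ := exists_lip hT hC (hsub hs).1 (hsub hs).2
    refine ⟨(‖η‖ * (K * M * M)).toNNReal, p ⁻¹' ball (p s) ρ,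
      mem_nhdsWithin_of_mem_nhds ((continuous_pl x e₁ e₂).continuousAt.preimage_mem_nhds
        (ball_mem_nhds _ hρ)), LipschitzOnWith.of_dist_le_mul fun a ha b hb => ?_⟩
    rw [dist_eq_norm, dist_eq_norm, Real.coe_toNNReal _ (by positivity), Prod.norm_def]
    have h3 := hpL a b
    refine max_le ?_ ?_
    · simp only [gradT, Prod.fst_sub, ← map_sub]
      refine (η.le_opNorm _).trans ?_
      rw [mul_assoc ‖η‖, mul_assoc (K * M) M]
      have : ‖e₁‖ ≤ M := le_add_of_nonneg_right (norm_nonneg _)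
      refine mul_le_mul_of_nonneg_left (((hl _ hb _ ha e₁).2).trans ?_) (norm_nonneg η)
      gcongr
    · simp only [gradT, Prod.snd_sub, ← map_sub]
      refine (η.le_opNorm _).trans ?_
      rw [mul_assoc ‖η‖, mul_assoc (K * M) M]
      have : ‖e₂‖ ≤ M := le_add_of_nonneg_left (norm_nonneg _)
      refine mul_le_mul_of_nonneg_left (((hl _ hb _ ha e₂).2).trans ?_) (norm_nonneg η)
      gcongr
  obtain ⟨KG, hKG⟩ := hlocG.exists_lipschitzOnWith_of_compact hcc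
  have hG : LipschitzOnWith KG (grad x e₁ e₂) O := hKG.mono hOc
  have hG0 : grad x e₁ e₂ 0 = 0 := by simp [grad, pl_zero, h1, h2]
  have htrapeq : {s ∈ O | ‖p s‖ = ‖p 0‖} = Kt := by
    ext s
    simp only [hp, pl_zero, hx, mem_setOf_eq]
    exact ⟨fun h => h.2, fun h => ⟨hKO h, h⟩⟩
  have nt : ∀ η : Y →L[ℝ] ℝ,
      (∃ O' : Set (ℝ × ℝ), IsOpen O' ∧ Kt ⊆ O' ∧ O' ⊆ O ∧ ∃ l : ℝ, ∀ s ∈ O',
        gradT T η x e₁ e₂ s - gradT T η x e₁ e₂ 0 = l • grad x e₁ e₂ s) ∧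
      ∀ O₂ : Set (ℝ × ℝ), IsOpen O₂ → Kt ⊆ O₂ →
        volume (grad x e₁ e₂ '' (O₂ ∩ O)) ≠ 0 := by
    intro η
    obtain ⟨KF, hKF⟩ := (hlocF η).exists_lipschitzOnWith_of_compact hcc
    have hL : LipschitzOnWith (max KG KF) (grad x e₁ e₂) O := hG.weaken (le_max_left _ _)
    have hL' : LipschitzOnWith (max KG KF) (gradT T η x e₁ e₂) O :=
      (hKF.mono hOc).weaken (le_max_right _ _)
    have h := noTrap hO hOconv (g := fun s => ‖p s‖) (Z := 6 * ‖η‖)
      (fun s hs => hasFDerivAt_norm_pl (hO11 s hs))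
      ((convexOn_norm_pl x e₁ e₂).subset (subset_univ O) hOconv) hL hL' (hKO h0K) hG0
      (by rw [htrapeq]; exact hKc)
      (fun s hs A B hA hB => planar_rank_one hT (hOne s hs) (hO11 s hs) η hA hB)
    rwa [htrapeq] at h
  have himg := (nt 0).2
  set Om : ℕ → Set (ℝ × ℝ) := fun m => thickening (1 / ((m : ℝ) + 1)) Kt ∩ O with hOm
  have hOmO : ∀ m, IsOpen (Om m) := fun m => isOpen_thickening.inter hO
  have hOmK : ∀ m, Kt ⊆ Om m := fun m =>
    subset_inter (self_subset_thickening (by positivity) Kt) hKO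
  have hpt : ∀ m, ∃ s₀ ∈ Om m, grad x e₁ e₂ s₀ ≠ 0 := by
    intro m
    by_contra! hall
    refine himg (Om m) (hOmO m) (hOmK m) (measure_mono_null ?_ volume_fst_zero)
    rintro _ ⟨s, hs, rfl⟩
    rw [mem_setOf_eq, hall s hs.1, Prod.fst_zero]
  -- the functionals which work on a given neighbourhood
  set E : ℕ → Set (Y →L[ℝ] ℝ) := fun m => {η | ∀ s ∈ Om m, ∀ u ∈ Om m,
    ((grad x e₁ e₂ u).1 * η (dT T (p s) e₁ - dT T x e₁)
      = (grad x e₁ e₂ s).1 * η (dT T (p u) e₁ - dT T x e₁)) ∧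
    ((grad x e₁ e₂ u).2 * η (dT T (p s) e₁ - dT T x e₁)
      = (grad x e₁ e₂ s).1 * η (dT T (p u) e₂ - dT T x e₂)) ∧
    ((grad x e₁ e₂ u).2 * η (dT T (p s) e₂ - dT T x e₂)
      = (grad x e₁ e₂ s).2 * η (dT T (p u) e₂ - dT T x e₂))} with hE
  have hEc : ∀ m, IsClosed (E m) := by
    intro m
    simp only [hE, Set.setOf_forall]
    refine isClosed_biInter fun s _ => isClosed_biInter fun u _ => ?_
    simp only [Set.setOf_and]
    refine IsClosed.inter ?_ (IsClosed.inter ?_ ?_) <;>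
      exact isClosed_eq (by fun_prop) (by fun_prop)
  have hEU : ⋃ m, E m = univ := by
    refine eq_univ_of_forall fun η => ?_
    obtain ⟨⟨O', hO', hKO', -, l, hl⟩, -⟩ := nt η
    obtain ⟨d, hd, hdO⟩ := hKc.exists_thickening_subset_open hO' hKO'
    obtain ⟨m, hm⟩ := exists_nat_one_div_lt hd
    refine mem_iUnion.2 ⟨m, fun s hs u hu => ?_⟩
    have key : ∀ s ∈ Om m, η (dT T (p s) e₁ - dT T x e₁) = l * (grad x e₁ e₂ s).1 ∧
        η (dT T (p s) e₂ - dT T x e₂) = l * (grad x e₁ e₂ s).2 := by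
      intro s hs
      have h := hl s (hdO (thickening_mono hm.le Kt hs.1))
      simp only [gradT, pl_zero, ← hp, Prod.mk_sub_mk, ← map_sub] at h
      exact ⟨by simpa using congrArg Prod.fst h, by simpa using congrArg Prod.snd h⟩
    obtain ⟨a1, a2⟩ := key s hs
    obtain ⟨b1, b2⟩ := key u hu
    rw [a1, a2, b1, b2]
    refine ⟨?_, ?_, ?_⟩ <;> ring
  obtain ⟨m, η₀, hη₀⟩ := nonempty_interior_of_iUnion_of_closed hEc hEU
  obtain ⟨r, hr, hball⟩ := Metric.isOpen_iff.1 isOpen_interior η₀ hη₀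
  have hall : ∀ η, η ∈ E m := by
    intro η
    set c := r / (2 * (‖η‖ + 1)) with hc'
    have hc0 : 0 < c := by positivity
    have h3 : η₀ + c • η ∈ E m := interior_subset (hball (by
      rw [mem_ball, dist_eq_norm, add_sub_cancel_left]
      refine (norm_smul_le c η).trans_lt ?_
      rw [Real.norm_of_nonneg hc0.le, hc', div_mul_eq_mul_div, div_lt_iff₀ (by positivity)]
      nlinarith [norm_nonneg η]))
    have h4 : η₀ ∈ E m := interior_subset hη₀
    intro s hs u hu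
    obtain ⟨p1, p2, p3⟩ := h3 s hs u hu
    obtain ⟨q1, q2, q3⟩ := h4 s hs u hu
    simp only [ContinuousLinearMap.add_apply, ContinuousLinearMap.smul_apply, smul_eq_mul]
      at p1 p2 p3
    refine ⟨?_, ?_, ?_⟩ <;> refine mul_left_cancel₀ hc0.ne' ?_
    · linear_combination p1 - q1
    · linear_combination p2 - q2
    · linear_combination p3 - q3
  obtain ⟨s₀, hs₀, hne⟩ := hpt m
  have hvec : ∀ {g g' : ℝ} {a b : Y}, (∀ η : Y →L[ℝ] ℝ, g * η a = g' * η b) → g • a = g' • b :=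
    fun h => (SeparatingDual.eq_iff_forall_dual_eq (R := ℝ)).2 fun η => by simpa using h η
  have main : ∃ β : Y, ∀ s ∈ Om m, dT T (p s) e₁ - dT T x e₁ = (grad x e₁ e₂ s).1 • β ∧
      dT T (p s) e₂ - dT T x e₂ = (grad x e₁ e₂ s).2 • β := by
    by_cases hg : (grad x e₁ e₂ s₀).1 = 0
    · have hg2 : (grad x e₁ e₂ s₀).2 ≠ 0 := fun h => hne (Prod.ext hg h)
      refine ⟨((grad x e₁ e₂ s₀).2)⁻¹ • (dT T (p s₀) e₂ - dT T x e₂), fun s hs => ⟨?_, ?_⟩⟩
      · rw [smul_comm, eq_inv_smul_iff₀ hg2]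
        exact hvec fun η => (hall η s hs s₀ hs₀).2.1
      · rw [smul_comm, eq_inv_smul_iff₀ hg2]
        exact hvec fun η => (hall η s hs s₀ hs₀).2.2
    · refine ⟨((grad x e₁ e₂ s₀).1)⁻¹ • (dT T (p s₀) e₁ - dT T x e₁), fun s hs => ⟨?_, ?_⟩⟩
      · rw [smul_comm, eq_inv_smul_iff₀ hg]
        exact hvec fun η => (hall η s hs s₀ hs₀).1
      · rw [smul_comm, eq_inv_smul_iff₀ hg]
        exact hvec fun η => ((hall η s₀ hs₀ s hs).2.1).symm
  obtain ⟨β, hβ⟩ := main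
  refine ⟨β, Om m, hOmO m, hOmK m, fun s hs => (hβ s hs).1, fun s hs => (hβ s hs).2,
    fun s hs => hO11 s hs.2, fun s hs => hOne s hs.2, fun O₂ hO₂ hKO₂ => ?_⟩
  by_contra! hcur
  have := Trap.haar
  set W := O₂ ∩ Om m with hW
  have hWO : W ⊆ O := fun s hs => hs.2.2
  have hWo : IsOpen W := hO₂.inter (hOmO m)
  set N := {s ∈ W | ¬ DifferentiableAt ℝ (grad x e₁ e₂) s} with hN
  set D := {s ∈ W | DifferentiableAt ℝ (grad x e₁ e₂) s ∧ fderiv ℝ (grad x e₁ e₂) s = 0} with hD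
  have hN0 : volume (grad x e₁ e₂ '' N) = 0 := by
    refine Trap.null_image hG (fun s hs => hWO hs.1) ?_
    have h := hG.ae_differentiableWithinAt_of_mem (μ := volume)
    refine measure_mono_null (fun s hs => ?_) (ae_iff.1 h)
    simp only [mem_setOf_eq, Classical.not_imp]
    exact ⟨hWO hs.1, fun hd => hs.2 (hd.differentiableAt (hO.mem_nhds (hWO hs.1)))⟩
  have hD0 : volume (grad x e₁ e₂ '' D) = 0 :=
    addHaar_image_eq_zero_of_det_fderivWithin_eq_zero volume (f' := fun _ => 0)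
      (fun s hs => by
        have := hs.2.1.hasFDerivAt.hasFDerivWithinAt (s := D)
        rwa [hs.2.2] at this)
      (fun s _ => by simp [ContinuousLinearMap.det])
  refine himg W hWo (subset_inter hKO₂ (hOmK m)) (measure_mono_null ?_
    (measure_union_null (measure_union_null hN0 hD0) volume_fst_zero))
  rintro _ ⟨s, ⟨hs, -⟩, rfl⟩
  by_cases hd : DifferentiableAt ℝ (grad x e₁ e₂) s
  · by_cases hf : fderiv ℝ (grad x e₁ e₂) s = 0
    · exact Or.inl (Or.inr ⟨s, ⟨hs, hd, hf⟩, rfl⟩)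
    · refine Or.inr ?_
      by_contra hne1
      exact hcur s hs hne1 (planar_trace hT (hOmO m) hs.2 (hOne s hs.2.2) (hO11 s hs.2.2)
        (fun u hu => (hβ u hu).1) (fun u hu => (hβ u hu).2) hd.hasFDerivAt hf)
  · exact Or.inl (Or.inl ⟨s, ⟨hs, hd⟩, rfl⟩)

/-- The shear is tangent to the target sphere. -/
lemma PlaneData.perp {β : Y} {O : Set (ℝ × ℝ)} (h : PlaneData T x e₁ e₂ β O)
    (hker : Dn x e₁ = 0 ∧ Dn x e₂ = 0) :
    Dn (T x) β = 0 := by
  obtain ⟨C, hC⟩ := exists_ctrl hT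
  obtain ⟨C', hC'⟩ := exists_ctrl hT.symm
  by_contra hne
  have hcont : ContinuousOn (fun s => Dn (T (pl x e₁ e₂ s)) β) O := fun s hs =>
    ((continuousAt_Dn_map hT hC hC' (h.ne s hs) (h.c11 s hs) β).comp
      (f := pl x e₁ e₂) (continuous_pl x e₁ e₂).continuousAt).continuousWithinAt
  suffices hsub : trap x e₁ e₂ ⊆
      O ∩ (fun s => Dn (T (pl x e₁ e₂ s)) β) ⁻¹' {y | y ≠ 0} by
    obtain ⟨s, hs, -, h0⟩ := h.curved _ (hcont.isOpen_inter_preimage h.isOpen isOpen_ne) hsub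
    exact hs.1.2 h0
  intro s hs
  refine ⟨h.subset hs, ?_⟩
  have hs1 : ‖pl x e₁ e₂ s‖ = 1 := hs
  have hsc := h.c11 s (h.subset hs)
  have hs0 := h.ne s (h.subset hs)
  have hx0 : x ≠ 0 := norm_ne_zero_iff.1 (by rw [hx]; exact one_ne_zero)
  have hface : ‖pl x e₁ e₂ s + x‖ = 2 := by
    refine le_antisymm ((norm_add_le _ _).trans (by rw [hs1, hx]; norm_num)) ?_
    have h1 := Dn_le_norm x (pl x e₁ e₂ s + x)
    have h2 : Dn x e₁ = 0 ∧ Dn x e₂ = 0 := hker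
    rw [hc.smooth.map_add, pl, hc.smooth.map_add, hc.smooth.map_add, hc.smooth.map_smul,
      hc.smooth.map_smul, h2.1, h2.2, Dn_self, hx] at h1
    change 2 ≤ ‖x + (s.1 • e₁ + s.2 • e₂) + x‖
    linarith
  show Dn (T (pl x e₁ e₂ s)) β ≠ 0
  rwa [Dn_eq_of_norm_add (hsc.map hT hC hs0).smooth (hc.map hT hC hx0).smooth]
  rw [hT.norm_map, hT.norm_map, hs1, hx, norm_add_map hT hs1 hx hface]
  norm_num

end Vale.Agent.P084.Full
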