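import Mathlib.LinearAlgebra.Dimension.Finite
import Vale.Agent.P084.Full.GlobalPlane

/-! The derivative of the extension is isometric everywhere. -/

namespace Vale.Agent.P084.Full

open Inf Filter Topology Metric Set

variable {X Y : Type*} [NormedAddCommGroup X] [NormedSpace ℝ X] [CompleteSpace X]
  [NormedAddCommGroup Y] [NormedSpace ℝ Y] [CompleteSpace Y] {T : X → Y} {T' : Y → X}

section plane

variable (hT : IsTingley T T') {x e₁ e₂ : X}

include hT in
/-- The relation of a plane in an arbitrary direction of that plane. -/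
lemma PlaneData.eqn (hc : C11At x) (hx0 : x ≠ 0) {β : Y} {O : Set (ℝ × ℝ)}
    (h : PlaneData T x e₁ e₂ β O) {a c : ℝ} {s : ℝ × ℝ} (hs : s ∈ O) :
    dT T (pl x e₁ e₂ s) (a • e₁ + c • e₂) - dT T x (a • e₁ + c • e₂)
      = Dn (pl x e₁ e₂ s) (a • e₁ + c • e₂) • β := by
  obtain ⟨C, hC⟩ := exists_ctrl hT
  have h0 := h.ne s hs
  have hsm := (h.c11 s hs).smooth
  rw [dT_add_of_smooth hT hC h0 hsm, dT_add_of_smooth hT hC hx0 hc.smooth,
    dT_smul' hT hC h0 hsm, dT_smul' hT hC h0 hsm, dT_smul' hT hC hx0 hc.smooth,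
    dT_smul' hT hC hx0 hc.smooth, hsm.map_add, hsm.map_smul, hsm.map_smul, add_smul, mul_smul,
    mul_smul]
  have p1 := h.eqn₁ s hs
  have p2 := h.eqn₂ s hs
  simp only [grad] at p1 p2
  rw [← p1, ← p2]
  module

include hT in
/-- Two planes through a common direction have the same shear. -/
lemma PlaneData.shear_eq (hc : C11At x) (hx : ‖x‖ = 1) {β β' : Y} {O O' : Set (ℝ × ℝ)}
    (h : PlaneData T x e₁ e₂ β O) {f₁ f₂ : X} (h' : PlaneData T x f₁ f₂ β' O') {e : X} {a c a' c' : ℝ}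
    (he : e = a • e₁ + c • e₂) (he' : e = a' • f₁ + c' • f₂) (he0 : e ≠ 0) (hker : Dn x e = 0) :
    β = β' := by
  have hx0 : x ≠ 0 := norm_ne_zero_iff.1 (by rw [hx]; exact one_ne_zero)
  set S : Set ℝ := {t | ‖x + t • e‖ = 1} with hS
  have hSc : IsCompact S := by
    refine Metric.isCompact_of_isClosed_isBounded (isClosed_eq (by fun_prop) continuous_const)
      ((Metric.isBounded_iff_subset_closedBall 0).2 ⟨2 / ‖e‖, fun t ht => ?_⟩)
    have h1 := norm_sub_le (x + t • e) x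
    rw [add_sub_cancel_left, show ‖x + t • e‖ = 1 from ht, hx, norm_smul] at h1
    rw [mem_closedBall, dist_zero_right, le_div_iff₀ (norm_pos_iff.2 he0)]
    linarith
  obtain ⟨t₀, ht₀, hmax⟩ := hSc.exists_isGreatest ⟨0, by simp [hS, hx]⟩
  have hnn : (0 : ℝ) ≤ t₀ := hmax (by simp [hS, hx])
  have e1 : ∀ t : ℝ, pl x e₁ e₂ (t * a, t * c) = x + t • e := fun t => by
    simp only [pl, he]; module
  have e2 : ∀ t : ℝ, pl x f₁ f₂ (t * a', t * c') = x + t • e := fun t => by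
    simp only [pl, he']; module
  have o1 : ∀ᶠ t in 𝓝[>] t₀, (t * a, t * c) ∈ O := by
    refine Filter.Eventually.filter_mono nhdsWithin_le_nhds ?_
    refine ((by fun_prop : Continuous fun t : ℝ => (t * a, t * c)).tendsto t₀).eventually
      (h.isOpen.mem_nhds (h.subset ?_))
    simp only [trap, mem_setOf_eq, e1]
    exact ht₀
  have o2 : ∀ᶠ t in 𝓝[>] t₀, (t * a', t * c') ∈ O' := by
    refine Filter.Eventually.filter_mono nhdsWithin_le_nhds ?_
    refine ((by fun_prop : Continuous fun t : ℝ => (t * a', t * c')).tendsto t₀).eventually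
      (h'.isOpen.mem_nhds (h'.subset ?_))
    simp only [trap, mem_setOf_eq, e2]
    exact ht₀
  obtain ⟨t, ⟨m1, m2⟩, (ht : t₀ < t)⟩ := ((o1.and o2).and self_mem_nhdsWithin).exists
  have q1 := h.eqn hT hc hx0 (a := a) (c := c) m1
  have q2 := h'.eqn hT hc hx0 (a := a') (c := c') m2
  rw [← he, e1] at q1
  rw [← he', e2] at q2
  have hsm := (h.c11 _ m1).smooth
  rw [e1] at hsm
  have hgt : 1 < ‖x + t • e‖ := by
    refine lt_of_le_of_ne ?_ fun h1 => absurd (hmax (show t ∈ S from h1.symm)) (not_le.2 ht)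
    have h1 := norm_add_ge x (t • e)
    rwa [hc.smooth.map_smul, hker, mul_zero, add_zero, hx] at h1
  have hd : Dn (x + t • e) e ≠ 0 := by
    intro h0
    have h1 := Dn_le_quot (x + t • e) (-(t • e)) one_pos
    rw [one_smul, add_neg_cancel_right, inv_one, one_mul, hx, ← neg_smul, hsm.map_smul, h0,
      mul_zero] at h1
    linarith
  exact smul_right_injective Y hd (q1.symm.trans q2)

variable (hx : ‖x‖ = 1) (hc : C11At x) {w₀ : X} (hw₀ : ‖dT T x w₀‖ ≠ ‖w₀‖)
include hT hx hc hw₀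

/-- The shear of every plane vanishes. -/
theorem shear_zero (hi : LinearIndependent ℝ ![e₁, e₂]) (h1 : Dn x e₁ = 0) (h2 : Dn x e₂ = 0)
    {β : Y} {O : Set (ℝ × ℝ)} (h : PlaneData T x e₁ e₂ β O) : β = 0 := by
  by_contra hβ
  obtain ⟨C, hC⟩ := exists_ctrl hT
  obtain ⟨C', hC'⟩ := exists_ctrl hT.symm
  have hx0 : x ≠ 0 := norm_ne_zero_iff.1 (by rw [hx]; exact one_ne_zero)
  set b := dT T' (T x) β with hbdef
  have hLb : dT T x b = β := by
    have h3 := dT_left hT.symm hC' (hT.map_ne_zero hx0) (C' := C) hC β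
    rwa [hT.left] at h3
  have hφb : Dn x b = 0 := by
    rw [← Dn_dT hT hC hx0 b, hLb]
    exact h.perp hT hx hc hw₀ ⟨h1, h2⟩
  have hb0 : b ≠ 0 := fun hb => hβ (by rw [← hLb, hb, dT_zero hT hC hx0])
  obtain ⟨e, a, c, he, hie, hke⟩ : ∃ (e : X) (a c : ℝ), e = a • e₁ + c • e₂ ∧
      LinearIndependent ℝ ![b, e] ∧ Dn x e = 0 := by
    by_cases hb1 : LinearIndependent ℝ ![b, e₁]
    · exact ⟨e₁, 1, 0, by simp, hb1, h1⟩
    refine ⟨e₂, 0, 1, by simp, ?_, h2⟩
    by_contra hb2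
    simp only [LinearIndependent.pair_iff' hb0, not_forall, not_not] at hb1 hb2
    obtain ⟨p, hp⟩ := hb1
    obtain ⟨q, hq⟩ := hb2
    obtain ⟨hq0, hp0⟩ := LinearIndependent.pair_iff.1 hi q (-p) (by rw [← hp, ← hq]; module)
    have : e₁ = 0 := by rw [← hp, neg_eq_zero.1 hp0, zero_smul]
    exact hi.ne_zero 0 (by simpa using this)
  obtain ⟨β', O', h'⟩ := exists_planeData hT hx hc hw₀ hie hφb hke
  have he0 : e ≠ 0 := by simpa using hie.ne_zero 1
  have hββ : β = β' := h.shear_eq hT hc hx h' he (a' := 0) (c' := 1) (by simp) he0 hke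
  subst hββ
  obtain ⟨s, ⟨-, hs⟩, hne, hperp⟩ := h'.curved O' h'.isOpen h'.subset
  have hs0 := h'.ne s hs
  have hsY := ((h'.c11 s hs).map hT hC hs0).smooth
  refine hne ?_
  show Dn (pl x b e s) b = 0
  rw [← Dn_dT hT hC hs0 b]
  have q := h'.eqn₁ s hs
  rw [sub_eq_iff_eq_add, hLb] at q
  rw [q, hsY.map_add, hsY.map_smul, hperp, mul_zero, add_zero]

/-- Along a direction in the tangent space the derivative in that direction is locally constant. -/
theorem exists_const_dir (hi : LinearIndependent ℝ ![e₁, e₂]) (h1 : Dn x e₁ = 0)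
    (h2 : Dn x e₂ = 0) : ∃ r : ℝ, 0 < r ∧ ∀ σ ∈ Ico (0 : ℝ) r,
      C11At (x + σ • e₁) ∧ x + σ • e₁ ≠ 0 ∧ dT T (x + σ • e₁) e₁ = dT T x e₁ := by
  obtain ⟨β, O, h⟩ := exists_planeData hT hx hc hw₀ hi h1 h2
  have hβ := shear_zero hT hx hc hw₀ hi h1 h2 h
  have hO : ∀ᶠ σ in 𝓝 (0 : ℝ), (σ, (0 : ℝ)) ∈ O :=
    ((by fun_prop : Continuous fun σ : ℝ => (σ, (0 : ℝ))).tendsto 0).eventually
      (h.isOpen.mem_nhds (h.subset (by simp [trap, pl, hx])))
  obtain ⟨r, hr, hball⟩ := Metric.eventually_nhds_iff.1 hO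
  refine ⟨r, hr, fun σ hσ => ?_⟩
  have hm : (σ, (0 : ℝ)) ∈ O := hball (by rw [Real.dist_0_eq_abs, abs_of_nonneg hσ.1]; exact hσ.2)
  have e : pl x e₁ e₂ (σ, 0) = x + σ • e₁ := by simp [pl]
  have q := h.eqn₁ _ hm
  rw [hβ, smul_zero, sub_eq_zero, e] at q
  exact ⟨e ▸ h.c11 _ hm, e ▸ h.ne _ hm, q⟩

end plane

/-- Along a line the derivative in the direction of the line persists. -/
lemma const_step (hT : IsTingley T T') (hdim : 3 ≤ Module.rank ℝ X) {x v : X}
    (hi : LinearIndependent ℝ ![x, v]) (hv : ‖dT T x v‖ ≠ ‖v‖) {t : ℝ} (hc : C11At (x + t • v))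
    (hL : dT T (x + t • v) v = dT T x v) :
    ∀ᶠ t' in 𝓝[≥] t, C11At (x + t' • v) ∧ dT T (x + t' • v) v = dT T x v := by
  obtain ⟨C, hC⟩ := exists_ctrl hT
  set y := x + t • v with hy
  have hy0 : y ≠ 0 := fun h => one_ne_zero
    (LinearIndependent.pair_iff.1 hi 1 t (by rwa [one_smul])).1
  have hyn : 0 < ‖y‖ := norm_pos_iff.2 hy0
  set z := ‖y‖⁻¹ • y with hz
  have hzn : ‖z‖ = 1 := by rw [hz, norm_smul, norm_inv, norm_norm, inv_mul_cancel₀ hyn.ne']
  have hz0 : z ≠ 0 := norm_ne_zero_iff.1 (by rw [hzn]; exact one_ne_zero)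
  have hzc : C11At z := hc.smul (inv_pos.2 hyn)
  have hzs := hzc.smooth
  have hzv : dT T z v = dT T x v := by rw [hz, dT_smul_base hT hy0 (inv_pos.2 hyn), hL]
  set κ := Dn z v with hκ
  set e₁ := v - κ • z with he₁
  have hzz : Dn z z = 1 := by rw [Dn_self, hzn]
  have hk1 : Dn z e₁ = 0 := by rw [he₁, hzs.map_sub_smul, hzz, mul_one, sub_self]
  have he10 : e₁ ≠ 0 := by
    intro h0
    rw [he₁, hz, hy, smul_smul, sub_eq_zero] at h0
    obtain ⟨h3, h4⟩ := LinearIndependent.pair_iff.1 hi (κ * ‖x + t • v‖⁻¹)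
      (κ * ‖x + t • v‖⁻¹ * t - 1) (by
        rw [sub_smul, one_smul, mul_smul _ t v, ← add_sub_assoc, ← smul_add, ← h0, sub_self])
    rw [h3, zero_mul, zero_sub, neg_eq_zero] at h4
    exact one_ne_zero h4
  obtain ⟨u, hu⟩ : ∃ u, u ∉ Submodule.span ℝ ({z, e₁} : Set X) := by
    classical
    by_contra! h
    have htop : Submodule.span ℝ ({z, e₁} : Set X) = ⊤ := eq_top_iff.2 fun u _ => h u
    have h3 := rank_span_finset_le (R := ℝ) ({z, e₁} : Finset X)
    rw [Finset.coe_insert, Finset.coe_singleton, htop, rank_top] at h3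
    have h4 : ((({z, e₁} : Finset X).card : ℕ) : Cardinal) ≤ (2 : ℕ) := by
      exact_mod_cast Finset.card_le_two
    have h5 := hdim.trans (h3.trans h4)
    norm_num at h5
  set e₂ := u - Dn z u • z with he₂
  have hk2 : Dn z e₂ = 0 := by rw [he₂, hzs.map_sub_smul, hzz, mul_one, sub_self]
  have hie : LinearIndependent ℝ ![e₁, e₂] := by
    refine (LinearIndependent.pair_iff' he10).2 fun p hp => hu ?_
    rw [show u = p • e₁ + Dn z u • z by rw [hp, he₂, sub_add_cancel]]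
    exact add_mem (Submodule.smul_mem _ _ (Submodule.subset_span (by simp)))
      (Submodule.smul_mem _ _ (Submodule.subset_span (by simp)))
  have hzns : ‖dT T z v‖ ≠ ‖v‖ := by rw [hzv]; exact hv
  obtain ⟨r, hr, hdir⟩ := exists_const_dir hT hzn hzc hzns hie hk1 hk2
  have hline := map_line hT hC (p := z) (e := e₁) (L := dT T z e₁) (b := r / 2)
    (fun s hs => (hdir s ⟨hs.1, by linarith [hs.2]⟩).2.1)
    (fun s hs => (hdir s ⟨hs.1, by linarith [hs.2]⟩).2.2)
  have hscale : Tendsto (fun t' : ℝ => ‖y‖ + (t' - t) * κ) (𝓝[≥] t) (𝓝 ‖y‖) :=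
    ((by fun_prop : Continuous fun t' : ℝ => ‖y‖ + (t' - t) * κ).tendsto' t ‖y‖
      (by simp)).mono_left nhdsWithin_le_nhds
  have hσlim : Tendsto (fun t' : ℝ => (t' - t) / (‖y‖ + (t' - t) * κ)) (𝓝[≥] t) (𝓝 0) := by
    have h3 : Tendsto (fun t' : ℝ => t' - t) (𝓝[≥] t) (𝓝 0) :=
      ((continuous_id.sub continuous_const).tendsto' t 0 (sub_self t)).mono_left nhdsWithin_le_nhds
    have h4 := h3.div hscale hyn.ne'
    rwa [zero_div] at h4
  filter_upwards [hscale.eventually (eventually_gt_nhds hyn),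
    hσlim.eventually (eventually_le_nhds (half_pos hr)), self_mem_nhdsWithin]
    with t' hpos hσ (ht' : t ≤ t')
  set σ := (t' - t) / (‖y‖ + (t' - t) * κ) with hσdef
  have hσ0 : 0 ≤ σ := div_nonneg (sub_nonneg.2 ht') hpos.le
  obtain ⟨hqc, hq0, hqe⟩ := hdir σ ⟨hσ0, by linarith⟩
  have hpt : x + t' • v = (‖y‖ + (t' - t) * κ) • (z + σ • e₁) := by
    have hcσ : (‖y‖ + (t' - t) * κ) * σ = t' - t := by rw [hσdef, mul_div_cancel₀ _ hpos.ne']
    have hyz : ‖y‖ • z = x + t • v := smul_inv_smul₀ hyn.ne' y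
    rw [smul_add, smul_smul (‖y‖ + (t' - t) * κ) σ e₁, hcσ, he₁, smul_sub,
      smul_smul (t' - t) κ z, add_smul, hyz]
    module
  rw [hpt]
  refine ⟨hqc.smul hpos, ?_⟩
  rw [dT_smul_base hT hq0 hpos, ← hzv]
  have hTq := hline σ ⟨hσ0, hσ⟩
  have hsq := hqc.smooth
  have hself : dT T (z + σ • e₁) (z + σ • e₁) = T (z + σ • e₁) := dT_self hT hC hq0
  rw [dT_add_of_smooth hT hC hq0 hsq, dT_smul' hT hC hq0 hsq σ e₁, hqe, hTq, add_left_inj] at hself
  have hv' : v = e₁ + κ • z := by rw [he₁, sub_add_cancel]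
  rw [hv', dT_add_of_smooth hT hC hq0 hsq, dT_smul' hT hC hq0 hsq κ z, hqe, hself,
    dT_add_of_smooth hT hC hz0 hzs, dT_smul' hT hC hz0 hzs κ z, dT_self hT hC hz0]

/-- The derivative of the extension preserves the norm. -/
theorem norm_dT (hT : IsTingley T T') (hdim : 3 ≤ Module.rank ℝ X) {a : X} (ha : a ≠ 0) (v : X) :
    ‖dT T a v‖ = ‖v‖ := by
  obtain ⟨C, hC⟩ := exists_ctrl hT
  rw [dT_normalize hT hC ha]
  set x := ‖a‖⁻¹ • a with hxdef
  have hx : ‖x‖ = 1 := by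
    rw [hxdef, norm_smul, norm_inv, norm_norm, inv_mul_cancel₀ (norm_ne_zero_iff.2 ha)]
  have hx0 : x ≠ 0 := norm_ne_zero_iff.1 (by rw [hx]; exact one_ne_zero)
  by_cases hc : C11At x
  swap
  · exact norm_dT_of_not_c11 hT hx0 hc v
  by_contra hv
  have hi : LinearIndependent ℝ ![x, v] := by
    refine (LinearIndependent.pair_iff' hx0).2 fun c hcv => hv ?_
    rw [← hcv, dT_smul' hT hC hx0 hc.smooth, dT_self hT hC hx0, norm_smul, norm_smul, hT.norm_map]
  have hne : ∀ s : ℝ, x + s • v ≠ 0 := fun s h => one_ne_zero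
    (LinearIndependent.pair_iff.1 hi 1 s (by rwa [one_smul])).1
  set L := dT T x v with hL
  set F := {s : ℝ | 0 ≤ s ∧ ¬(C11At (x + s • v) ∧ dT T (x + s • v) v = L)} with hF
  rcases F.eq_empty_or_nonempty with hFe | hFn
  · refine hv ?_
    have hall : ∀ s : ℝ, 0 ≤ s → dT T (x + s • v) v = L := fun s hs => by
      by_contra h
      exact notMem_empty s (hFe ▸ (show s ∈ F from ⟨hs, fun h' => h h'.2⟩))
    have hbd : ∀ s : ℝ, 0 < s → |‖L‖ - ‖v‖| ≤ 2 / s := by
      intro s hs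
      have e := congrArg norm (map_line hT hC (b := s) (fun r _ => hne r) (fun r hr => hall r hr.1)
        s (right_mem_Icc.2 hs.le))
      rw [hT.norm_map] at e
      have h3 := abs_norm_sub_norm_le (T x + s • L) (s • L)
      have h4 := abs_norm_sub_norm_le (x + s • v) (s • v)
      rw [add_sub_cancel_right, hT.norm_map, hx, norm_smul, Real.norm_of_nonneg hs.le, ← e] at h3
      rw [add_sub_cancel_right, hx, norm_smul, Real.norm_of_nonneg hs.le] at h4
      rw [le_div_iff₀ hs]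
      obtain ⟨a1, a2⟩ := abs_le.1 h3
      obtain ⟨b1, b2⟩ := abs_le.1 h4
      rcases abs_choice (‖L‖ - ‖v‖) with h | h <;> rw [h] <;> linarith
    refine sub_eq_zero.1 (abs_eq_zero.1 (le_antisymm (le_of_forall_pos_le_add fun ε hε => ?_)
      (abs_nonneg _)))
    refine (hbd (2 / ε) (by positivity)).trans (le_of_eq ?_)
    field_simp
    ring
  have hFb : BddBelow F := ⟨0, fun s hs => hs.1⟩
  set τ := sInf F with hτdef
  have hτ0 : 0 ≤ τ := le_csInf hFn fun s hs => hs.1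
  have hgood : ∀ s ∈ Ico 0 τ, C11At (x + s • v) ∧ dT T (x + s • v) v = L := fun s hs => by
    by_contra h
    exact absurd (csInf_le hFb (show s ∈ F from ⟨hs.1, h⟩)) (not_le.2 hs.2)
  have hnQ : ¬(C11At (x + τ • v) ∧ dT T (x + τ • v) v = L) := by
    rintro ⟨h1, h2⟩
    obtain ⟨b, hb, hsub⟩ := mem_nhdsGE_iff_exists_Ico_subset.1
      (const_step hT hdim hi hv h1 h2)
    obtain ⟨s, hs, hsb⟩ := exists_lt_of_csInf_lt hFn (show sInf F < b from hb)
    exact hs.2 (hsub ⟨csInf_le hFb hs, hsb⟩)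
  have hτpos : 0 < τ := lt_of_le_of_ne hτ0 fun h => hnQ (by
    rw [← h, zero_smul, add_zero]; exact ⟨hc, rfl⟩)
  by_cases hcτ : C11At (x + τ • v)
  · refine hnQ ⟨hcτ, tendsto_nhds_unique (((continuousAt_dT hT hC (hne τ) hcτ v).comp
      (f := fun s : ℝ => x + s • v) (by fun_prop)).tendsto.mono_left
        (nhdsWithin_le_nhds (s := Iio τ))) (tendsto_const_nhds.congr' ?_)⟩
    filter_upwards [Ioo_mem_nhdsLT hτpos] with s hs
    exact (hgood s (Ioo_subset_Ico_self hs)).2.symm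
  refine hv ?_
  have hline := map_line hT hC (p := x) (e := v) (L := L) (b := τ) (fun s _ => hne s)
    (fun s hs => (hgood s hs).2)
  have hback : dT T (x + τ • v) (-v) = -L := by
    refine tendsto_nhds_unique (tendsto_dT hT hC (hne τ) (-v)) (tendsto_const_nhds.congr' ?_)
    filter_upwards [Ioo_mem_nhdsGT hτpos] with s hs
    rw [show x + τ • v + s • -v = x + (τ - s) • v by module,
      hline (τ - s) ⟨by linarith [hs.2], by linarith [hs.1]⟩,
      hline τ (right_mem_Icc.2 hτ0),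
      show T x + (τ - s) • L - (T x + τ • L) = s • -L by module, inv_smul_smul₀ hs.1.ne']
  have h3 := norm_dT_of_not_c11 hT (hne τ) hcτ (-v)
  rwa [hback, norm_neg, norm_neg] at h3

end Vale.Agent.P084.Full
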