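import Mathlib.LinearAlgebra.Dimension.Finite
import Mathlib.LinearAlgebra.FiniteDimensional.Defs
import Vale.Agent.P084.Full.Global

/-!
Tingley's problem: every real Banach space whose dimension is not two has the Mazur-Ulam property.
-/

namespace Vale.Agent.P084.Full

open Inf Filter Topology Metric

variable {X Y : Type*} [NormedAddCommGroup X] [NormedSpace ℝ X] [NormedAddCommGroup Y]
  [NormedSpace ℝ Y] {T : X → Y} {T' : Y → X}

/-- On a line the extension is linear. -/
lemma linear_of_line (hT : IsTingley T T') {u : X} (hu : ∀ x : X, ∃ c : ℝ, c • u = x) :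
    ∃ U : X ≃ₗᵢ[ℝ] Y, ∀ x, U x = T x := by
  have hneg : T (-u) = -T u := by
    rcases eq_or_ne u 0 with rfl | hu0
    · simp [hT.map_zero]
    obtain ⟨d, hd⟩ := hu (T' (-T u))
    have h1 : ‖d • u‖ = ‖u‖ := by rw [hd, hT.symm.norm_map, norm_neg, hT.norm_map]
    rw [norm_smul, Real.norm_eq_abs] at h1
    rcases eq_or_eq_neg_of_abs_eq (mul_eq_right₀ (norm_ne_zero_iff.2 hu0) |>.1 h1) with h | h
    · rw [h, one_smul] at hd
      have e : T u = -T u := by
        conv_lhs => rw [hd, hT.right]
      have e2 : (2 : ℝ) • T u = 0 := by rw [two_smul]; nth_rw 2 [e]; exact add_neg_cancel _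
      exact absurd ((smul_eq_zero.1 e2).resolve_left two_ne_zero) (hT.map_ne_zero hu0)
    · rw [h, neg_one_smul] at hd
      rw [hd, hT.right]
  have key : ∀ c : ℝ, T (c • u) = c • T u := by
    intro c
    rcases lt_trichotomy c 0 with hc | rfl | hc
    · rw [show c • u = (-c) • -u by module, hT.homog _ _ (neg_pos.2 hc), hneg]
      module
    · simp [hT.map_zero]
    · exact hT.homog _ _ hc
  let L : X →ₗ[ℝ] Y :=
    { toFun := T
      map_add' := fun x y => by
        obtain ⟨c, rfl⟩ := hu x
        obtain ⟨d, rfl⟩ := hu y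
        rw [← add_smul, key, key, key, add_smul]
      map_smul' := fun s x => by
        obtain ⟨c, rfl⟩ := hu x
        rw [smul_smul, key, key, smul_smul, RingHom.id_apply] }
  exact ⟨⟨LinearEquiv.ofBijective L
    ⟨Function.LeftInverse.injective (g := T') hT.left,
      Function.RightInverse.surjective (g := T') hT.right⟩, hT.norm_map⟩, fun _ => rfl⟩

/-- Spaces of dimension at most one consist of the multiples of one vector. -/
lemma exists_line_of_rank (h : ¬ 3 ≤ Module.rank ℝ X) (h2 : Module.rank ℝ X ≠ 2) :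
    ∃ u : X, ∀ x : X, ∃ c : ℝ, c • u = x := by
  push Not at h
  have hfin : Module.Finite ℝ X :=
    Module.rank_lt_aleph0_iff.1 (h.trans (Cardinal.nat_lt_aleph0 3))
  rw [← Module.finrank_eq_rank] at h h2
  norm_cast at h h2
  exact finrank_le_one_iff.1 (by omega)

/-- The Mazur-Ulam property in every dimension other than two. -/
theorem mazurUlam [CompleteSpace X] [CompleteSpace Y] (h2 : Module.rank ℝ X ≠ 2)
    (f : sphere (0 : X) 1 → sphere (0 : Y) 1) (hf : Isometry f) (hs : Function.Surjective f) :
    ∃ U : X ≃ₗᵢ[ℝ] Y, ∀ x : sphere (0 : X) 1, U x = (f x : Y) := by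
  obtain ⟨T, T', hT, hTf⟩ := exists_isTingley f hf hs
  by_cases h3 : 3 ≤ Module.rank ℝ X
  swap
  · obtain ⟨u, hu⟩ := exists_line_of_rank h3 h2
    obtain ⟨U, hU⟩ := linear_of_line hT hu
    exact ⟨U, fun x => by rw [hU, hTf]⟩
  obtain ⟨C, hC⟩ := exists_ctrl hT
  obtain ⟨C', hC'⟩ := exists_ctrl hT.symm
  have h1 := norm_sub_le_of_residual hT hC (A := fun _ => Set.univ) (fun _ => isOpen_univ)
    (fun _ => dense_univ) fun a ha _ v => (norm_dT hT h3 ha v).le
  have h1' := norm_sub_le_of_residual hT.symm hC' (A := fun _ => Set.univ) (fun _ => isOpen_univ)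
    (fun _ => dense_univ) fun b hb _ w => by
      have h := dT_left hT.symm hC' hb hC w
      have h' := norm_dT hT h3 (hT.symm.map_ne_zero hb) (dT T' b w)
      rw [h] at h'
      exact h'.ge
  let I : X ≃ᵢ Y :=
    { toFun := T, invFun := T', left_inv := hT.left, right_inv := hT.right,
      isometry_toFun := Isometry.of_dist_eq fun x y => by
        rw [dist_eq_norm, dist_eq_norm]
        refine le_antisymm (h1 x y) ?_
        have := h1' (T x) (T y)
        rwa [hT.left, hT.left] at this }
  refine ⟨I.toRealLinearIsometryEquivOfMapZero hT.map_zero, fun x => ?_⟩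
  rw [IsometryEquiv.coe_toRealLinearIsometryEquivOfMapZero]
  exact hTf x

end Vale.Agent.P084.Full
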