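import Mathlib.Analysis.Calculus.Rademacher
import Mathlib.MeasureTheory.Integral.IntervalIntegral.FundThmCalculus
import Mathlib.MeasureTheory.Integral.DominatedConvergence
import Mathlib.MeasureTheory.Integral.IntervalIntegral.AbsolutelyContinuousFun
import Mathlib.MeasureTheory.Integral.Prod
import Mathlib.Analysis.Calculus.FDeriv.Measurable
import Mathlib.MeasureTheory.Measure.Lebesgue.EqHaar

/-! Planar maps with small off diagonal derivatives and almost equal diagonal ones tend to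
multiples of the identity. -/

namespace Vale.Agent.P084.Full.Trap

open MeasureTheory Metric Set Filter Topology

/-- The open square of radius `r`. -/
abbrev Sq (r : ℝ) : Set (ℝ × ℝ) := ball 0 r

lemma mem_sq {r : ℝ} {p : ℝ × ℝ} : p ∈ Sq r ↔ |p.1| < r ∧ |p.2| < r := by
  simp [Sq, Prod.norm_def, Real.norm_eq_abs]

lemma ae_slice_fst {P : ℝ × ℝ → Prop} (h : ∀ᵐ p : ℝ × ℝ, P p) :
    ∀ᵐ t : ℝ, ∀ᵐ s : ℝ, P (s, t) := by
  have h' : ∀ᵐ p ∂((volume : Measure ℝ).prod (volume : Measure ℝ)), P p.swap :=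
    Measure.measurePreserving_swap.quasiMeasurePreserving.ae h
  exact Measure.ae_ae_of_ae_prod h'

lemma ae_slice_snd {P : ℝ × ℝ → Prop} (h : ∀ᵐ p : ℝ × ℝ, P p) :
    ∀ᵐ s : ℝ, ∀ᵐ t : ℝ, P (s, t) :=
  Measure.ae_ae_of_ae_prod (μ := (volume : Measure ℝ)) (ν := (volume : Measure ℝ)) h

lemma haar : (volume : Measure (ℝ × ℝ)).IsAddHaarMeasure :=
  Measure.prod.instIsAddHaarMeasure _ _

lemma ae_diff {f : ℝ × ℝ → ℝ} {L : NNReal} {r : ℝ} (hf : LipschitzOnWith L f (Sq r)) :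
    ∀ᵐ p : ℝ × ℝ, p ∈ Sq r → DifferentiableAt ℝ f p := by
  have := haar
  filter_upwards [hf.ae_differentiableWithinAt_of_mem] with p hp hm
  exact (hp hm).differentiableAt (isOpen_ball.mem_nhds hm)

lemma abs_le_of_uIcc {r a b s : ℝ} (ha : |a| < r) (hb : |b| < r) (hs : s ∈ uIcc a b) :
    |s| < r := by
  rw [abs_lt] at *
  rcases mem_uIcc.1 hs with h | h <;> constructor <;> linarith [h.1, h.2, ha.1, ha.2, hb.1, hb.2]

lemma ftc_fst {f : ℝ × ℝ → ℝ} {L : NNReal} {r : ℝ} (hf : LipschitzOnWith L f (Sq r)) :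
    ∀ᵐ t : ℝ, |t| < r → ∀ a b : ℝ, |a| < r → |b| < r →
      f (b, t) - f (a, t) = ∫ s in a..b, fderiv ℝ f (s, t) (1, 0) := by
  filter_upwards [ae_slice_fst (ae_diff hf)] with t ht htr a b ha hb
  have hg : LipschitzOnWith L (fun s => f (s, t)) (uIcc a b) := by
    refine LipschitzOnWith.of_dist_le_mul fun x hx y hy => ?_
    refine (hf.dist_le_mul _ (mem_sq.2 ⟨abs_le_of_uIcc ha hb hx, htr⟩) _
      (mem_sq.2 ⟨abs_le_of_uIcc ha hb hy, htr⟩)).trans ?_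
    simp [Prod.dist_eq]
  rw [← hg.absolutelyContinuousOnInterval.integral_deriv_eq_sub]
  refine intervalIntegral.integral_congr_ae ?_
  filter_upwards [ht] with s hs hsu
  have hm : (s, t) ∈ Sq r := mem_sq.2 ⟨abs_le_of_uIcc ha hb (uIoc_subset_uIcc hsu), htr⟩
  have h1 : HasDerivAt (fun x : ℝ => (x, t)) ((1 : ℝ), (0 : ℝ)) s :=
    (hasDerivAt_id s).prodMk (hasDerivAt_const s t)
  exact ((hs hm).hasFDerivAt.comp_hasDerivAt s h1).deriv

lemma ftc_snd {f : ℝ × ℝ → ℝ} {L : NNReal} {r : ℝ} (hf : LipschitzOnWith L f (Sq r)) :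
    ∀ᵐ s : ℝ, |s| < r → ∀ c d : ℝ, |c| < r → |d| < r →
      f (s, d) - f (s, c) = ∫ t in c..d, fderiv ℝ f (s, t) (0, 1) := by
  filter_upwards [ae_slice_snd (ae_diff hf)] with s hs hsr c d hc hd
  have hg : LipschitzOnWith L (fun t => f (s, t)) (uIcc c d) := by
    refine LipschitzOnWith.of_dist_le_mul fun x hx y hy => ?_
    refine (hf.dist_le_mul _ (mem_sq.2 ⟨hsr, abs_le_of_uIcc hc hd hx⟩) _
      (mem_sq.2 ⟨hsr, abs_le_of_uIcc hc hd hy⟩)).trans ?_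
    simp [Prod.dist_eq]
  rw [← hg.absolutelyContinuousOnInterval.integral_deriv_eq_sub]
  refine intervalIntegral.integral_congr_ae ?_
  filter_upwards [hs] with t ht htu
  have hm : (s, t) ∈ Sq r := mem_sq.2 ⟨hsr, abs_le_of_uIcc hc hd (uIoc_subset_uIcc htu)⟩
  have h1 : HasDerivAt (fun x : ℝ => (s, x)) ((0 : ℝ), (1 : ℝ)) t :=
    (hasDerivAt_const t s).prodMk (hasDerivAt_id t)
  exact ((ht hm).hasFDerivAt.comp_hasDerivAt t h1).deriv

/-- A half open rectangle. -/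
abbrev Rect (a b c d : ℝ) : Set (ℝ × ℝ) := Ioc a b ×ˢ Ioc c d

lemma rect_sub {r a b c d : ℝ} (ha : |a| < r) (hb : |b| < r) (hc : |c| < r) (hd : |d| < r) :
    Rect a b c d ⊆ Sq r := fun _ hp =>
  mem_sq.2 ⟨abs_le_of_uIcc ha hb (Icc_subset_uIcc ⟨hp.1.1.le, hp.1.2⟩),
    abs_le_of_uIcc hc hd (Icc_subset_uIcc ⟨hp.2.1.le, hp.2.2⟩)⟩

lemma integrable_fderiv {f : ℝ × ℝ → ℝ} {L : NNReal} {r a b c d : ℝ}
    (hf : LipschitzOnWith L f (Sq r)) (ha : |a| < r) (hb : |b| < r) (hc : |c| < r)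
    (hd : |d| < r) (v : ℝ × ℝ) :
    IntegrableOn (fun p => fderiv ℝ f p v) (Rect a b c d) := by
  have hfin : volume (Rect a b c d) < ⊤ := by
    rw [Measure.volume_eq_prod, Measure.prod_prod]
    exact ENNReal.mul_lt_top measure_Ioc_lt_top measure_Ioc_lt_top
  refine IntegrableOn.of_bound hfin ?_ (L * ‖v‖) ?_
  · exact (measurable_fderiv_apply_const ℝ f v).aestronglyMeasurable
  · rw [ae_restrict_iff' (measurableSet_Ioc.prod measurableSet_Ioc)]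
    refine Eventually.of_forall fun p hp => ?_
    exact ((fderiv ℝ f p).le_opNorm v).trans (mul_le_mul_of_nonneg_right
      (norm_fderiv_le_of_lipschitzOn ℝ (isOpen_ball.mem_nhds (rect_sub ha hb hc hd hp)) hf)
      (norm_nonneg v))

lemma int_fst {f : ℝ × ℝ → ℝ} {L : NNReal} {r a b c d : ℝ}
    (hf : LipschitzOnWith L f (Sq r)) (ha : |a| < r) (hb : |b| < r) (hc : |c| < r)
    (hd : |d| < r) (hab : a ≤ b) (hcd : c ≤ d) :
    ∫ p in Rect a b c d, fderiv ℝ f p (1, 0) = ∫ t in c..d, (f (b, t) - f (a, t)) := by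
  have hi := integrable_fderiv hf ha hb hc hd (1, 0)
  rw [IntegrableOn, Measure.volume_eq_prod, ← Measure.prod_restrict] at hi
  rw [Measure.volume_eq_prod, ← Measure.prod_restrict, integral_prod_symm _ hi,
    intervalIntegral.integral_of_le hcd]
  refine integral_congr_ae ?_
  rw [EventuallyEq, ae_restrict_iff' measurableSet_Ioc]
  filter_upwards [ftc_fst hf] with t ht htc
  rw [ht (abs_le_of_uIcc hc hd (Icc_subset_uIcc ⟨htc.1.le, htc.2⟩)) a b ha hb,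
    intervalIntegral.integral_of_le hab]

lemma int_snd {f : ℝ × ℝ → ℝ} {L : NNReal} {r a b c d : ℝ}
    (hf : LipschitzOnWith L f (Sq r)) (ha : |a| < r) (hb : |b| < r) (hc : |c| < r)
    (hd : |d| < r) (hab : a ≤ b) (hcd : c ≤ d) :
    ∫ p in Rect a b c d, fderiv ℝ f p (0, 1) = ∫ s in a..b, (f (s, d) - f (s, c)) := by
  have hi := integrable_fderiv hf ha hb hc hd (0, 1)
  rw [IntegrableOn, Measure.volume_eq_prod, ← Measure.prod_restrict] at hi
  rw [Measure.volume_eq_prod, ← Measure.prod_restrict, integral_prod _ hi,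
    intervalIntegral.integral_of_le hab]
  refine integral_congr_ae ?_
  rw [EventuallyEq, ae_restrict_iff' measurableSet_Ioc]
  filter_upwards [ftc_snd hf] with s hs hsa
  rw [hs (abs_le_of_uIcc ha hb (Icc_subset_uIcc ⟨hsa.1.le, hsa.2⟩)) c d hc hd,
    intervalIntegral.integral_of_le hcd]

/-- Bounds on the derivative `B` at a point, in terms of the derivative `M` of an inverse. -/
structure Est (Z ε : ℝ) (M B : ℝ × ℝ →L[ℝ] ℝ × ℝ) : Prop where
  b11 : |(B (1, 0)).1| ≤ 2 * Z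
  b12 : |(B (0, 1)).1| ≤ 2 * Z
  b21 : |(B (1, 0)).2| ≤ 2 * Z
  b22 : |(B (0, 1)).2| ≤ 2 * Z
  off₁ : |(B (0, 1)).1| ≤ Z * ε * ((M (1, 0)).1 + (M (0, 1)).2)
  off₂ : |(B (1, 0)).2| ≤ Z * ε * ((M (1, 0)).1 + (M (0, 1)).2)
  diag : |(B (1, 0)).1 - (B (0, 1)).2| ≤ Z * ε * ((M (1, 0)).1 + (M (0, 1)).2)

lemma lip_fst {Φ : ℝ × ℝ → ℝ × ℝ} {L : NNReal} {s : Set (ℝ × ℝ)} (h : LipschitzOnWith L Φ s) :
    LipschitzOnWith L (fun p => (Φ p).1) s :=
  LipschitzOnWith.of_dist_le_mul fun x hx y hy =>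
    le_trans (by simp [Prod.dist_eq]) (h.dist_le_mul x hx y hy)

lemma lip_snd {Φ : ℝ × ℝ → ℝ × ℝ} {L : NNReal} {s : Set (ℝ × ℝ)} (h : LipschitzOnWith L Φ s) :
    LipschitzOnWith L (fun p => (Φ p).2) s :=
  LipschitzOnWith.of_dist_le_mul fun x hx y hy =>
    le_trans (by simp [Prod.dist_eq]) (h.dist_le_mul x hx y hy)

lemma comp_deriv {Φ : ℝ × ℝ → ℝ × ℝ} {B : ℝ × ℝ →L[ℝ] ℝ × ℝ} {p : ℝ × ℝ}
    (h : HasFDerivAt Φ B p) (v : ℝ × ℝ) :
    fderiv ℝ (fun q => (Φ q).1) p v = (B v).1 ∧ fderiv ℝ (fun q => (Φ q).2) p v = (B v).2 := by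
  constructor
  · rw [h.fst.fderiv]; rfl
  · rw [h.snd.fderiv]; rfl

/-- An inequality which holds at almost every point of an interval holds everywhere. -/
lemma le_of_ae {φ : ℝ → ℝ} {r δ C : ℝ} (hδ : 0 < δ) (hδr : δ < r)
    (hc : ContinuousOn φ (Icc (-δ) δ)) (h : ∀ᵐ t : ℝ, |t| < r → φ t ≤ C) {t : ℝ}
    (ht : t ∈ Icc (-δ) δ) : φ t ≤ C := by
  have h1 : Set.EqOn (fun t => max (φ t - C) 0) (fun _ => 0) (Icc (-δ) δ) := by
    refine Measure.eqOn_Icc_of_ae_eq volume (by linarith) ?_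
      (ContinuousOn.sup (hc.sub continuousOn_const) continuousOn_const) continuousOn_const
    rw [EventuallyEq, ae_restrict_iff' measurableSet_Icc]
    filter_upwards [h] with s hs hm
    have := hs (abs_lt.2 ⟨by linarith [hm.1], by linarith [hm.2]⟩)
    exact max_eq_right (by linarith)
  have h2 := h1 ht
  simp only at h2
  linarith [le_max_left (φ t - C) 0, h2.le]

lemma abs_sub_fst {f : ℝ × ℝ → ℝ} {L : NNReal} {δ r C : ℝ} (hδ : 0 < δ) (hδr : δ < r)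
    (hf : LipschitzOnWith L f (Sq r))
    (hb : ∀ᵐ p : ℝ × ℝ, p ∈ Sq r → |fderiv ℝ f p (1, 0)| ≤ C) {a b t : ℝ}
    (ha : a ∈ Icc (-δ) δ) (hb' : b ∈ Icc (-δ) δ) (ht : t ∈ Icc (-δ) δ) :
    |f (b, t) - f (a, t)| ≤ C * |b - a| := by
  have hlt : ∀ {x : ℝ}, x ∈ Icc (-δ) δ → |x| < r := fun hx =>
    abs_lt.2 ⟨by linarith [hx.1], by linarith [hx.2]⟩
  refine le_of_ae (φ := fun t => |f (b, t) - f (a, t)|) hδ hδr ?_ ?_ ht
  · refine (ContinuousOn.sub ?_ ?_).abs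
    · exact hf.continuousOn.comp (by fun_prop) fun x hx => mem_sq.2 ⟨hlt hb', hlt hx⟩
    · exact hf.continuousOn.comp (by fun_prop) fun x hx => mem_sq.2 ⟨hlt ha, hlt hx⟩
  · filter_upwards [ftc_fst hf, ae_slice_fst hb] with t h1 h2 htr
    rw [h1 htr a b (hlt ha) (hlt hb'), ← Real.norm_eq_abs (∫ _ in a..b, _)]
    refine intervalIntegral.norm_integral_le_of_norm_le_const_ae ?_
    filter_upwards [h2] with s hs hsu
    exact hs (mem_sq.2 ⟨abs_le_of_uIcc (hlt ha) (hlt hb') (uIoc_subset_uIcc hsu), htr⟩)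

lemma abs_sub_snd {f : ℝ × ℝ → ℝ} {L : NNReal} {δ r C : ℝ} (hδ : 0 < δ) (hδr : δ < r)
    (hf : LipschitzOnWith L f (Sq r))
    (hb : ∀ᵐ p : ℝ × ℝ, p ∈ Sq r → |fderiv ℝ f p (0, 1)| ≤ C) {s c d : ℝ}
    (hs : s ∈ Icc (-δ) δ) (hc : c ∈ Icc (-δ) δ) (hd : d ∈ Icc (-δ) δ) :
    |f (s, d) - f (s, c)| ≤ C * |d - c| := by
  have hlt : ∀ {x : ℝ}, x ∈ Icc (-δ) δ → |x| < r := fun hx =>
    abs_lt.2 ⟨by linarith [hx.1], by linarith [hx.2]⟩
  refine le_of_ae (φ := fun s => |f (s, d) - f (s, c)|) hδ hδr ?_ ?_ hs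
  · refine (ContinuousOn.sub ?_ ?_).abs
    · exact hf.continuousOn.comp (by fun_prop) fun x hx => mem_sq.2 ⟨hlt hx, hlt hd⟩
    · exact hf.continuousOn.comp (by fun_prop) fun x hx => mem_sq.2 ⟨hlt hx, hlt hc⟩
  · filter_upwards [ftc_snd hf, ae_slice_snd hb] with s h1 h2 hsr
    rw [h1 hsr c d (hlt hc) (hlt hd), ← Real.norm_eq_abs (∫ _ in c..d, _)]
    refine intervalIntegral.norm_integral_le_of_norm_le_const_ae ?_
    filter_upwards [h2] with t ht htu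
    exact ht (mem_sq.2 ⟨hsr, abs_le_of_uIcc (hlt hc) (hlt hd) (uIoc_subset_uIcc htu)⟩)

variable {δ r Z R : ℝ} {L L' : NNReal} {Φ y : ℝ × ℝ → ℝ × ℝ} {ε : ℝ}

lemma uniform_lip (hδ : 0 < δ) (hδr : δ < r) (hZ : 0 ≤ Z) (hΦ : LipschitzOnWith L Φ (Sq r))
    (hd : ∀ᵐ p : ℝ × ℝ, p ∈ Sq r → ∃ M B, HasFDerivAt y M p ∧ HasFDerivAt Φ B p ∧ Est Z ε M B)
    {p q : ℝ × ℝ} (hp : p ∈ closedBall (0 : ℝ × ℝ) δ) (hq : q ∈ closedBall (0 : ℝ × ℝ) δ) :
    ‖Φ p - Φ q‖ ≤ 4 * Z * ‖p - q‖ := by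
  simp only [mem_closedBall_zero_iff, Prod.norm_def, Real.norm_eq_abs, max_le_iff] at hp hq
  have mk : ∀ {x : ℝ}, |x| ≤ δ → x ∈ Icc (-δ) δ := fun hx => abs_le.1 hx
  have hn1 : |p.1 - q.1| ≤ ‖p - q‖ := norm_fst_le (p - q)
  have hn2 : |p.2 - q.2| ≤ ‖p - q‖ := norm_snd_le (p - q)
  have key : ∀ (f : ℝ × ℝ → ℝ), LipschitzOnWith L f (Sq r) →
      (∀ᵐ x : ℝ × ℝ, x ∈ Sq r →
        |fderiv ℝ f x (1, 0)| ≤ 2 * Z ∧ |fderiv ℝ f x (0, 1)| ≤ 2 * Z) →
      |f p - f q| ≤ 4 * Z * ‖p - q‖ := by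
    intro f hf hb
    have h1 := abs_sub_fst hδ hδr hf (hb.mono fun x hx hm => (hx hm).1) (mk hq.1) (mk hp.1)
      (mk hp.2)
    have h2 := abs_sub_snd hδ hδr hf (hb.mono fun x hx hm => (hx hm).2) (mk hq.1) (mk hq.2)
      (mk hp.2)
    simp only [Prod.mk.eta] at h1 h2
    calc |f p - f q| ≤ |f p - f (q.1, p.2)| + |f (q.1, p.2) - f q| := abs_sub_le _ _ _
      _ ≤ 2 * Z * |p.1 - q.1| + 2 * Z * |p.2 - q.2| := add_le_add h1 h2
      _ ≤ 4 * Z * ‖p - q‖ := by nlinarith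
  rw [Prod.norm_def, Real.norm_eq_abs, Real.norm_eq_abs]
  refine max_le (key _ (lip_fst hΦ) ?_) (key _ (lip_snd hΦ) ?_)
  · filter_upwards [hd] with x hx hm
    obtain ⟨M, B, -, hB, hE⟩ := hx hm
    rw [(comp_deriv hB _).1, (comp_deriv hB _).1]
    exact ⟨hE.b11, hE.b12⟩
  · filter_upwards [hd] with x hx hm
    obtain ⟨M, B, -, hB, hE⟩ := hx hm
    rw [(comp_deriv hB _).2, (comp_deriv hB _).2]
    exact ⟨hE.b21, hE.b22⟩

lemma abs_int_le {h : ℝ → ℝ} {a b C : ℝ} (hab : a ≤ b) (hC : ∀ x ∈ Icc a b, |h x| ≤ C) :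
    |∫ x in a..b, h x| ≤ C * (b - a) := by
  have := intervalIntegral.norm_integral_le_of_norm_le_const (f := h) (a := a) (b := b) (C := C)
    (fun x hx => by rw [uIoc_of_le hab] at hx; exact hC x ⟨hx.1.le, hx.2⟩)
  rwa [abs_of_nonneg (sub_nonneg.2 hab), Real.norm_eq_abs] at this

lemma rect_bound (hΦ : LipschitzOnWith L Φ (Sq r)) (hy : LipschitzOnWith L' y (Sq r))
    (hR : ∀ p ∈ Sq r, ‖y p‖ ≤ R) (hZ : 0 ≤ Z) (hε : 0 ≤ ε)
    (hd : ∀ᵐ p : ℝ × ℝ, p ∈ Sq r → ∃ M B, HasFDerivAt y M p ∧ HasFDerivAt Φ B p ∧ Est Z ε M B)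
    {a b c d : ℝ} (ha : |a| < r) (hb : |b| < r) (hc : |c| < r) (hd' : |d| < r)
    (hab : a ≤ b) (hcd : c ≤ d) :
    |∫ s in a..b, ((Φ (s, d)).1 - (Φ (s, c)).1)| ≤ Z * ε * (2 * R * ((b - a) + (d - c))) ∧
    |∫ t in c..d, ((Φ (b, t)).2 - (Φ (a, t)).2)| ≤ Z * ε * (2 * R * ((b - a) + (d - c))) ∧
    |(∫ t in c..d, ((Φ (b, t)).1 - (Φ (a, t)).1)) - ∫ s in a..b, ((Φ (s, d)).2 - (Φ (s, c)).2)|
      ≤ Z * ε * (2 * R * ((b - a) + (d - c))) := by
  set Q := Rect a b c d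
  have i11 := int_fst (lip_fst hΦ) ha hb hc hd' hab hcd
  have i12 := int_snd (lip_fst hΦ) ha hb hc hd' hab hcd
  have i21 := int_fst (lip_snd hΦ) ha hb hc hd' hab hcd
  have i22 := int_snd (lip_snd hΦ) ha hb hc hd' hab hcd
  have j1 := int_fst (lip_fst hy) ha hb hc hd' hab hcd
  have j2 := int_snd (lip_snd hy) ha hb hc hd' hab hcd
  set t : ℝ × ℝ → ℝ := fun p =>
    fderiv ℝ (fun q => (y q).1) p (1, 0) + fderiv ℝ (fun q => (y q).2) p (0, 1)
  have hti : IntegrableOn t Q :=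
    (integrable_fderiv (lip_fst hy) ha hb hc hd' _).add
      (integrable_fderiv (lip_snd hy) ha hb hc hd' _)
  have ht : ∫ p in Q, t p ≤ 2 * R * ((b - a) + (d - c)) := by
    rw [integral_add (integrable_fderiv (lip_fst hy) ha hb hc hd' _)
      (integrable_fderiv (lip_snd hy) ha hb hc hd' _), j1, j2]
    have hy1 : ∀ p ∈ Sq r, |(y p).1| ≤ R := fun p hp => (norm_fst_le (y p)).trans (hR p hp)
    have hy2 : ∀ p ∈ Sq r, |(y p).2| ≤ R := fun p hp => (norm_snd_le (y p)).trans (hR p hp)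
    have k1 := abs_int_le (h := fun t => (y (b, t)).1 - (y (a, t)).1) (C := 2 * R) hcd
      fun x hx => by
        have hx' := abs_le_of_uIcc hc hd' (Icc_subset_uIcc hx)
        refine (abs_sub _ _).trans ?_
        linarith [hy1 (b, x) (mem_sq.2 ⟨hb, hx'⟩), hy1 (a, x) (mem_sq.2 ⟨ha, hx'⟩)]
    have k2 := abs_int_le (h := fun s => (y (s, d)).2 - (y (s, c)).2) (C := 2 * R) hab
      fun x hx => by
        have hx' := abs_le_of_uIcc ha hb (Icc_subset_uIcc hx)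
        refine (abs_sub _ _).trans ?_
        linarith [hy2 (x, d) (mem_sq.2 ⟨hx', hd'⟩), hy2 (x, c) (mem_sq.2 ⟨hx', hc⟩)]
    calc _ ≤ 2 * R * (d - c) + 2 * R * (b - a) :=
          add_le_add ((le_abs_self _).trans k1) ((le_abs_self _).trans k2)
      _ = _ := by ring
  have key : ∀ h : ℝ × ℝ → ℝ, (∀ᵐ p : ℝ × ℝ, p ∈ Sq r → |h p| ≤ Z * ε * t p) →
      |∫ p in Q, h p| ≤ Z * ε * (2 * R * ((b - a) + (d - c))) := by
    intro h hh
    calc |∫ p in Q, h p| ≤ ∫ p in Q, Z * ε * t p := by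
          refine norm_integral_le_of_norm_le (f := h) (μ := volume.restrict Q) (hti.const_mul _) ?_
          rw [ae_restrict_iff' (measurableSet_Ioc.prod measurableSet_Ioc)]
          filter_upwards [hh] with p hp hm
          exact hp (rect_sub ha hb hc hd' hm)
      _ = Z * ε * ∫ p in Q, t p := integral_const_mul _ _
      _ ≤ _ := mul_le_mul_of_nonneg_left ht (mul_nonneg hZ hε)
  have hest : ∀ᵐ p : ℝ × ℝ, p ∈ Sq r → ∃ B, (∀ v, fderiv ℝ (fun q => (Φ q).1) p v = (B v).1 ∧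
      fderiv ℝ (fun q => (Φ q).2) p v = (B v).2) ∧
      ∃ M, (M (1, 0)).1 + (M (0, 1)).2 = t p ∧ Est Z ε M B := by
    filter_upwards [hd] with p hp hm
    obtain ⟨M, B, hM, hB, hE⟩ := hp hm
    exact ⟨B, comp_deriv hB, M, by simp only [t, (comp_deriv hM _).1, (comp_deriv hM _).2], hE⟩
  refine ⟨?_, ?_, ?_⟩
  · rw [← i12]
    refine key _ ?_
    filter_upwards [hest] with p hp hm
    obtain ⟨B, hB, M, hM, hE⟩ := hp hm
    rw [(hB _).1, ← hM]; exact hE.off₁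
  · rw [← i21]
    refine key _ ?_
    filter_upwards [hest] with p hp hm
    obtain ⟨B, hB, M, hM, hE⟩ := hp hm
    rw [(hB _).2, ← hM]; exact hE.off₂
  · rw [← i11, ← i22, ← integral_sub (integrable_fderiv (lip_fst hΦ) ha hb hc hd' _)
      (integrable_fderiv (lip_snd hΦ) ha hb hc hd' _)]
    refine key _ ?_
    filter_upwards [hest] with p hp hm
    obtain ⟨B, hB, M, hM, hE⟩ := hp hm
    rw [(hB _).1, (hB _).2, ← hM]; exact hE.diag

/-- Limits of maps with these bounds are multiples of the identity, up to a constant. -/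
theorem exists_lin {Φ y : ℕ → ℝ × ℝ → ℝ × ℝ} {ε : ℕ → ℝ} {Ψ : ℝ × ℝ → ℝ × ℝ}
    (hδ : 0 < δ) (hδr : δ < r) (hZ : 0 ≤ Z) (hεnn : ∀ n, 0 ≤ ε n)
    (hε : Tendsto ε atTop (𝓝 0)) (hΦ : ∀ n, ∃ L, LipschitzOnWith L (Φ n) (Sq r))
    (hy : ∀ n, ∃ L, LipschitzOnWith L (y n) (Sq r)) (hR : ∀ n, ∀ p ∈ Sq r, ‖y n p‖ ≤ R)
    (hd : ∀ n, ∀ᵐ p : ℝ × ℝ, p ∈ Sq r →
      ∃ M B, HasFDerivAt (y n) M p ∧ HasFDerivAt (Φ n) B p ∧ Est Z (ε n) M B)
    (hlim : ∀ p ∈ closedBall (0 : ℝ × ℝ) δ, Tendsto (fun n => Φ n p) atTop (𝓝 (Ψ p))) :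
    ∃ l : ℝ, ∀ p ∈ closedBall (0 : ℝ × ℝ) δ, Ψ p - Ψ 0 = l • p := by
  have hlip : ∀ n, ∀ p ∈ closedBall (0 : ℝ × ℝ) δ, ∀ q ∈ closedBall (0 : ℝ × ℝ) δ,
      ‖Φ n p - Φ n q‖ ≤ 4 * Z * ‖p - q‖ := fun n p hp q hq =>
    uniform_lip hδ hδr hZ (hΦ n).choose_spec (hd n) hp hq
  have hΨ : LipschitzOnWith (Real.toNNReal (4 * Z)) Ψ (closedBall (0 : ℝ × ℝ) δ) := by
    refine LipschitzOnWith.of_dist_le_mul fun p hp q hq => ?_
    rw [Real.coe_toNNReal _ (by positivity)]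
    exact le_of_tendsto ((hlim p hp).dist (hlim q hq))
      (Eventually.of_forall fun n => by simpa [dist_eq_norm] using hlip n p hp q hq)
  have mem : ∀ {s t : ℝ}, s ∈ Icc (-δ) δ → t ∈ Icc (-δ) δ →
      (s, t) ∈ closedBall (0 : ℝ × ℝ) δ := fun hs ht => by
    simp [Prod.norm_def, Real.norm_eq_abs, abs_le.2 hs, abs_le.2 ht]
  have hlt : ∀ {x : ℝ}, x ∈ Icc (-δ) δ → |x| < r := fun hx =>
    abs_lt.2 ⟨by linarith [hx.1], by linarith [hx.2]⟩
  have bd : ∀ n, ∀ p ∈ closedBall (0 : ℝ × ℝ) δ, ∀ q ∈ closedBall (0 : ℝ × ℝ) δ,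
      ‖Φ n p - Φ n q‖ ≤ 4 * Z * (2 * δ) := fun n p hp q hq => (hlip n p hp q hq).trans <| by
    have := norm_sub_le p q
    rw [mem_closedBall_zero_iff] at hp hq
    gcongr; linarith
  -- passage to the limit in the integrals
  have lim : ∀ (π : ℝ × ℝ →L[ℝ] ℝ), (∀ v, |π v| ≤ ‖v‖) → ∀ (u w : ℝ → ℝ × ℝ) (a b : ℝ),
      Continuous u → Continuous w → a ≤ b →
      (∀ x ∈ Icc a b, u x ∈ closedBall (0 : ℝ × ℝ) δ) →
      (∀ x ∈ Icc a b, w x ∈ closedBall (0 : ℝ × ℝ) δ) →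
      Tendsto (fun n => ∫ x in a..b, (π (Φ n (u x)) - π (Φ n (w x)))) atTop
        (𝓝 (∫ x in a..b, (π (Ψ (u x)) - π (Ψ (w x))))) := by
    intro π hπ u w a b hu hw hab hum hwm
    refine intervalIntegral.tendsto_integral_filter_of_dominated_convergence
      (fun _ => 4 * Z * (2 * δ)) (Eventually.of_forall fun n => ?_)
      (Eventually.of_forall fun n => Eventually.of_forall fun x hx => ?_)
      intervalIntegrable_const (Eventually.of_forall fun x hx => ?_)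
    · rw [uIoc_of_le hab]
      refine (ContinuousOn.mono ?_ Ioc_subset_Icc_self).aestronglyMeasurable measurableSet_Ioc
      obtain ⟨L, hL⟩ := hΦ n
      have hsub : closedBall (0 : ℝ × ℝ) δ ⊆ Sq r := closedBall_subset_ball hδr
      exact ((π.continuous.comp_continuousOn (hL.continuousOn.comp hu.continuousOn
        fun x hx => hsub (hum x hx)))).sub (π.continuous.comp_continuousOn
        (hL.continuousOn.comp hw.continuousOn fun x hx => hsub (hwm x hx)))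
    · rw [uIoc_of_le hab] at hx
      have hx' : x ∈ Icc a b := ⟨hx.1.le, hx.2⟩
      rw [Real.norm_eq_abs, ← map_sub]
      exact (hπ _).trans (bd n _ (hum x hx') _ (hwm x hx'))
    · rw [uIoc_of_le hab] at hx
      have hx' : x ∈ Icc a b := ⟨hx.1.le, hx.2⟩
      exact ((π.continuous.tendsto _).comp (hlim _ (hum x hx'))).sub
        ((π.continuous.tendsto _).comp (hlim _ (hwm x hx')))
  have hrb : ∀ n, ∀ a b c d : ℝ, a ∈ Icc (-δ) δ → b ∈ Icc (-δ) δ → c ∈ Icc (-δ) δ →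
      d ∈ Icc (-δ) δ → a ≤ b → c ≤ d → _ := fun n a b c d ha hb hc hd' hab hcd =>
    rect_bound (hΦ n).choose_spec (hy n).choose_spec (hR n) hZ (hεnn n) (hd n)
      (hlt ha) (hlt hb) (hlt hc) (hlt hd') hab hcd
  have small : ∀ C : ℝ, Tendsto (fun n => Z * ε n * C) atTop (𝓝 0) := fun C => by
    simpa using (hε.const_mul Z).mul_const C
  have π1 : ∀ v : ℝ × ℝ, |ContinuousLinearMap.fst ℝ ℝ ℝ v| ≤ ‖v‖ := norm_fst_le
  have π2 : ∀ v : ℝ × ℝ, |ContinuousLinearMap.snd ℝ ℝ ℝ v| ≤ ‖v‖ := norm_snd_le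
  -- the three identities
  have zero_of : ∀ {u : ℝ → ℝ}, ContinuousOn u (Icc (-δ) δ) →
      (∀ a b : ℝ, a ∈ Icc (-δ) δ → b ∈ Icc (-δ) δ → a ≤ b → ∫ x in a..b, u x = 0) →
      ∀ x ∈ Icc (-δ) δ, u x = 0 := by
    intro u hu hI
    have hint : IntervalIntegrable u volume (-δ) δ := hu.intervalIntegrable_of_Icc (by linarith)
    intro x hx
    have hcl : closure (Ioo (-δ) δ) = Icc (-δ) δ := closure_Ioo (by linarith)
    refine Set.EqOn.of_subset_closure (f := u) (g := fun _ => 0) ?_ hu continuousOn_const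
      Ioo_subset_Icc_self hcl.symm.subset hx
    intro z hz
    have hd1 : HasDerivAt (fun z => ∫ x in (-δ)..z, u x) (u z) z := by
      refine intervalIntegral.integral_hasDerivAt_right
        (hint.mono_set ?_) ?_ (hu.continuousAt (Icc_mem_nhds hz.1 hz.2))
      · rw [uIcc_of_le hz.1.le, uIcc_of_le (by linarith)]
        exact Icc_subset_Icc_right hz.2.le
      · exact (hu.mono Ioo_subset_Icc_self).stronglyMeasurableAtFilter isOpen_Ioo z hz
    have hev : (fun z => ∫ x in (-δ)..z, u x) =ᶠ[𝓝 z] fun _ => 0 := by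
      filter_upwards [isOpen_Ioo.mem_nhds hz] with w hw
      exact hI _ _ ⟨le_rfl, by linarith⟩ (Ioo_subset_Icc_self hw) hw.1.le
    exact hd1.unique ((hasDerivAt_const z (0 : ℝ)).congr_of_eventuallyEq hev)
  have z0 : (0 : ℝ) ∈ Icc (-δ) δ := ⟨by linarith, hδ.le⟩
  have contΨ : ∀ {u : ℝ → ℝ × ℝ}, Continuous u →
      (∀ x ∈ Icc (-δ) δ, u x ∈ closedBall (0 : ℝ × ℝ) δ) →
      ContinuousOn (fun x => Ψ (u x)) (Icc (-δ) δ) := fun hu hm =>
    hΨ.continuousOn.comp hu.continuousOn hm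
  have ind1 : ∀ s ∈ Icc (-δ) δ, ∀ c d, c ∈ Icc (-δ) δ → d ∈ Icc (-δ) δ → c ≤ d →
      (Ψ (s, d)).1 - (Ψ (s, c)).1 = 0 := by
    intro s hs c d hc hd' hcd
    refine zero_of (u := fun s => (Ψ (s, d)).1 - (Ψ (s, c)).1) ?_ ?_ s hs
    · exact ((contΨ (by fun_prop) fun x hx => mem hx hd').fst).sub
        ((contΨ (by fun_prop) fun x hx => mem hx hc).fst)
    · intro a b ha hb hab
      have sub : ∀ x ∈ Icc a b, x ∈ Icc (-δ) δ := fun x hx =>
        ⟨ha.1.trans hx.1, hx.2.trans hb.2⟩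
      have h1 := lim _ π1 (fun s => (s, d)) (fun s => (s, c)) a b (by fun_prop) (by fun_prop) hab
        (fun x hx => mem (sub x hx) hd') (fun x hx => mem (sub x hx) hc)
      exact tendsto_nhds_unique h1 (squeeze_zero_norm
        (fun n => (hrb n a b c d ha hb hc hd' hab hcd).1) (small _))
  have ind2 : ∀ t ∈ Icc (-δ) δ, ∀ a b, a ∈ Icc (-δ) δ → b ∈ Icc (-δ) δ → a ≤ b →
      (Ψ (b, t)).2 - (Ψ (a, t)).2 = 0 := by
    intro t ht a b ha hb hab
    refine zero_of (u := fun t => (Ψ (b, t)).2 - (Ψ (a, t)).2) ?_ ?_ t ht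
    · exact ((contΨ (by fun_prop) fun x hx => mem hb hx).snd).sub
        ((contΨ (by fun_prop) fun x hx => mem ha hx).snd)
    · intro c d hc hd' hcd
      have sub : ∀ x ∈ Icc c d, x ∈ Icc (-δ) δ := fun x hx =>
        ⟨hc.1.trans hx.1, hx.2.trans hd'.2⟩
      have h1 := lim _ π2 (fun t => (b, t)) (fun t => (a, t)) c d (by fun_prop) (by fun_prop) hcd
        (fun x hx => mem hb (sub x hx)) (fun x hx => mem ha (sub x hx))
      exact tendsto_nhds_unique h1 (squeeze_zero_norm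
        (fun n => (hrb n a b c d ha hb hc hd' hab hcd).2.1) (small _))
  have f1 : ∀ s ∈ Icc (-δ) δ, ∀ t ∈ Icc (-δ) δ, (Ψ (s, t)).1 = (Ψ (s, 0)).1 := by
    intro s hs t ht
    rcases le_total 0 t with h | h
    · linarith [ind1 s hs 0 t z0 ht h]
    · linarith [ind1 s hs t 0 ht z0 h]
  have f2 : ∀ s ∈ Icc (-δ) δ, ∀ t ∈ Icc (-δ) δ, (Ψ (s, t)).2 = (Ψ (0, t)).2 := by
    intro s hs t ht
    rcases le_total 0 s with h | h
    · linarith [ind2 t ht 0 s z0 hs h]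
    · linarith [ind2 t ht s 0 hs z0 h]
  set f : ℝ → ℝ := fun s => (Ψ (s, 0)).1
  set g : ℝ → ℝ := fun t => (Ψ (0, t)).2
  have mix : ∀ a b c d, a ∈ Icc (-δ) δ → b ∈ Icc (-δ) δ → c ∈ Icc (-δ) δ →
      d ∈ Icc (-δ) δ → a ≤ b → c ≤ d → (d - c) * (f b - f a) = (b - a) * (g d - g c) := by
    intro a b c d ha hb hc hd' hab hcd
    have subt : ∀ x ∈ Icc c d, x ∈ Icc (-δ) δ := fun x hx =>
      ⟨hc.1.trans hx.1, hx.2.trans hd'.2⟩
    have subs : ∀ x ∈ Icc a b, x ∈ Icc (-δ) δ := fun x hx =>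
      ⟨ha.1.trans hx.1, hx.2.trans hb.2⟩
    have h1 := lim _ π1 (fun t => (b, t)) (fun t => (a, t)) c d (by fun_prop) (by fun_prop) hcd
      (fun x hx => mem hb (subt x hx)) (fun x hx => mem ha (subt x hx))
    have h2 := lim _ π2 (fun s => (s, d)) (fun s => (s, c)) a b (by fun_prop) (by fun_prop) hab
      (fun x hx => mem (subs x hx) hd') (fun x hx => mem (subs x hx) hc)
    have h3 : _ = (0 : ℝ) := tendsto_nhds_unique (h1.sub h2) (squeeze_zero_norm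
      (fun n => (hrb n a b c d ha hb hc hd' hab hcd).2.2) (small _))
    have e1 : ∫ t in c..d, ((Ψ (b, t)).1 - (Ψ (a, t)).1) = (d - c) * (f b - f a) := by
      rw [intervalIntegral.integral_congr (g := fun _ => f b - f a)]
      · simp [intervalIntegral.integral_const, smul_eq_mul]; ring
      · intro x hx
        rw [uIcc_of_le hcd] at hx
        simp only [f]
        rw [f1 b hb x (subt x hx), f1 a ha x (subt x hx)]
    have e2 : ∫ s in a..b, ((Ψ (s, d)).2 - (Ψ (s, c)).2) = (b - a) * (g d - g c) := by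
      rw [intervalIntegral.integral_congr (g := fun _ => g d - g c)]
      · simp [intervalIntegral.integral_const, smul_eq_mul]; ring
      · intro x hx
        rw [uIcc_of_le hab] at hx
        simp only [g]
        rw [f2 x (subs x hx) d hd', f2 x (subs x hx) c hc]
    simp only [ContinuousLinearMap.coe_fst', ContinuousLinearMap.coe_snd'] at h3
    linarith
  have dd : δ ∈ Icc (-δ) δ := ⟨by linarith, le_rfl⟩
  set l := (g δ - g 0) / δ
  have lf : ∀ s ∈ Icc (-δ) δ, f s - f 0 = l * s := by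
    intro s hs
    rcases le_total 0 s with h | h
    · have := mix 0 s 0 δ z0 hs z0 dd h hδ.le
      simp only [l]; field_simp; linarith
    · have := mix s 0 0 δ hs z0 z0 dd h hδ.le
      simp only [l]; field_simp; linarith
  have lg : ∀ t ∈ Icc (-δ) δ, g t - g 0 = l * t := by
    intro t ht
    have hfδ := lf δ dd
    rcases le_total 0 t with h | h
    · have := mix 0 δ 0 t z0 dd z0 ht hδ.le h
      rw [hfδ] at this
      refine mul_left_cancel₀ hδ.ne' ?_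
      linarith
    · have := mix 0 δ t 0 z0 dd ht z0 hδ.le h
      rw [hfδ] at this
      refine mul_left_cancel₀ hδ.ne' ?_
      linarith
  refine ⟨l, fun p hp => ?_⟩
  simp only [mem_closedBall_zero_iff, Prod.norm_def, Real.norm_eq_abs, max_le_iff, abs_le] at hp
  obtain ⟨s, t⟩ := p
  have e0 : Ψ (0 : ℝ × ℝ) = Ψ (0, 0) := rfl
  refine Prod.ext ?_ ?_
  · simp only [Prod.fst_sub, Prod.smul_fst, smul_eq_mul, e0]
    rw [f1 s hp.1 t hp.2]
    exact lf s hp.1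
  · simp only [Prod.snd_sub, Prod.smul_snd, smul_eq_mul, e0]
    rw [f2 s hp.1 t hp.2]
    exact lg t hp.2

end Vale.Agent.P084.Full.Trap
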