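import Mathlib.Analysis.Calculus.Rademacher
import Mathlib.Analysis.Calculus.FDeriv.Symmetric
import Mathlib.MeasureTheory.Function.Jacobian
import Mathlib.MeasureTheory.Measure.Hausdorff
import Mathlib.Analysis.Convex.Function
import Mathlib.Analysis.Convex.Deriv
import Mathlib.Analysis.Calculus.LocalExtr.Basic
import Vale.Agent.P084.Full.NoTrapCore

/-! A map whose derivative is a multiple of a planar convex gradient is affine in that gradient
near a compact trap. -/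

namespace Vale.Agent.P084.Full

namespace Trap

open MeasureTheory Metric Set Filter Topology

/-- The inner product of the plane, as functionals. -/
noncomputable def lin : ℝ × ℝ →L[ℝ] (ℝ × ℝ →L[ℝ] ℝ) :=
  (ContinuousLinearMap.fst ℝ ℝ ℝ).smulRight (ContinuousLinearMap.fst ℝ ℝ ℝ) +
    (ContinuousLinearMap.snd ℝ ℝ ℝ).smulRight (ContinuousLinearMap.snd ℝ ℝ ℝ)

lemma lin_apply (p v : ℝ × ℝ) : lin p v = p.1 * v.1 + p.2 * v.2 := by
  simp [lin]

lemma lin_le (p v : ℝ × ℝ) : |lin p v| ≤ 2 * ‖p‖ * ‖v‖ := by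
  rw [lin_apply]
  refine (abs_add_le _ _).trans ?_
  rw [abs_mul, abs_mul]
  have h1 : |p.1| ≤ ‖p‖ := norm_fst_le p
  have h2 : |p.2| ≤ ‖p‖ := norm_snd_le p
  have h3 : |v.1| ≤ ‖v‖ := norm_fst_le v
  have h4 : |v.2| ≤ ‖v‖ := norm_snd_le v
  nlinarith [mul_le_mul h1 h3 (abs_nonneg _) (norm_nonneg _),
    mul_le_mul h2 h4 (abs_nonneg _) (norm_nonneg _)]

lemma sq_le (v : ℝ × ℝ) : ‖v‖ ^ 2 ≤ lin v v := by
  rw [lin_apply, Prod.norm_def, Real.norm_eq_abs, Real.norm_eq_abs]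
  rcases max_choice |v.1| |v.2| with h | h <;>
    (rw [h, sq_abs]; nlinarith [sq_nonneg v.1, sq_nonneg v.2])

lemma est {A M B : ℝ × ℝ →L[ℝ] ℝ × ℝ} {ε ζ Z : ℝ} (hε : 0 < ε) (hζ : |ζ| ≤ Z)
    (hB : B = ζ • A) (hsym : ∀ v w, lin (A v) w = lin (A w) v) (hpos : ∀ v, 0 ≤ lin (A v) v)
    (hM : ∀ v, A (M v) + ε • M v = v) : Est Z ε M (B.comp M) := by
  set u := M (1, 0)
  set w := M (0, 1)
  have hu1 : (A u).1 + ε * u.1 = 1 := congrArg Prod.fst (hM (1, 0))
  have hu2 : (A u).2 + ε * u.2 = 0 := congrArg Prod.snd (hM (1, 0))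
  have hw1 : (A w).1 + ε * w.1 = 0 := congrArg Prod.fst (hM (0, 1))
  have hw2 : (A w).2 + ε * w.2 = 1 := congrArg Prod.snd (hM (0, 1))
  have su := hpos u
  have sw := hpos w
  have sp := hpos (u + w)
  have sm := hpos (u - w)
  have suw := hsym u w
  simp [lin_apply] at su sw sp sm suw
  have qu : ε * u.1 ^ 2 + ε * u.2 ^ 2 ≤ u.1 := by
    linear_combination su + u.1 * hu1 + u.2 * hu2
  have qw : ε * w.1 ^ 2 + ε * w.2 ^ 2 ≤ w.2 := by
    linear_combination sw + w.1 * hw1 + w.2 * hw2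
  have sym : u.2 = w.1 := by
    linear_combination -(u.1 * hw1) - u.2 * hw2 + w.1 * hu1 + w.2 * hu2 - suw
  have hu : 0 ≤ u.1 := le_trans (by positivity) qu
  have hw : 0 ≤ w.2 := le_trans (by positivity) qw
  have eu : ε * u.1 ≤ 1 := by
    by_contra! h
    nlinarith [mul_nonneg hε.le (sq_nonneg u.2)]
  have ew : ε * w.2 ≤ 1 := by
    by_contra! h
    nlinarith [mul_nonneg hε.le (sq_nonneg w.1)]
  have hx1 : 2 * w.1 ≤ u.1 + w.2 := by
    linear_combination sm + mul_nonneg hε.le (sq_nonneg (u.1 - w.1)) +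
      mul_nonneg hε.le (sq_nonneg (u.2 - w.2)) + (u.1 - w.1) * (hu1 - hw1) +
      (u.2 - w.2) * (hu2 - hw2) - sym
  have hx2 : -(2 * w.1) ≤ u.1 + w.2 := by
    linear_combination sp + mul_nonneg hε.le (sq_nonneg (u.1 + w.1)) +
      mul_nonneg hε.le (sq_nonneg (u.2 + w.2)) + (u.1 + w.1) * (hu1 + hw1) +
      (u.2 + w.2) * (hu2 + hw2) + sym
  have hw' : |w.1| ≤ u.1 + w.2 := abs_le.2 ⟨by linarith, by linarith⟩
  have hZ : 0 ≤ Z := (abs_nonneg _).trans hζ
  have e11 : ((B.comp M) (1, 0)).1 = ζ * (1 - ε * u.1) := by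
    change (B u).1 = _; rw [hB]; change ζ * (A u).1 = _; rw [← hu1]; ring
  have e21 : ((B.comp M) (1, 0)).2 = ζ * (-(ε * w.1)) := by
    change (B u).2 = _; rw [hB]; change ζ * (A u).2 = _
    rw [← sym]; linear_combination ζ * hu2
  have e12 : ((B.comp M) (0, 1)).1 = ζ * (-(ε * w.1)) := by
    change (B w).1 = _; rw [hB]; change ζ * (A w).1 = _; linear_combination ζ * hw1
  have e22 : ((B.comp M) (0, 1)).2 = ζ * (1 - ε * w.2) := by
    change (B w).2 = _; rw [hB]; change ζ * (A w).2 = _; rw [← hw2]; ring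
  have bd : ∀ x c : ℝ, |x| ≤ c → |ζ * x| ≤ Z * c := fun x c h => by
    rw [abs_mul]; exact mul_le_mul hζ h (abs_nonneg _) hZ
  have n1 : |(-(ε * w.1))| ≤ ε * (u.1 + w.2) := by
    rw [abs_neg, abs_mul, abs_of_pos hε]
    exact mul_le_mul_of_nonneg_left hw' hε.le
  have h0 : 0 ≤ ε * u.1 := mul_nonneg hε.le hu
  have h0' : 0 ≤ ε * w.2 := mul_nonneg hε.le hw
  refine ⟨?_, ?_, ?_, ?_, ?_, ?_, ?_⟩
  · rw [e11, mul_comm 2 Z]; exact bd _ _ (abs_le.2 ⟨by linarith, by linarith⟩)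
  · rw [e12, mul_comm 2 Z]; exact bd _ _ (n1.trans (by linarith))
  · rw [e21, mul_comm 2 Z]; exact bd _ _ (n1.trans (by linarith))
  · rw [e22, mul_comm 2 Z]; exact bd _ _ (abs_le.2 ⟨by linarith, by linarith⟩)
  · rw [e12, mul_assoc]; exact bd _ _ n1
  · rw [e21, mul_assoc]; exact bd _ _ n1
  · rw [e11, e22, mul_assoc, ← mul_sub]
    refine bd _ _ (abs_le.2 ⟨?_, ?_⟩) <;> linarith

lemma null_image {H : ℝ × ℝ → ℝ × ℝ} {L : NNReal} {s N : Set (ℝ × ℝ)}
    (hH : LipschitzOnWith L H s) (hN : N ⊆ s) (h0 : volume N = 0) : volume (H '' N) = 0 := by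
  rw [← hausdorffMeasure_prod_real] at h0 ⊢
  refine le_antisymm (((hH.mono hN).hausdorffMeasure_image_le (by norm_num)).trans ?_) zero_le
  rw [h0, mul_zero]

variable {O : Set (ℝ × ℝ)} {g : ℝ × ℝ → ℝ} {G : ℝ × ℝ → ℝ × ℝ}

lemma grad_le (hOc : Convex ℝ O) (hg : ∀ s ∈ O, HasFDerivAt g (lin (G s)) s)
    (hgc : ConvexOn ℝ O g) {x z : ℝ × ℝ} (hx : x ∈ O) (hz : z ∈ O) :
    g x + lin (G x) (z - x) ≤ g z := by
  have hl : HasDerivAt (fun t : ℝ => x + t • (z - x)) (z - x) (0 : ℝ) := by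
    simpa using ((hasDerivAt_id (0 : ℝ)).smul_const (z - x)).const_add x
  have hd : HasDerivAt (fun t : ℝ => g (x + t • (z - x))) (lin (G x) (z - x)) 0 :=
    HasFDerivAt.comp_hasDerivAt_of_eq (0 : ℝ) (hg x hx) hl (by simp)
  have hc : ConvexOn ℝ (Icc (0 : ℝ) 1) (fun t : ℝ => g (x + t • (z - x))) := by
    refine ⟨convex_Icc 0 1, fun a ha b hb p q hp hq hpq => ?_⟩
    have hm : ∀ t ∈ Icc (0 : ℝ) 1, x + t • (z - x) ∈ O := fun t ht =>
      hOc.add_smul_sub_mem hx hz ht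
    have := hgc.2 (hm a ha) (hm b hb) hp hq hpq
    have e : p • (x + a • (z - x)) + q • (x + b • (z - x)) =
        x + (p • a + q • b) • (z - x) := by
      have hq' : q = 1 - p := by linarith
      subst hq'; simp only [smul_eq_mul]; module
    rwa [e] at this
  have h := hc.le_slope_of_hasDerivAt (left_mem_Icc.2 zero_le_one)
    (right_mem_Icc.2 zero_le_one) one_pos hd
  simp [slope_def_field] at h
  rw [map_sub]
  linarith

lemma mono (hOc : Convex ℝ O) (hg : ∀ s ∈ O, HasFDerivAt g (lin (G s)) s)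
    (hgc : ConvexOn ℝ O g) {x z : ℝ × ℝ} (hx : x ∈ O) (hz : z ∈ O) :
    0 ≤ lin (G z - G x) (z - x) := by
  have h1 := grad_le hOc hg hgc hx hz
  have h2 := grad_le hOc hg hgc hz hx
  rw [← neg_sub z x, map_neg] at h2
  simp only [map_sub, sub_apply] at *
  linarith

lemma unique_sol (hOc : Convex ℝ O) (hg : ∀ s ∈ O, HasFDerivAt g (lin (G s)) s)
    (hgc : ConvexOn ℝ O g) {x z c p q : ℝ × ℝ} (hx : x ∈ O) (hz : z ∈ O) {ε : ℝ} (hε : 0 < ε)
    (h1 : G x + ε • (x - c) = p) (h2 : G z + ε • (z - c) = q) :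
    ‖z - x‖ ≤ 2 / ε * ‖q - p‖ := by
  have h := mono hOc hg hgc hx hz
  have e : G z - G x = (q - p) - ε • (z - x) := by rw [← h1, ← h2]; module
  rw [e, map_sub lin, map_smul lin, sub_apply, smul_apply, smul_eq_mul] at h
  have h3 := (le_abs_self _).trans (lin_le (q - p) (z - x))
  have h4 := mul_le_mul_of_nonneg_left (sq_le (z - x)) hε.le
  rw [div_mul_eq_mul_div, le_div_iff₀ hε]
  rcases eq_or_lt_of_le (norm_nonneg (z - x)) with h0 | h0
  · rw [← h0]; simp
  · exact le_of_mul_le_mul_right (by nlinarith) h0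

lemma sol (hOc : Convex ℝ O) (hg : ∀ s ∈ O, HasFDerivAt g (lin (G s)) s)
    (hgc : ConvexOn ℝ O g) (h0 : (0 : ℝ × ℝ) ∈ O) (hG0 : G 0 = 0)
    (hK : IsCompact {s ∈ O | g s = g 0}) {U : Set (ℝ × ℝ)} (hU : IsOpen U)
    (hKU : {s ∈ O | g s = g 0} ⊆ U) (hUO : U ⊆ O) :
    ∃ C : Set (ℝ × ℝ), IsCompact C ∧ C ⊆ U ∧ {s ∈ O | g s = g 0} ⊆ interior C ∧
      ∃ δ : ℝ, 0 < δ ∧ ∃ ε₀ : ℝ, 0 < ε₀ ∧ ∀ p ∈ Sq δ, ∀ ε : ℝ, 0 ≤ ε → ε < ε₀ →
        ∀ c ∈ C, ∃ y ∈ C, G y + ε • (y - c) = p := by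
  obtain ⟨C, hC, hKC, hCU⟩ := exists_compact_between hK hU hKU
  refine ⟨C, hC, hCU, hKC, ?_⟩
  have h0C : (0 : ℝ × ℝ) ∈ C := interior_subset (hKC ⟨h0, rfl⟩)
  obtain ⟨R₀, hR₀⟩ := hC.exists_bound_of_continuousOn (f := fun x => x) continuousOn_id
  set R := max R₀ 1
  have hR : ∀ x ∈ C, ‖x‖ ≤ R := fun x hx => (hR₀ x hx).trans (le_max_left _ _)
  have hR1 : 1 ≤ R := le_max_right _ _
  have hgcont : ContinuousOn g C := fun x hx =>
    (hg x (hUO (hCU hx))).continuousAt.continuousWithinAt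
  obtain ⟨m, hm, hfr⟩ : ∃ m > 0, ∀ x ∈ C, x ∉ interior C → g 0 + m ≤ g x := by
    rcases (C \ interior C).eq_empty_or_nonempty with he | hne
    · exact ⟨1, one_pos, fun x hx hxi => absurd (he.le ⟨hx, hxi⟩) id⟩
    · obtain ⟨z, hz, hmin⟩ :=
        (hC.diff isOpen_interior).exists_isMinOn hne (hgcont.mono sdiff_subset)
      refine ⟨g z - g 0, ?_, fun x hx hxi => ?_⟩
      · have hzO : z ∈ O := hUO (hCU hz.1)
        have h := grad_le hOc hg hgc h0 hzO
        simp [hG0] at h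
        exact sub_pos.2 (lt_of_le_of_ne h fun e => hz.2 (hKC ⟨hzO, e.symm⟩))
      · linarith [isMinOn_iff.1 hmin x ⟨hx, hxi⟩]
  refine ⟨m / (8 * R), by positivity, m / (8 * R ^ 2), by positivity, ?_⟩
  intro p hp ε hε hε' c hc
  rw [Sq, mem_ball_zero_iff] at hp
  set h : ℝ × ℝ → ℝ := fun s => g s - lin p s + ε / 2 * ((s.1 - c.1) ^ 2 + (s.2 - c.2) ^ 2)
  have hd : ∀ s ∈ O, HasFDerivAt h (lin (G s - p + ε • (s - c))) s := by
    intro s hs
    have a1 : HasFDerivAt (fun s : ℝ × ℝ => s.1 - c.1) (ContinuousLinearMap.fst ℝ ℝ ℝ) s :=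
      hasFDerivAt_fst.sub_const _
    have a2 : HasFDerivAt (fun s : ℝ × ℝ => s.2 - c.2) (ContinuousLinearMap.snd ℝ ℝ ℝ) s :=
      hasFDerivAt_snd.sub_const _
    have := ((hg s hs).sub (lin p).hasFDerivAt).add (((a1.pow 2).add (a2.pow 2)).const_mul (ε / 2))
    refine this.congr_fderiv ?_
    ext <;> simp [lin_apply] <;> ring
  obtain ⟨y, hy, hmin⟩ := hC.exists_isMinOn ⟨0, h0C⟩
    (fun x hx => ((hd x (hUO (hCU hx))).continuousAt.continuousWithinAt))
  have hyi : y ∈ interior C := by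
    by_contra hni
    have h1 := hfr y hy hni
    have h2 : h y ≤ h 0 := isMinOn_iff.1 hmin 0 h0C
    simp only [h, map_zero, Prod.fst_zero, Prod.snd_zero, zero_sub, neg_sq, sub_zero] at h2
    have h3 := (le_abs_self _).trans (lin_le p y)
    have hc1 : |c.1| ≤ R := (norm_fst_le c).trans (hR c hc)
    have hc2 : |c.2| ≤ R := (norm_snd_le c).trans (hR c hc)
    have h4 : c.1 ^ 2 + c.2 ^ 2 ≤ 2 * R ^ 2 := by
      nlinarith [sq_abs c.1, sq_abs c.2, abs_nonneg c.1, abs_nonneg c.2]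
    have h5 : ‖p‖ * (8 * R) < m := (lt_div_iff₀ (by positivity)).1 hp
    have h6 : ε * (8 * R ^ 2) < m := (lt_div_iff₀ (by positivity)).1 hε'
    have h7 := mul_le_mul_of_nonneg_left (hR y hy) (norm_nonneg p)
    have h8 : 0 ≤ ε / 2 * ((y.1 - c.1) ^ 2 + (y.2 - c.2) ^ 2) := by positivity
    have h9 := mul_le_mul_of_nonneg_left h4 (half_pos_or hε)
    nlinarith
  refine ⟨y, hy, ?_⟩
  have hloc : IsLocalMin h y := hmin.isLocalMin (mem_interior_iff_mem_nhds.1 hyi)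
  have hz := hloc.hasFDerivAt_eq_zero (hd y (hUO (hCU hy)))
  have z1 := DFunLike.congr_fun hz ((1 : ℝ), (0 : ℝ))
  have z2 := DFunLike.congr_fun hz ((0 : ℝ), (1 : ℝ))
  simp [lin_apply] at z1 z2
  refine Prod.ext ?_ ?_ <;> simp <;> linarith
where half_pos_or {ε : ℝ} (h : 0 ≤ ε) : 0 ≤ ε / 2 := by linarith

end Trap

open MeasureTheory Metric Set Filter Topology Trap in
theorem noTrap {O : Set (ℝ × ℝ)} (hO : IsOpen O) (hOc : Convex ℝ O) {g : ℝ × ℝ → ℝ}
    {G F : ℝ × ℝ → ℝ × ℝ} {K : NNReal} {Z : ℝ}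
    (hg : ∀ s ∈ O, HasFDerivAt g
      ((G s).1 • ContinuousLinearMap.fst ℝ ℝ ℝ + (G s).2 • ContinuousLinearMap.snd ℝ ℝ ℝ) s)
    (hgc : ConvexOn ℝ O g) (hG : LipschitzOnWith K G O) (hF : LipschitzOnWith K F O)
    (h0 : (0 : ℝ × ℝ) ∈ O) (hG0 : G 0 = 0) (hK : IsCompact {s ∈ O | g s = g 0})
    (hDF : ∀ s ∈ O, ∀ A B : ℝ × ℝ →L[ℝ] ℝ × ℝ, HasFDerivAt G A s → HasFDerivAt F B s →
      ∃ ζ : ℝ, |ζ| ≤ Z ∧ B = ζ • A) :
    (∃ O' : Set (ℝ × ℝ), IsOpen O' ∧ {s ∈ O | g s = g 0} ⊆ O' ∧ O' ⊆ O ∧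
      ∃ l : ℝ, ∀ s ∈ O', F s - F 0 = l • G s) ∧
    ∀ O₂ : Set (ℝ × ℝ), IsOpen O₂ → {s ∈ O | g s = g 0} ⊆ O₂ → volume (G '' (O₂ ∩ O)) ≠ 0 := by
  have := Trap.haar
  have hg' : ∀ s ∈ O, HasFDerivAt g (lin (G s)) s := fun s hs => by
    refine (hg s hs).congr_fderiv ?_
    ext <;> simp [lin]
  have hGK : ∀ s ∈ O, g s = g 0 → G s = 0 := by
    intro s hs he
    have hloc : IsLocalMin g s := by
      filter_upwards [hO.mem_nhds hs] with z hz
      have h := grad_le hOc hg' hgc h0 hz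
      simp [hG0] at h
      rw [he]; exact h
    have hz := hloc.hasFDerivAt_eq_zero (hg' s hs)
    refine Prod.ext ?_ ?_
    · simpa [lin_apply] using DFunLike.congr_fun hz ((1 : ℝ), (0 : ℝ))
    · simpa [lin_apply] using DFunLike.congr_fun hz ((0 : ℝ), (1 : ℝ))
  constructor
  swap
  · intro O₂ hO₂ hKO₂
    obtain ⟨C, hC, hCU, hKC, δ, hδ, ε₀, hε₀, hex⟩ := sol hOc hg' hgc h0 hG0 hK
      (hO₂.inter hO) (fun s hs => ⟨hKO₂ hs, hs.1⟩) inter_subset_right
    have hsub : Sq δ ⊆ G '' (O₂ ∩ O) := fun p hp => by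
      obtain ⟨y, hy, he⟩ := hex p hp 0 le_rfl hε₀ 0 (interior_subset (hKC ⟨h0, rfl⟩))
      exact ⟨y, hCU hy, by simpa using he⟩
    intro hz
    exact (isOpen_ball.measure_pos volume (nonempty_ball.2 hδ)).ne' (measure_mono_null hsub hz)
  obtain ⟨C, hC, hCO, hKC, r, hr, ε₀, hε₀, hex⟩ :=
    sol hOc hg' hgc h0 hG0 hK hO (fun s hs => hs.1) subset_rfl
  have h0C : (0 : ℝ × ℝ) ∈ C := interior_subset (hKC ⟨h0, rfl⟩)
  obtain ⟨R, hR⟩ := hC.exists_bound_of_continuousOn (f := fun x => x) continuousOn_id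
  set Z' := max Z 0
  set ε : ℕ → ℝ := fun n => ε₀ / (n + 2) with hεdef
  have hεpos : ∀ n, 0 < ε n := fun n => by simp only [hεdef]; positivity
  have hεlt : ∀ n, ε n < ε₀ := fun n => by
    simp only [hεdef]; exact div_lt_self hε₀ (by linarith [n.cast_nonneg (α := ℝ)])
  have hεlim : Tendsto ε atTop (𝓝 0) :=
    tendsto_const_nhds.div_atTop (tendsto_atTop_add_const_right _ _ tendsto_natCast_atTop_atTop)
  choose! Y hYC hY using fun (n : ℕ) c (hc : c ∈ C) p (hp : p ∈ Sq r) =>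
    hex p hp (ε n) (hεpos n).le (hεlt n) c hc
  have hYlip : ∀ n, ∀ c ∈ C, LipschitzOnWith (Real.toNNReal (2 / ε n)) (Y n c) (Sq r) := by
    intro n c hc
    refine LipschitzOnWith.of_dist_le_mul fun p hp q hq => ?_
    rw [Real.coe_toNNReal _ (div_nonneg zero_le_two (hεpos n).le), dist_eq_norm, dist_eq_norm]
    exact unique_sol hOc hg' hgc (hCO (hYC n c hc q hq)) (hCO (hYC n c hc p hp)) (hεpos n)
      (hY n c hc q hq) (hY n c hc p hp)
  have hΦlip : ∀ n, ∀ c ∈ C, LipschitzOnWith (K * Real.toNNReal (2 / ε n))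
      (fun p => F (Y n c p)) (Sq r) := fun n c hc =>
    hF.comp (hYlip n c hc) fun p hp => hCO (hYC n c hc p hp)
  set N : Set (ℝ × ℝ) := {s | s ∈ O ∧ ¬ (DifferentiableAt ℝ G s ∧ DifferentiableAt ℝ F s)}
  have hN : volume N = 0 := by
    have h1 : ∀ᵐ s : ℝ × ℝ, s ∈ O → DifferentiableAt ℝ G s ∧ DifferentiableAt ℝ F s := by
      filter_upwards [hG.ae_differentiableWithinAt_of_mem, hF.ae_differentiableWithinAt_of_mem]
        with s a b hs
      exact ⟨(a hs).differentiableAt (hO.mem_nhds hs), (b hs).differentiableAt (hO.mem_nhds hs)⟩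
    rw [ae_iff] at h1
    exact measure_mono_null (fun s hs => fun h => hs.2 (h hs.1)) h1
  have hd : ∀ n, ∀ c ∈ C, ∀ᵐ p : ℝ × ℝ, p ∈ Sq r → ∃ M B, HasFDerivAt (Y n c) M p ∧
      HasFDerivAt (fun p => F (Y n c p)) B p ∧ Est Z' (ε n) M B := by
    intro n c hc
    have hH : LipschitzOnWith (K + Real.toNNReal (ε n)) (fun s => G s + ε n • (s - c)) O := by
      refine LipschitzOnWith.of_dist_le_mul fun s hs t ht => ?_
      rw [dist_eq_norm, NNReal.coe_add, Real.coe_toNNReal _ (hεpos n).le, add_mul]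
      have e : G s + ε n • (s - c) - (G t + ε n • (t - c)) = (G s - G t) + ε n • (s - t) := by
        module
      rw [e]
      refine (norm_add_le _ _).trans (add_le_add ?_ ?_)
      · rw [← dist_eq_norm]; exact hG.dist_le_mul s hs t ht
      · rw [norm_smul, Real.norm_eq_abs, abs_of_pos (hεpos n), dist_eq_norm]
    have hnull := null_image hH (fun s hs => hs.1) hN
    have h2 : ∀ᵐ p : ℝ × ℝ, p ∈ Sq r → Y n c p ∉ N := by
      rw [ae_iff]
      refine measure_mono_null (fun p hp => ?_) hnull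
      simp only [mem_ofPred_eq, Classical.not_imp, not_not] at hp
      exact ⟨_, hp.2, hY n c hc p hp.1⟩
    filter_upwards [(hYlip n c hc).ae_differentiableWithinAt_of_mem, h2] with p h1 h2 hp
    have hyO : Y n c p ∈ O := hCO (hYC n c hc p hp)
    obtain ⟨hGd, hFd⟩ := not_not.1 fun h => h2 hp ⟨hyO, h⟩
    have hM := ((h1 hp).differentiableAt (isOpen_ball.mem_nhds hp)).hasFDerivAt
    set M := fderiv ℝ (Y n c) p
    set A := fderiv ℝ G (Y n c p)
    obtain ⟨ζ, hζ, hB⟩ := hDF _ hyO _ _ hGd.hasFDerivAt hFd.hasFDerivAt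
    refine ⟨M, _, hM, hFd.hasFDerivAt.comp p hM,
      est (hεpos n) (hζ.trans (le_max_left _ _)) hB ?_ ?_ ?_⟩
    · intro v w
      have hf : ∀ᶠ s in 𝓝 (Y n c p), HasFDerivAt g (lin (G s)) s := by
        filter_upwards [hO.mem_nhds hyO] with s hs using hg' s hs
      exact second_derivative_symmetric_of_eventually hf
        (lin.hasFDerivAt.comp _ hGd.hasFDerivAt) v w
    · intro v
      have hl : HasDerivAt (fun t : ℝ => Y n c p + t • v) v (0 : ℝ) := by
        simpa using ((hasDerivAt_id (0 : ℝ)).smul_const v).const_add (Y n c p)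
      have hGl : HasDerivAt (fun t : ℝ => lin (G (Y n c p + t • v)) v) (lin (A v) v) 0 := by
        have h3 := HasFDerivAt.comp_hasDerivAt_of_eq (0 : ℝ) hGd.hasFDerivAt hl (by simp)
        exact ((lin.flip v).hasFDerivAt.comp_hasDerivAt (0 : ℝ) h3)
      have hev : ∀ᶠ t in 𝓝[>] (0 : ℝ), Y n c p + t • v ∈ O :=
        (hl.continuousAt.tendsto.eventually (by simpa using hO.mem_nhds hyO)).filter_mono
          nhdsWithin_le_nhds
      refine ge_of_tendsto hGl.tendsto_slope_zero_right ?_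
      filter_upwards [hev, self_mem_nhdsWithin] with t ht ht0
      have h4 := mono hOc hg' hgc hyO ht
      rw [add_sub_cancel_left, map_smul, smul_eq_mul] at h4
      have h5 := (mul_nonneg_iff_of_pos_left (mem_Ioi.1 ht0)).1 h4
      simp only [zero_add, zero_smul, add_zero, smul_eq_mul]
      rw [map_sub, sub_apply] at h5
      exact mul_nonneg (inv_nonneg.2 (mem_Ioi.1 ht0).le) h5
    · intro v
      have h3 : HasFDerivAt (fun q => G (Y n c q) + ε n • (Y n c q - c))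
          (A.comp M + ε n • M) p :=
        (hGd.hasFDerivAt.comp p hM).add ((hM.sub_const c).const_smul (ε n))
      have hev : (fun q => G (Y n c q) + ε n • (Y n c q - c)) =ᶠ[𝓝 p] id := by
        filter_upwards [isOpen_ball.mem_nhds hp] with q hq using hY n c hc q hq
      exact DFunLike.congr_fun (h3.unique ((hasFDerivAt_id p).congr_of_eventuallyEq hev)) v
  have hZ' : 0 ≤ Z' := le_max_right _ _
  set δ := r / 2 with hδdef
  have hδ : 0 < δ := half_pos hr
  have hδ' : 3 * r / 4 < r := by linarith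
  -- values where the gradient has a single preimage
  set Bad : Set (ℝ × ℝ) := {q | ∃ x ∈ C, ∃ z ∈ C, x ≠ z ∧ G x = q ∧ G z = q}
  have hBad : volume Bad = 0 := by
    set D : Set (ℝ × ℝ) := {s | s ∈ O ∧ DifferentiableAt ℝ G s ∧ (fderiv ℝ G s).det = 0}
    have hD : volume (G '' D) = 0 := addHaar_image_eq_zero_of_det_fderivWithin_eq_zero
      (f' := fderiv ℝ G) volume (fun s hs => hs.2.1.hasFDerivAt.hasFDerivWithinAt)
      fun s hs => hs.2.2
    refine measure_mono_null ?_ (measure_union_null hD (null_image hG (fun s hs => hs.1) hN))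
    rintro q ⟨x, hx, z, hz, hne, hxq, hzq⟩
    have hseg : ∀ t ∈ Icc (0 : ℝ) 1, x + t • (z - x) ∈ O ∧ G (x + t • (z - x)) = q := by
      intro t ht
      have hm : x + t • (z - x) ∈ O := hOc.add_smul_sub_mem (hCO hx) (hCO hz) ht
      refine ⟨hm, ?_⟩
      have hmx := grad_le hOc hg' hgc (hCO hx) (hCO hz)
      have hmz := grad_le hOc hg' hgc (hCO hz) (hCO hx)
      have e : x + t • (z - x) = (1 - t) • x + t • z := by module
      have hconv := hgc.2 (hCO hx) (hCO hz) (sub_nonneg.2 ht.2) ht.1 (by ring)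
      have hloc : IsLocalMin (fun s => g s - lin q s) (x + t • (z - x)) := by
        filter_upwards [hO.mem_nhds hm] with s hs
        have h1 := grad_le hOc hg' hgc (hCO hx) hs
        rw [hxq] at h1 hmx
        rw [hzq] at hmz
        rw [← e] at hconv
        simp only [map_sub, map_add, map_smul, smul_eq_mul] at *
        have h2 : g z = g x + (lin q z - lin q x) := by linarith
        rw [h2] at hconv
        linarith
      have hz0 := hloc.hasFDerivAt_eq_zero ((hg' _ hm).sub (lin q).hasFDerivAt)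
      refine Prod.ext ?_ ?_
      · have := DFunLike.congr_fun hz0 ((1 : ℝ), (0 : ℝ))
        simp [lin_apply] at this; linarith
      · have := DFunLike.congr_fun hz0 ((0 : ℝ), (1 : ℝ))
        simp [lin_apply] at this; linarith
    obtain ⟨hm, hmq⟩ := hseg (1 / 2) ⟨by norm_num, by norm_num⟩
    by_cases hdiff : DifferentiableAt ℝ G (x + (1 / 2 : ℝ) • (z - x))
    · left
      refine ⟨_, ⟨hm, hdiff, ?_⟩, hmq⟩
      have hl : HasDerivAt (fun t : ℝ => x + t • (z - x)) (z - x) (1 / 2 : ℝ) := by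
        simpa using ((hasDerivAt_id (1 / 2 : ℝ)).smul_const (z - x)).const_add x
      have h3 := hdiff.hasFDerivAt.comp_hasDerivAt (1 / 2 : ℝ) hl
      have hev : (G ∘ fun t : ℝ => x + t • (z - x)) =ᶠ[𝓝 (1 / 2 : ℝ)] fun _ => q := by
        filter_upwards [Icc_mem_nhds (show (0 : ℝ) < 1 / 2 by norm_num)
          (show (1 / 2 : ℝ) < 1 by norm_num)] with t ht using (hseg t ht).2
      have h4 := h3.unique ((hasDerivAt_const (1 / 2 : ℝ) q).congr_of_eventuallyEq hev)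
      rw [ContinuousLinearMap.det, LinearMap.det_eq_zero_iff_ker_ne_bot]
      intro hker
      exact sub_ne_zero.2 hne.symm ((LinearMap.ker_eq_bot'.1 hker) _ h4)
    · right
      exact ⟨_, ⟨hm, fun h => hdiff h.1⟩, hmq⟩
  have hnear : ∀ q ∈ Sq r, q ∉ Bad → ∀ x ∈ C, G x = q → ∀ c ∈ C,
      Tendsto (fun n => Y n c q) atTop (𝓝 x) := by
    intro q hq hgood x hx hxq c hc
    refine tendsto_of_subseq_tendsto fun ns hns => ?_
    obtain ⟨z, hz, ms, hms, hlim⟩ :=
      hC.tendsto_subseq (fun n => hYC (ns n) c hc q hq)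
    refine ⟨ms, ?_⟩
    suffices z = x by rw [← this]; exact hlim
    by_contra hne
    refine hgood ⟨z, hz, x, hx, hne, ?_, hxq⟩
    have h1 : Tendsto (fun n => G (Y (ns (ms n)) c q)) atTop (𝓝 (G z)) :=
      ((hG.continuousOn.continuousAt (hO.mem_nhds (hCO hz))).tendsto).comp hlim
    have h2 : Tendsto (fun n => q - ε (ns (ms n)) • (Y (ns (ms n)) c q - c)) atTop
        (𝓝 (q - (0 : ℝ) • (z - c))) :=
      tendsto_const_nhds.sub ((hεlim.comp (hns.comp hms.tendsto_atTop)).smul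
        (hlim.sub tendsto_const_nhds))
    rw [zero_smul, sub_zero] at h2
    refine tendsto_nhds_unique h1 (h2.congr fun n => ?_)
    have := hY (ns (ms n)) c hc q hq
    linear_combination (norm := module) -(1 : ℝ) • this
  have hlim : ∀ c ∈ C, G c ∈ closedBall (0 : ℝ × ℝ) δ →
      Tendsto (fun n => F (Y n 0 (G c))) atTop (𝓝 (F c)) := by
    intro c hc hp
    have hpr : G c ∈ Sq r := closedBall_subset_ball (by linarith) hp
    have hfix : ∀ n, Y n c (G c) = c := fun n => by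
      have h := unique_sol hOc hg' hgc (p := G c) (q := G c) (hCO hc)
        (hCO (hYC n c hc _ hpr)) (hεpos n) (by simp) (hY n c hc _ hpr)
      simpa [sub_eq_zero] using h
    rw [Metric.tendsto_atTop]
    intro η hη
    set ρ := min (r / 4) (η / (16 * Z' + 1) / 2)
    have hρ : 0 < ρ := by positivity
    obtain ⟨q, hqρ, hqB⟩ : ∃ q ∈ ball (G c) ρ, q ∉ Bad := by
      by_contra! h
      exact (isOpen_ball.measure_pos volume (nonempty_ball.2 hρ)).ne'
        (measure_mono_null h hBad)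
    rw [mem_ball, dist_eq_norm] at hqρ
    rw [mem_closedBall_zero_iff] at hp
    have hq34 : q ∈ closedBall (0 : ℝ × ℝ) (3 * r / 4) := by
      rw [mem_closedBall_zero_iff]
      have := norm_le_norm_add_norm_sub' q (G c)
      linarith [min_le_left (r / 4) (η / (16 * Z' + 1) / 2)]
    have hp34 : G c ∈ closedBall (0 : ℝ × ℝ) (3 * r / 4) := by
      rw [mem_closedBall_zero_iff]; linarith
    have hqr : q ∈ Sq r := closedBall_subset_ball hδ' hq34
    obtain ⟨x, hx, hxq⟩ := hex q hqr 0 le_rfl hε₀ 0 h0C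
    rw [zero_smul, add_zero] at hxq
    have t1 : ∀ c' ∈ C, Tendsto (fun n => F (Y n c' q)) atTop (𝓝 (F x)) := fun c' hc' =>
      ((hF.continuousOn.continuousAt (hO.mem_nhds (hCO hx))).tendsto).comp
        (hnear q hqr hqB x hx hxq c' hc')
    obtain ⟨n₀, hn₀⟩ := Metric.tendsto_atTop.1 ((t1 0 h0C).sub (t1 c hc)) (η / 2) (half_pos hη)
    refine ⟨n₀, fun n hn => ?_⟩
    have b1 := uniform_lip (y := Y n 0) (by positivity) hδ' hZ' (hΦlip n 0 h0C) (hd n 0 h0C)
      hp34 hq34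
    have b2 := uniform_lip (y := Y n c) (by positivity) hδ' hZ' (hΦlip n c hc) (hd n c hc)
      hq34 hp34
    have b3 := hn₀ n hn
    rw [sub_self, dist_zero_right] at b3
    simp only [hfix] at b2
    rw [dist_eq_norm]
    have e : F (Y n 0 (G c)) - F c = (F (Y n 0 (G c)) - F (Y n 0 q)) +
        (F (Y n 0 q) - F (Y n c q)) + (F (Y n c q) - F c) := by abel
    rw [e]
    refine lt_of_le_of_lt (norm_add₃_le) ?_
    rw [norm_sub_rev q (G c)] at b2
    rw [norm_sub_rev (G c) q] at b1 b2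
    have hρ' : ρ * (16 * Z' + 1) ≤ η / 2 := by
      have : ρ ≤ η / (16 * Z' + 1) / 2 := min_le_right _ _
      rw [div_div, le_div_iff₀ (by positivity)] at this
      linarith
    nlinarith [mul_le_mul_of_nonneg_left hqρ.le hZ', norm_nonneg (q - G c)]
  choose! x hxC hx using fun p (hp : p ∈ closedBall (0 : ℝ × ℝ) δ) =>
    hex p (closedBall_subset_ball (by linarith) hp) 0 le_rfl hε₀ 0 h0C
  simp only [zero_smul, add_zero] at hx
  obtain ⟨l, hl⟩ := exists_lin (Φ := fun n p => F (Y n 0 p)) (y := fun n => Y n 0)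
    (Ψ := fun p => F (x p)) (R := R) hδ (by linarith : δ < r) hZ' (fun n => (hεpos n).le) hεlim
    (fun n => ⟨_, hΦlip n 0 h0C⟩) (fun n => ⟨_, hYlip n 0 h0C⟩)
    (fun n p hp => hR _ (hYC n 0 h0C p hp)) (fun n => hd n 0 h0C) fun p hp => by
      have := hlim (x p) (hxC p hp) (by rw [hx p hp]; exact hp)
      rwa [hx p hp] at this
  refine ⟨interior C ∩ G ⁻¹' ball 0 δ,
    ((hG.continuousOn.mono (interior_subset.trans hCO)).isOpen_inter_preimage isOpen_interior
      isOpen_ball), fun s hs => ⟨hKC hs, by simp [hGK s hs.1 hs.2, hδ]⟩,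
    fun s hs => hCO (interior_subset hs.1), l, fun s hs => ?_⟩
  have hval : ∀ c ∈ C, G c ∈ closedBall (0 : ℝ × ℝ) δ → F (x (G c)) = F c := by
    intro c hc hp
    have h := hlim (x (G c)) (hxC _ hp) (by rw [hx _ hp]; exact hp)
    rw [hx _ hp] at h
    exact tendsto_nhds_unique h (hlim c hc hp)
  have h := hl (G s) (ball_subset_closedBall hs.2)
  simp only [hval s (interior_subset hs.1) (ball_subset_closedBall hs.2)] at h
  have h00 := hval 0 h0C (by simp [hG0, hδ.le])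
  rw [hG0] at h00
  rwa [h00] at h

end Vale.Agent.P084.Full
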