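import Vale.Agent.P084.Full.Moving
import Vale.Agent.P084.Full.RankOne
import Vale.Agent.P084.Full.NoTrap

/-! Local tools for the global step, and the exit from a flat piece of the sphere. -/

namespace Vale.Agent.P084.Full

open Inf Filter Topology Metric Set

variable {X Y : Type*} [NormedAddCommGroup X] [NormedSpace ℝ X] [CompleteSpace X]
  [NormedAddCommGroup Y] [NormedSpace ℝ Y] [CompleteSpace Y] {T : X → Y} {T' : Y → X}

omit [CompleteSpace X] [CompleteSpace Y] in
lemma isOpen_c11 : IsOpen {b : X | C11At b} :=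
  isOpen_iff_eventually.2 fun _ h => h.eventually

omit [CompleteSpace X] in
/-- Local Lipschitz bounds for both derivatives. -/
lemma exists_lip (hT : IsTingley T T') {C : ℝ} (hC : Ctrl T C) {a : X} (ha : a ≠ 0)
    (h : C11At a) : ∃ ρ K : ℝ, 0 < ρ ∧ 0 ≤ K ∧ ∀ b ∈ ball a ρ, ∀ c ∈ ball a ρ, ∀ v : X,
      |Dn c v - Dn b v| ≤ K * ‖v‖ * ‖c - b‖ ∧ ‖dT T c v - dT T b v‖ ≤ K * ‖v‖ * ‖c - b‖ := by
  obtain ⟨ρ, K, hR⟩ := exists_reg hT hC ha h
  refine ⟨ρ, K, hR.pos, hR.nonneg, fun b hb c hc v => ⟨?_, ?_⟩⟩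
  · rw [← phi_apply (hR.c11 c hc).smooth, ← phi_apply (hR.c11 b hb).smooth,
      ← Real.norm_eq_abs, ← ContinuousLinearMap.sub_apply, mul_right_comm]
    exact ((phi c - phi b).le_opNorm v).trans
      (mul_le_mul_of_nonneg_right (hR.phi_lip b hb c hc) (norm_nonneg v))
  · rw [← dTc_apply hT hC (hR.ne c hc) (hR.c11 c hc).smooth,
      ← dTc_apply hT hC (hR.ne b hb) (hR.c11 b hb).smooth,
      ← ContinuousLinearMap.sub_apply, mul_right_comm]
    exact ((dTc T c - dTc T b).le_opNorm v).trans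
      (mul_le_mul_of_nonneg_right (hR.dT_lip b hb c hc) (norm_nonneg v))

omit [CompleteSpace X] in
lemma continuousAt_dT (hT : IsTingley T T') {C : ℝ} (hC : Ctrl T C) {a : X} (ha : a ≠ 0)
    (h : C11At a) (v : X) : ContinuousAt (fun b => dT T b v) a := by
  obtain ⟨ρ, K, hρ, -, hl⟩ := exists_lip hT hC ha h
  refine tendsto_iff_norm_sub_tendsto_zero.2 (squeeze_zero' (Eventually.of_forall fun _ =>
    norm_nonneg _) ?_ (by simpa using (tendsto_iff_norm_sub_tendsto_zero.1
      (tendsto_id : Tendsto id (𝓝 a) (𝓝 a))).const_mul (K * ‖v‖)))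
  filter_upwards [ball_mem_nhds a hρ] with b hb
  exact (hl a (mem_ball_self hρ) b hb v).2

omit [CompleteSpace X] in
lemma continuousAt_Dn_map (hT : IsTingley T T') {C C' : ℝ} (hC : Ctrl T C) (hC' : Ctrl T' C')
    [CompleteSpace X] {a : X} (ha : a ≠ 0) (h : C11At a) (β : Y) :
    ContinuousAt (fun b => Dn (T b) β) a := by
  obtain ⟨ρ, K, hρ, -, hl⟩ := exists_lip hT.symm hC' (hT.map_ne_zero ha) (h.map hT hC ha)
  have hcont : ContinuousAt (fun y => Dn y β) (T a) :=
    tendsto_iff_norm_sub_tendsto_zero.2 (squeeze_zero' (Eventually.of_forall fun _ =>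
      norm_nonneg _) (by
        filter_upwards [ball_mem_nhds (T a) hρ] with b hb
        exact (hl (T a) (mem_ball_self hρ) b hb β).1)
      (by simpa using (tendsto_iff_norm_sub_tendsto_zero.1
        (tendsto_id : Tendsto id (𝓝 (T a)) (𝓝 (T a)))).const_mul (K * ‖β‖)))
  exact hcont.comp hT.lipschitz.continuous.continuousAt

omit [CompleteSpace X] [CompleteSpace Y] in
/-- Quadratic gaps give the Fréchet derivative. -/
lemma hasFDerivAt_norm {b : X} (h : C11At b) : HasFDerivAt (fun x : X => ‖x‖) (phi b) b := by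
  have hs := h.smooth
  obtain ⟨r, hr, C, hq⟩ := h
  have hd := (differentiableAt_norm_of_quadratic hr
    fun u hu => hq b u (by simpa using hr) hu).hasFDerivAt
  convert hd using 1
  ext u
  rw [phi_apply hs]
  refine tendsto_nhds_unique (tendsto_Dn b u) ?_
  simpa using (hd.hasLineDerivAt u).tendsto_slope_zero_right

omit [CompleteSpace X] in
/-- A line with constant derivative is mapped affinely. -/
lemma map_line (hT : IsTingley T T') {C : ℝ} (hC : Ctrl T C) {p e : X} {L : Y} {b : ℝ}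
    (hn : ∀ s ∈ Icc (0 : ℝ) b, p + s • e ≠ 0)
    (h : ∀ s ∈ Ico (0 : ℝ) b, dT T (p + s • e) e = L) :
    ∀ s ∈ Icc (0 : ℝ) b, T (p + s • e) = T p + s • L := by
  have hTc := hT.lipschitz.continuous
  intro s hs
  have key := constant_of_has_deriv_right_zero (f := fun t : ℝ => T (p + t • e) - t • L)
    (a := 0) (b := b) (by fun_prop) (fun t ht => by
      have h1 : HasDerivWithinAt (fun t : ℝ => T (p + t • e)) L (Ici t) t := by
        rw [hasDerivWithinAt_iff_tendsto_slope, Ici_sdiff_left]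
        have hsub : Tendsto (fun r : ℝ => r - t) (𝓝[>] t) (𝓝[>] 0) :=
          tendsto_nhdsWithin_of_tendsto_nhds_of_eventually_within _
            (((continuous_id.sub continuous_const).tendsto' t 0 (sub_self t)).mono_left
              nhdsWithin_le_nhds)
            (eventually_nhdsWithin_of_forall fun r (hr : t < r) => show (0 : ℝ) < r - t from
              sub_pos.2 hr)
        rw [← h t ht]
        refine ((tendsto_dT hT hC (hn t (Ico_subset_Icc_self ht)) e).comp hsub).congr fun r => ?_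
        rw [slope_def_module, Function.comp_apply,
          show p + t • e + (r - t) • e = p + r • e by module]
      exact ((h1.sub ((hasDerivWithinAt_id t (Ici t)).smul_const L)).congr_deriv
        (by rw [one_smul, sub_self]))) s hs
  simp only [zero_smul, add_zero, sub_zero] at key
  rw [← key, sub_add_cancel]

omit [CompleteSpace X] [CompleteSpace Y] in
/-- The derivative of the norm is constant along a segment in the sphere. -/
lemma Dn_segment {p e : X} {s : ℝ} (hp : Smooth p) (hq : Smooth (p + s • e))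
    (h0 : ‖p‖ = 1) (h1 : ‖p + (s / 2) • e‖ = 1) (h2 : ‖p + s • e‖ = 1) (w : X) :
    Dn (p + s • e) w = Dn p w := by
  refine (Dn_eq_of_norm_add hp hq ?_ w).symm
  rw [show p + (p + s • e) = (2 : ℝ) • (p + (s / 2) • e) by module, norm_smul, h1, h0, h2,
    Real.norm_ofNat]
  norm_num

/-- Along a line on which the derivative of the norm is constant, so is that of the extension. -/
lemma dT_const_line (hT : IsTingley T T') {p e : X} {b : ℝ}
    (hn : ∀ s ∈ Ico (0 : ℝ) b, p + s • e ≠ 0) (hc : ∀ s ∈ Ico (0 : ℝ) b, C11At (p + s • e))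
    (hD : ∀ s ∈ Ico (0 : ℝ) b, ∀ w, Dn (p + s • e) w = Dn p w) (w : X) :
    ∀ s ∈ Ico (0 : ℝ) b, dT T (p + s • e) w = dT T p w := by
  obtain ⟨C, hC⟩ := exists_ctrl hT
  intro s hs
  refine (SeparatingDual.eq_iff_forall_dual_eq (R := ℝ)).2 fun η => ?_
  have hle : ∀ η : Y →L[ℝ] ℝ, η (dT T (p + s • e) w) ≤ η (dT T p w) := by
    intro η
    have key := image_le_of_liminf_slope_right_le_deriv_boundary
      (f := fun t : ℝ => η (dT T (p + t • e) w)) (a := 0) (b := s)
      (fun t ht => by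
        have ht' : t ∈ Ico (0 : ℝ) b := ⟨ht.1, ht.2.trans_lt hs.2⟩
        exact ((η.continuous.continuousAt).comp ((continuousAt_dT hT hC (hn t ht') (hc t ht') w).comp
          (f := fun t : ℝ => p + t • e) (by fun_prop))).continuousWithinAt)
      (B := fun _ => η (dT T p w)) (B' := fun _ => 0) (by simp) continuousOn_const
      (fun t _ => hasDerivWithinAt_const _ _ _) (fun t ht r hr => ?_) (right_mem_Icc.2 hs.1)
    · exact key
    have ht' : t ∈ Ico (0 : ℝ) b := ⟨ht.1, ht.2.trans hs.2⟩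
    set q : ℕ → ℝ := fun n => 1 / ((n : ℝ) + 1) with hq
    have hq0 : ∀ n, 0 < q n := fun n => by rw [hq]; positivity
    have hqlim : Tendsto q atTop (𝓝 0) := tendsto_one_div_add_atTop_nhds_zero_nat
    obtain ⟨ζ, -, hζ⟩ := rank_one hT (hn t ht') (hc t ht') (S := {e, w})
      (Set.toFinite _).countable hq0 hqlim η
    have h1 := hζ e (by simp) w (by simp)
    have h2 : ∀ᶠ n in uf, slope (fun t : ℝ => η (dT T (p + t • e) w)) t (t + q n) < r := by
      filter_upwards [h1.eventually (eventually_lt_nhds hr),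
        (hqlim.mono_left Nat.hyperfilter_le_atTop).eventually
          (eventually_lt_nhds (show (0 : ℝ) < b - t by linarith [ht'.2]))] with n hn1 hn2
      rw [show p + t • e + q n • e = p + (t + q n) • e by module,
        hD _ ⟨by linarith [ht.1, hq0 n], by linarith⟩, hD t ht', sub_self, mul_zero, sub_zero,
        map_sub] at hn1
      rwa [slope_def_field, add_sub_cancel_left]
    refine Tendsto.frequently ?_ h2.frequently
    exact (tendsto_nhdsWithin_of_tendsto_nhds_of_eventually_within _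
      (by simpa using hqlim.const_add t) (Eventually.of_forall fun n => show t < t + q n by
        linarith [hq0 n])).mono_left Nat.hyperfilter_le_atTop
  have h2 := hle (-η)
  simp only [ContinuousLinearMap.neg_apply, neg_le_neg_iff] at h2
  exact le_antisymm (hle η) h2

/-- A flat segment leaving the `C^{1,1}` set forces an isometric derivative. -/
theorem isometric_of_exit (hT : IsTingley T T') {x e : X} (hx : ‖x‖ = 1) (hc : C11At x) {b : ℝ}
    (hb : 0 ≤ b) (hn : ∀ s ∈ Icc (0 : ℝ) b, ‖x + s • e‖ = 1) (hb' : ¬ C11At (x + b • e)) (w : X) :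
    ‖dT T x w‖ = ‖w‖ := by
  obtain ⟨C, hC⟩ := exists_ctrl hT
  have hx0 : x ≠ 0 := norm_ne_zero_iff.1 (by rw [hx]; exact one_ne_zero)
  have hclosed : IsClosed {s : ℝ | ¬ C11At (x + s • e)} :=
    (isOpen_c11.preimage (by fun_prop : Continuous fun s : ℝ => x + s • e)).isClosed_compl
  obtain ⟨τ, ⟨hτI, hτ⟩, hτl⟩ := (isCompact_Icc.inter_right hclosed).exists_isLeast
    (show (Icc (0 : ℝ) b ∩ {s : ℝ | ¬ C11At (x + s • e)}).Nonempty from ⟨b, right_mem_Icc.2 hb, hb'⟩)
  have hτ0 : 0 < τ := lt_of_le_of_ne hτI.1 fun h => hτ (by rw [← h]; simpa using hc)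
  have hin : ∀ s ∈ Icc (0 : ℝ) τ, ‖x + s • e‖ = 1 := fun s hs => hn s ⟨hs.1, hs.2.trans hτI.2⟩
  have hne : ∀ s ∈ Icc (0 : ℝ) τ, x + s • e ≠ 0 := fun s hs =>
    norm_ne_zero_iff.1 (by rw [hin s hs]; exact one_ne_zero)
  have hcin : ∀ s ∈ Ico (0 : ℝ) τ, C11At (x + s • e) := fun s hs => by
    by_contra h
    exact absurd (hτl ⟨⟨hs.1, hs.2.le.trans hτI.2⟩, h⟩) (not_le.2 hs.2)
  have hD : ∀ s ∈ Ico (0 : ℝ) τ, ∀ v, Dn (x + s • e) v = Dn x v := fun s hs =>
    Dn_segment hc.smooth (hcin s hs).smooth hx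
      (hin _ ⟨by linarith [hs.1], by linarith [hs.1, hs.2]⟩) (hin s (Ico_subset_Icc_self hs))
  set B := x + τ • e with hB
  have hB1 : ‖B‖ = 1 := hin τ (right_mem_Icc.2 hτ0.le)
  have hB0 : B ≠ 0 := hne τ (right_mem_Icc.2 hτ0.le)
  obtain ⟨A, hA, hAi⟩ := exists_isometry_of_not_c11 hT hB0 hτ
  have hφe : Dn x e = 0 := by
    refine tendsto_nhds_unique (tendsto_Dn x e) (tendsto_const_nhds.congr' ?_)
    filter_upwards [Ioo_mem_nhdsGT hτ0] with t ht
    rw [hin t (Ioo_subset_Icc_self ht), hx, sub_self, mul_zero]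
  have hs := hc.smooth
  have hφ : ∀ v, Dn x v ≤ Dn B v := fun v => le_Dn B v fun t ht => by
    rw [le_inv_mul_iff₀ ht, hB1]
    have h1 := Dn_le_norm x (B + t • v)
    rw [hs.map_add, hs.map_smul, hB, hs.map_add, hs.map_smul, hφe, Dn_self, hx] at h1
    linarith
  obtain ⟨ρ, K, hR⟩ := exists_reg hT hC hx0 hc
  have hC0 := hC.1
  have hK0 := hR.nonneg
  suffices hw : dT T x w = A w by rw [hw, hAi]
  rw [← sub_eq_zero, ← norm_le_zero_iff]
  refine le_of_forall_pos_le_add fun δ hδ => ?_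
  rw [zero_add]
  obtain ⟨t, ht0, htρ, htδ⟩ : ∃ t : ℝ, 0 < t ∧ t * ‖w‖ < ρ ∧ 2 * C * K * ‖w‖ ^ 2 * t ≤ δ / 2 := by
    have e1 : Tendsto (fun t : ℝ => t * ‖w‖) (𝓝[>] 0) (𝓝 0) :=
      ((continuous_id.mul continuous_const).tendsto' 0 0 (zero_mul _)).mono_left nhdsWithin_le_nhds
    have e2 : Tendsto (fun t : ℝ => 2 * C * K * ‖w‖ ^ 2 * t) (𝓝[>] 0) (𝓝 0) :=
      ((continuous_const.mul continuous_id).tendsto' 0 0 (mul_zero _)).mono_left nhdsWithin_le_nhds
    exact (eventually_mem_nhdsWithin.and ((e1.eventually (eventually_lt_nhds hR.pos)).and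
      (e2.eventually (eventually_le_nhds (half_pos hδ))))).exists
  set M := τ * ‖e‖ + t * ‖w‖ with hM
  have hM0 : 0 ≤ M := by positivity
  obtain ⟨ε, hε0, hε1, hεM, hεδ⟩ :
      ∃ ε : ℝ, 0 < ε ∧ ε < 1 ∧ ε * M ≤ 1 / 2 ∧ 3 * C * M ^ 2 / t * ε ≤ δ / 2 := by
    have e1 : Tendsto (fun s : ℝ => s * M) (𝓝[>] 0) (𝓝 0) :=
      ((continuous_id.mul continuous_const).tendsto' 0 0 (zero_mul _)).mono_left nhdsWithin_le_nhds
    have e2 : Tendsto (fun s : ℝ => 3 * C * M ^ 2 / t * s) (𝓝[>] 0) (𝓝 0) :=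
      ((continuous_const.mul continuous_id).tendsto' 0 0 (mul_zero _)).mono_left nhdsWithin_le_nhds
    exact (eventually_mem_nhdsWithin.and
      (((tendsto_id (α := ℝ)).mono_left nhdsWithin_le_nhds).eventually
        (eventually_lt_nhds one_pos) |>.and ((e1.eventually (eventually_le_nhds one_half_pos)).and
      (e2.eventually (eventually_le_nhds (half_pos hδ)))))).exists
  set σ := (1 - ε) * τ with hσ
  have hσI : σ ∈ Ico (0 : ℝ) τ := ⟨mul_nonneg (by linarith) hτ0.le, by nlinarith⟩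
  set z := x + σ • e with hz
  set u₀ := (-(ε * τ)) • e with hu₀
  set v := (ε * t) • w with hv
  have hz1 : ‖z‖ = 1 := hin σ (Ico_subset_Icc_self hσI)
  have ez : B + u₀ = z := by rw [hB, hu₀, hz, hσ]; module
  have hbd : ‖B + (u₀ + v)‖ ≤ 1 + ε * t * Dn x w + ε * (K * (t * ‖w‖) ^ 2) := by
    rw [show B + (u₀ + v) = (1 - ε) • B + ε • (x + t • w) by rw [hB, hu₀, hv]; module]
    refine (norm_add_le _ _).trans ?_
    rw [norm_smul, norm_smul, hB1, Real.norm_of_nonneg hε0.le,
      Real.norm_of_nonneg (by linarith : 0 ≤ 1 - ε)]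
    have hg := hR.gap_le x (mem_ball_self hR.pos) (t • w)
      (by rwa [norm_smul, Real.norm_of_nonneg ht0.le])
    simp only [gap] at hg
    rw [hx, hs.map_smul, norm_smul, Real.norm_of_nonneg ht0.le] at hg
    have := mul_le_mul_of_nonneg_left hg hε0.le
    linarith
  have hnu : ‖u₀ + v‖ ≤ ε * M ∧ ‖u₀‖ ≤ ε * M ∧ ‖v‖ ≤ ε * M := by
    have h1 : ‖u₀‖ = ε * (τ * ‖e‖) := by
      rw [hu₀, norm_smul, norm_neg, Real.norm_of_nonneg (by positivity)]; ring
    have h2 : ‖v‖ = ε * (t * ‖w‖) := by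
      rw [hv, norm_smul, Real.norm_of_nonneg (by positivity)]; ring
    have h3 : 0 ≤ ε * (τ * ‖e‖) := by positivity
    have h4 : 0 ≤ ε * (t * ‖w‖) := by positivity
    refine ⟨(norm_add_le _ _).trans ?_, ?_, ?_⟩ <;> rw [hM, mul_add] <;> linarith
  have hG : ∀ u : X, ‖u‖ ≤ ε * M → ‖u‖ ^ 2 ≤ (ε * M) ^ 2 := fun u hu =>
    pow_le_pow_left₀ (norm_nonneg _) hu 2
  have g1 : gap B (u₀ + v) ≤ ε * (K * (t * ‖w‖) ^ 2) := by
    have := hφ (u₀ + v)
    rw [hs.map_add, hu₀, hv, hs.map_smul, hs.map_smul, hφe, mul_zero, zero_add] at this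
    simp only [gap]
    rw [hB1]
    linarith
  have g0 : gap B u₀ ≤ 0 := by
    have := hφ u₀
    rw [hu₀, hs.map_smul, hφe, mul_zero] at this
    simp only [gap]
    rw [ez, hz1, hB1]
    linarith
  have g2 : gap z v ≤ ε * (K * (t * ‖w‖) ^ 2) := by
    simp only [gap]
    rw [hz1, hD σ hσI, hv, hs.map_smul, ← hv,
      show z + v = B + (u₀ + v) by rw [← ez, add_assoc]]
    linarith
  have n1 := norm_sub_dT_le hT hC hB0 (u := u₀ + v) (by rw [hB1]; linarith [hnu.1])
  have n0 := norm_sub_dT_le hT hC hB0 (u := u₀) (by rw [hB1]; linarith [hnu.2.1])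
  have n2 := norm_sub_dT_le hT hC (hne σ (Ico_subset_Icc_self hσI)) (u := v)
    (by rw [hz1]; linarith [hnu.2.2])
  rw [hB1, div_one] at n1 n0
  rw [hz1, div_one] at n2
  have hzv : dT T z v = (ε * t) • dT T x w := by
    rw [hv, dT_smul hT hC (hne σ (Ico_subset_Icc_self hσI)) w (by positivity),
      dT_const_line hT (fun s hs => hne s (Ico_subset_Icc_self hs)) hcin hD w σ hσI]
  rw [hA, map_add] at n1
  rw [hA, ez] at n0
  rw [hzv, show z + v = B + (u₀ + v) by rw [← ez, add_assoc]] at n2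
  have hkey : ‖(ε * t) • (dT T x w - A w)‖ ≤
      C * (ε * (K * (t * ‖w‖) ^ 2) + (ε * M) ^ 2) + C * (0 + (ε * M) ^ 2)
        + C * (ε * (K * (t * ‖w‖) ^ 2) + (ε * M) ^ 2) := by
    rw [show (ε * t) • (dT T x w - A w) = (T (B + (u₀ + v)) - T B - (A u₀ + A v))
      - (T z - T B - A u₀) - (T (B + (u₀ + v)) - T z - (ε * t) • dT T x w) by
        rw [hv, map_smul A (ε * t) w, smul_sub]; abel]
    refine (norm_sub_le _ _).trans (add_le_add ((norm_sub_le _ _).trans (add_le_add ?_ ?_)) ?_)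
    · exact n1.trans (mul_le_mul_of_nonneg_left (add_le_add g1 (hG _ hnu.1)) hC0)
    · exact n0.trans (mul_le_mul_of_nonneg_left (add_le_add g0 (hG _ hnu.2.1)) hC0)
    · exact n2.trans (mul_le_mul_of_nonneg_left (add_le_add g2 (hG _ hnu.2.2)) hC0)
  rw [norm_smul, Real.norm_of_nonneg (by positivity), ← le_div_iff₀' (by positivity)] at hkey
  refine hkey.trans (le_of_eq_of_le (b := 2 * C * K * ‖w‖ ^ 2 * t + 3 * C * M ^ 2 / t * ε) ?_
    (by linarith))
  field_simp
  ring

end Vale.Agent.P084.Full
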