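import Vale.Agent.P084.Full.Blow

/-! The blow-ups at a point and at its image. -/

namespace Vale.Agent.P084.Full

open Inf Filter Topology Metric

variable {X Y : Type*} [NormedAddCommGroup X] [NormedSpace ℝ X] [CompleteSpace X]
  [NormedAddCommGroup Y] [NormedSpace ℝ Y] [CompleteSpace Y] {T : X → Y} {T' : Y → X} {a : X}
  {r : ℕ → ℝ} {ρ K : ℝ}

/-- Blow-up data at a point and at its image. -/
structure Two (T : X → Y) (T' : Y → X) (a : X) (r : ℕ → ℝ) (ρ K : ℝ) : Prop where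
  fst : Pt T T' a r ρ K
  snd : Pt T' T (T a) r ρ K

lemma exists_two (hT : IsTingley T T') (ha : ‖a‖ = 1) (h : C11At a) (hr : ∀ n, 0 < r n)
    (hr0 : Tendsto r uf (𝓝 0)) : ∃ ρ K, Two T T' a r ρ K := by
  obtain ⟨C, hC⟩ := exists_ctrl hT
  obtain ⟨C', hC'⟩ := exists_ctrl hT.symm
  have ha0 : a ≠ 0 := norm_ne_zero_iff.1 (by rw [ha]; exact one_ne_zero)
  obtain ⟨ρ, K, hR⟩ := exists_reg hT hC ha0 h
  obtain ⟨ρ', K', hR'⟩ := exists_reg hT.symm hC' (hT.map_ne_zero ha0) (h.map hT hC ha0)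
  exact ⟨min ρ ρ', max K K',
    ⟨hT, ⟨C, hC⟩, ha, hR.mono (lt_min hR.pos hR'.pos) (min_le_left _ _) (le_max_left _ _), hr, hr0⟩,
    ⟨hT.symm, ⟨C', hC'⟩, by rw [hT.norm_map, ha],
      hR'.mono (lt_min hR.pos hR'.pos) (min_le_right _ _) (le_max_right _ _), hr, hr0⟩⟩

/-- Increments of the extension, rescaled, represent the derivative. -/
lemma Pt.rep_increment (h : Pt T T' a r ρ K) {f : ℕ → X} {s : Ultra X} (hf : Rep f s) :
    Rep (fun n => (r n)⁻¹ • (T (a + r n • f n) - T a)) (bLin T a s) := by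
  refine (rep_bLin hf).congr (squeeze_zero' (Eventually.of_forall fun _ => norm_nonneg _) ?_
    (show Tendsto (fun n => r n * (K * (‖s‖ + 1) ^ 2)) uf (𝓝 0) by
      simpa using h.rlim.mul_const (K * (‖s‖ + 1) ^ 2)))
  filter_upwards [h.small hf h.reg.pos, hf.eventually_le] with n h1 h2
  have hr := h.rpos n
  have e : (r n)⁻¹ • (T (a + r n • f n) - T a) - dTc T a (f n)
      = (r n)⁻¹ • (T (a + r n • f n) - T a - dTc T a (r n • f n)) := by
    rw [map_smul]
    simp only [smul_sub, inv_smul_smul₀ hr.ne']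
  rw [e, norm_smul, norm_inv, Real.norm_of_nonneg hr.le, inv_mul_le_iff₀ hr]
  refine (h.reg.taylor a (mem_ball_self h.reg.pos) _ h1).trans ?_
  rw [norm_smul, Real.norm_of_nonneg hr.le]
  have := mul_le_mul_of_nonneg_left (pow_le_pow_left₀ (norm_nonneg _) h2 2)
    (mul_nonneg h.reg.nonneg (sq_nonneg (r n)))
  nlinarith

lemma Pt.dTc_eq (h : Pt T T' a r ρ K) (v : X) : dTc T a v = dT T a v := by
  obtain ⟨C, hC⟩ := h.ctrl
  exact dTc_apply h.isT hC h.ne_zero h.smooth v

/-- A self-map keeping the derivative of the norm carries one blow-up to the other. -/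
lemma Pt.bPhi_invariant {S S' : X → X} (h : Pt S S' a r ρ K) {R : X → X} {R' : X → X} {ρ' K' : ℝ}
    (h' : Pt R R' (S a) r ρ' K') (hS : ∀ᶠ x in 𝓝 a, phi (S x) = phi x) (s v : Ultra X) :
    bPhi (S a) r (bLin S a s) v = bPhi a r s v := by
  refine tendsto_nhds_unique (h'.tendsto_bPhi (h.rep_increment (rep_self s)) (rep_self v))
    ((h.tendsto_bPhi (rep_self s) (rep_self v)).congr' ?_)
  have hlim : Tendsto (fun n => a + r n • rep s n) uf (𝓝 a) := by
    rw [tendsto_iff_norm_sub_tendsto_zero]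
    have := h.rlim.mul (rep_self s).tendsto_norm
    rw [zero_mul] at this
    refine this.congr fun n => ?_
    rw [add_sub_cancel_left, norm_smul, Real.norm_of_nonneg (h.rpos n).le]
  filter_upwards [hlim.eventually hS] with n hn
  rw [smul_inv_smul₀ (h.rpos n).ne', add_sub_cancel, hn, hS.self_of_nhds]

namespace Two

variable (h : Two T T' a r ρ K)
include h

lemma symm : Two T' T (T a) r ρ K := ⟨h.snd, by rw [h.fst.isT.left]; exact h.fst⟩

lemma bDn_bLin (s : Ultra X) : bDn (T a) (bLin T a s) = bDn a s := by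
  obtain ⟨C, hC⟩ := h.fst.ctrl
  refine tendsto_nhds_unique (tendsto_bDn (rep_bLin (rep_self s)))
    ((tendsto_bDn (rep_self s)).congr fun n => ?_)
  rw [phi_map h.fst.isT hC h.fst.ne_zero h.fst.smooth h.snd.smooth]

lemma bLin_left (s : Ultra X) : bLin T' (T a) (bLin T a s) = s := by
  obtain ⟨C, hC⟩ := h.fst.ctrl
  obtain ⟨C', hC'⟩ := h.snd.ctrl
  refine (rep_bLin (rep_bLin (rep_self s))).eq ((rep_self s).congr' ?_)
  refine Eventually.of_forall fun n => ?_
  rw [h.snd.dTc_eq, h.fst.dTc_eq, dT_left h.fst.isT hC h.fst.ne_zero hC']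

lemma bLin_right (s : Ultra Y) : bLin T a (bLin T' (T a) s) = s := by
  have := h.symm.bLin_left s
  rwa [h.fst.isT.left] at this

lemma bLin_mem {s : Ultra X} (hs : s ∈ kerU a) : bLin T a s ∈ kerU (T a) := by
  rw [mem_kerU, h.bDn_bLin]
  exact mem_kerU.1 hs

lemma norm_bLin {s : Ultra X} (hs : s ∈ kerU a) : ‖bLin T a s‖ = ‖s‖ := by
  obtain ⟨C, hC⟩ := h.fst.ctrl
  obtain ⟨f, hf, hfk⟩ := exists_rep_ker (A := phi a) (a := a)
    (by rw [phi_apply h.fst.smooth, Dn_self, h.fst.unit]) (mem_kerU.1 hs)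
  refine tendsto_nhds_unique (rep_bLin hf).tendsto_norm (hf.tendsto_norm.congr fun n => ?_)
  have h1 := norm_dT_sub_of_Dn_eq h.fst.isT hC h.fst.ne_zero (u := f n) (w := 0) (by
    rw [← phi_apply h.fst.smooth, ← phi_apply h.fst.smooth, hfk, map_zero])
  rw [dT_zero h.fst.isT hC h.fst.ne_zero, sub_zero, sub_zero] at h1
  rw [h.fst.dTc_eq, h1]

/-- The normal component of the second order blow-up. -/
lemma bDn_bXi (s : Ultra X) :
    bDn (T a) (bXi T a r s) = bOm a r s - bOm (T a) r (bLin T a s) := by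
  obtain ⟨C, hC⟩ := h.fst.ctrl
  refine tendsto_nhds_unique (tendsto_bDn (h.fst.rep_bXi (rep_self s)))
    (((h.fst.tendsto_bOm (rep_self s)).sub
      (h.snd.tendsto_bOm (h.fst.rep_increment (rep_self s)))).congr fun n => ?_)
  have hr := h.fst.rpos n
  rw [smul_inv_smul₀ hr.ne', map_smul, smul_eq_mul, map_sub,
    phi_map h.fst.isT hC h.fst.ne_zero h.fst.smooth h.snd.smooth,
    phi_apply h.fst.smooth, phi_apply h.snd.smooth]
  simp only [gap]
  rw [add_sub_cancel, h.fst.isT.norm_map, h.fst.isT.norm_map, ← sub_div, ← div_eq_inv_mul]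
  ring

end Two

end Vale.Agent.P084.Full
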