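import Vale.Agent.P084.Full.MollifyAvg
import Mathlib.Topology.Bases

/-! Averaging along a dense sequence of directions makes a Lipschitz map differentiable. -/

namespace Vale.Agent.P084.Full

open Filter Topology MeasureTheory Set MollAux

variable {V Z W : Type*} [NormedAddCommGroup V] [NormedSpace ℝ V] [CompleteSpace V]
  [TopologicalSpace.SeparableSpace V] [NormedAddCommGroup Z] [NormedSpace ℝ Z] [CompleteSpace Z]
  [NormedAddCommGroup W] [NormedSpace ℝ W] [CompleteSpace W]

/-- The weight of the `n`-th direction. -/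
noncomputable def mollWeight (V : Type*) [NormedAddCommGroup V]
    [TopologicalSpace.SeparableSpace V] (r : ℝ) (n : ℕ) : ℝ :=
  r * (1 / 2) ^ n / (1 + ‖TopologicalSpace.denseSeq V n‖)

/-- The steps of the averaging at scale `r`. -/
noncomputable def mollStep (V : Type*) [NormedAddCommGroup V] [NormedSpace ℝ V]
    [TopologicalSpace.SeparableSpace V] (r : ℝ) (n : ℕ) : V :=
  mollWeight V r n • TopologicalSpace.denseSeq V n

/-- The average of `f` at scale `r`. -/
noncomputable def moll (r : ℝ) (f : V → Z) : V → Z := lim (mollStep V r) f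

open Classical in
/-- The derivative of the average. -/
noncomputable def jet (r : ℝ) (f : V → Z) (x : V) : V →L[ℝ] Z :=
  if h : ∃ A : V →L[ℝ] Z, ∀ u, HasDerivAt (fun t : ℝ => moll r f (x + t • u)) (A u) 0 then h.choose
  else 0

variable {r K K' : ℝ} {f f' : V → Z}

namespace MollAux

set_option linter.unusedSectionVars false

lemma weight_pos (hr : 0 < r) (n : ℕ) : 0 < mollWeight V r n := by
  unfold mollWeight
  positivity

lemma norm_step_le (hr : 0 < r) (n : ℕ) : ‖mollStep V r n‖ ≤ r * (1 / 2) ^ n := by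
  rw [mollStep, norm_smul, Real.norm_of_nonneg (weight_pos hr n).le, mollWeight,
    div_mul_eq_mul_div, div_le_iff₀ (by positivity)]
  exact mul_le_mul_of_nonneg_left (le_add_of_nonneg_left zero_le_one) (by positivity)

lemma summable_step (hr : 0 < r) : Summable fun n => ‖mollStep V r n‖ :=
  (summable_geometric_two.mul_left r).of_nonneg_of_le (fun _ => norm_nonneg _) (norm_step_le hr)

lemma tsum_step_le (hr : 0 < r) : ∑' n, ‖mollStep V r n‖ ≤ 2 * r := by
  refine ((summable_step hr).tsum_le_tsum (norm_step_le hr)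
    (summable_geometric_two.mul_left r)).trans (le_of_eq ?_)
  rw [tsum_mul_left, tsum_geometric_two, mul_comm]

lemma Lip_moll (hr : 0 < r) (hf : Lip K f) : Lip K (moll r f) := Lip_lim (summable_step hr) hf

lemma moll_clm (hr : 0 < r) (hf : Lip K f) (A : Z →L[ℝ] W) (x : V) :
    moll r (fun y => A (f y)) x = A (moll r f x) := lim_clm (summable_step hr) hf A x

lemma moll_sub (hr : 0 < r) (hf : Lip K f) (hf' : Lip K' f') (x : V) :
    moll r (fun y => f y - f' y) x = moll r f x - moll r f' x :=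
  lim_sub (summable_step hr) hf hf' x

lemma moll_shift (f : V → Z) (a x : V) : moll r (fun y => f (y + a)) x = moll r f (x + a) :=
  lim_shift f a x

lemma norm_moll_le {ε : ℝ} (hr : 0 < r) (hf : Lip K f) (h : ∀ y, ‖f y‖ ≤ ε) (x : V) :
    ‖moll r f x‖ ≤ ε := norm_lim_le (summable_step hr) hf h x

lemma moll_slope (hr : 0 < r) (hf : Lip K f) (c : ℝ) (a x : V) :
    moll r (fun y => c • (f (y + a) - f y)) x = c • (moll r f (x + a) - moll r f x) := by
  unfold moll
  rw [lim_smul (summable_step hr) (Lip_sub (Lip_shift hf a) hf),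
    lim_sub (summable_step hr) (Lip_shift hf a) hf, lim_shift]

/-- Directional derivative along the `i`-th direction. -/
noncomputable def dDir (r : ℝ) (f : V → Z) (i : ℕ) (x : V) : Z :=
  (mollWeight V r i)⁻¹ • (lim (Function.update (mollStep V r) i 0) f (x + mollStep V r i)
    - lim (Function.update (mollStep V r) i 0) f x)

lemma hasDerivAt_dDir (hr : 0 < r) (hf : Lip K f) (i : ℕ) (x : V) :
    HasDerivAt (fun t : ℝ => moll r f (x + t • TopologicalSpace.denseSeq V i)) (dDir r f i x) 0 := by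
  have hc := weight_pos (V := V) hr i
  have hg := Lip_continuous (Lip_lim (summable_update (summable_step (V := V) hr) i) hf)
  have h1 := hasDerivAt_avg hg (mollStep V r i) x
  rw [← lim_split (summable_step hr) hf i] at h1
  have h2 := HasDerivAt.scomp (h := fun t => t * (mollWeight V r i)⁻¹) (0 : ℝ)
    (by simpa using h1) (hasDerivAt_mul_const (mollWeight V r i)⁻¹)
  refine h2.congr_of_eventuallyEq (Eventually.of_forall fun t => ?_)
  simp only [Function.comp_apply, moll, mollStep, smul_smul]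
  rw [mul_assoc, inv_mul_cancel₀ hc.ne', mul_one]

lemma continuous_dDir (hr : 0 < r) (hf : Lip K f) (i : ℕ) : Continuous (dDir r f i : V → Z) := by
  have hg := Lip_continuous (Lip_lim (summable_update (summable_step (V := V) hr) i) hf)
  exact ((hg.comp (continuous_id.add continuous_const)).sub hg).const_smul _

lemma norm_dDir_le {ε : ℝ} (hr : 0 < r) (hf : Lip K f) (h : ∀ y, ‖f y‖ ≤ ε) (i : ℕ) (x : V) :
    ‖dDir r f i x‖ ≤ (mollWeight V r i)⁻¹ * (2 * ε) := by
  have h1 := fun y : V => norm_lim_le (summable_update (summable_step (V := V) hr) i) hf h y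
  rw [dDir, norm_smul, Real.norm_of_nonneg (inv_nonneg.2 (weight_pos hr i).le)]
  refine mul_le_mul_of_nonneg_left ?_ (inv_nonneg.2 (weight_pos hr i).le)
  exact (norm_sub_le _ _).trans (by linarith [h1 (x + mollStep V r i), h1 x])

lemma norm_deriv_sub_le (hr : 0 < r) (hf : Lip K f) {x u w : V} {a b : Z}
    (ha : HasDerivAt (fun t : ℝ => moll r f (x + t • u)) a 0)
    (hb : HasDerivAt (fun t : ℝ => moll r f (x + t • w)) b 0) : ‖a - b‖ ≤ K * ‖u - w‖ := by
  refine (ha.sub hb).le_of_lip' (mul_nonneg hf.1 (norm_nonneg _)) (Eventually.of_forall fun t => ?_)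
  have h := (Lip_moll hr hf).2 (x + t • u) (x + t • w)
  rw [show (x + t • u) - (x + t • w) = t • (u - w) by module, norm_smul] at h
  simp only [Pi.sub_apply, zero_smul, add_zero, sub_self, sub_zero, Real.norm_eq_abs] at h ⊢
  linarith

lemma exists_index (u : V) {δ : ℝ} (hδ : 0 < δ) :
    ∃ i, ‖u - TopologicalSpace.denseSeq V i‖ < δ := by
  obtain ⟨i, hi⟩ := (TopologicalSpace.denseRange_denseSeq V).exists_dist_lt u hδ
  exact ⟨i, by rwa [← dist_eq_norm]⟩

lemma exists_deriv (hr : 0 < r) (hf : Lip K f) (x u : V) :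
    ∃ a, HasDerivAt (fun t : ℝ => moll r f (x + t • u)) a 0 := by
  have hsel : ∀ n : ℕ, ∃ i, ‖u - TopologicalSpace.denseSeq V i‖ < 1 / ((n : ℝ) + 1) := fun n =>
    exists_index u (by positivity)
  choose i hi using hsel
  have hlim0 : Tendsto (fun n => ‖u - TopologicalSpace.denseSeq V (i n)‖) atTop (𝓝 0) :=
    squeeze_zero (fun _ => norm_nonneg _) (fun n => (hi n).le) tendsto_one_div_add_atTop_nhds_zero_nat
  obtain ⟨a, ha⟩ : ∃ a, Tendsto (fun n => dDir r f (i n) x) atTop (𝓝 a) := by
    refine cauchySeq_tendsto_of_complete (Metric.cauchySeq_iff.2 fun ε hε => ?_)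
    have hb := (hlim0.const_mul K).eventually (eventually_lt_nhds (b := ε / 2) (by simpa using half_pos hε))
    obtain ⟨N, hN⟩ := eventually_atTop.1 hb
    refine ⟨N, fun m hm n hn => ?_⟩
    rw [dist_eq_norm]
    refine (norm_deriv_sub_le hr hf (hasDerivAt_dDir hr hf _ x) (hasDerivAt_dDir hr hf _ x)).trans_lt ?_
    have h1 := mul_le_mul_of_nonneg_left
      (norm_sub_le_norm_sub_add_norm_sub (TopologicalSpace.denseSeq V (i m)) u
        (TopologicalSpace.denseSeq V (i n))) hf.1
    rw [mul_add, norm_sub_rev _ u] at h1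
    linarith [hN m hm, hN n hn]
  refine ⟨a, ?_⟩
  rw [hasDerivAt_iff_isLittleO, Asymptotics.isLittleO_iff]
  intro ε hε
  have e1 := (hlim0.const_mul K).eventually (eventually_le_nhds (b := ε / 4) (by simpa using by linarith))
  have e2 := ((ha.sub_const a).norm).eventually (eventually_le_nhds (b := ε / 4) (by simpa using by linarith))
  obtain ⟨n, hn1, hn2⟩ := (e1.and e2).exists
  have h3 := Asymptotics.isLittleO_iff.1 (hasDerivAt_iff_isLittleO.1 (hasDerivAt_dDir hr hf (i n) x))
    (show 0 < ε / 2 by linarith)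
  filter_upwards [h3] with t ht
  simp only [zero_smul, add_zero, sub_zero] at ht ⊢
  set d := TopologicalSpace.denseSeq V (i n) with hd
  have h4 := (Lip_moll hr hf).2 (x + t • u) (x + t • d)
  rw [show (x + t • u) - (x + t • d) = t • (u - d) by module, norm_smul] at h4
  have h5 := norm_add₃_le (a := moll r f (x + t • u) - moll r f (x + t • d))
    (b := moll r f (x + t • d) - moll r f x - t • dDir r f (i n) x)
    (c := t • (dDir r f (i n) x - a))
  rw [show moll r f (x + t • u) - moll r f (x + t • d)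
    + (moll r f (x + t • d) - moll r f x - t • dDir r f (i n) x) + t • (dDir r f (i n) x - a)
    = moll r f (x + t • u) - moll r f x - t • a by module, norm_smul] at h5
  have h6 := mul_le_mul_of_nonneg_left hn1 (norm_nonneg t)
  have h7 := mul_le_mul_of_nonneg_left hn2 (norm_nonneg t)
  linarith

/-- The candidate derivative. -/
noncomputable def dGen (r : ℝ) (f : V → Z) (x u : V) : Z :=
  deriv (fun t : ℝ => moll r f (x + t • u)) 0

lemma hasDerivAt_dGen (hr : 0 < r) (hf : Lip K f) (x u : V) :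
    HasDerivAt (fun t : ℝ => moll r f (x + t • u)) (dGen r f x u) 0 := by
  obtain ⟨a, ha⟩ := exists_deriv hr hf x u
  rwa [dGen, ha.deriv]

lemma norm_dGen_le (hr : 0 < r) (hf : Lip K f) (x u : V) : ‖dGen r f x u‖ ≤ K * ‖u‖ := by
  simpa using norm_deriv_sub_le hr hf (hasDerivAt_dGen hr hf x u)
    (w := 0) (b := 0) (by simpa using hasDerivAt_const (0 : ℝ) (moll r f x))

lemma continuous_dGen (hr : 0 < r) (hf : Lip K f) (u : V) :
    Continuous fun x : V => dGen r f x u := by
  refine Metric.continuous_iff.2 fun x ε hε => ?_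
  obtain ⟨i, hi⟩ := exists_index u (show 0 < ε / (3 * (K + 1)) from
    div_pos hε (by linarith [hf.1]))
  obtain ⟨δ, hδ, hδc⟩ := Metric.continuous_iff.1 (continuous_dDir hr hf i) x (ε / 3) (by linarith)
  refine ⟨δ, hδ, fun y hy => ?_⟩
  have hK : K * ‖u - TopologicalSpace.denseSeq V i‖ < ε / 3 := by
    refine lt_of_le_of_lt (mul_le_mul_of_nonneg_left hi.le hf.1) ?_
    rw [mul_div_assoc', div_lt_div_iff₀ (by linarith [hf.1]) (by norm_num)]
    nlinarith [hf.1]
  have h1 := norm_deriv_sub_le hr hf (hasDerivAt_dGen hr hf x u) (hasDerivAt_dDir hr hf i x)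
  have h2 := norm_deriv_sub_le hr hf (hasDerivAt_dGen hr hf y u) (hasDerivAt_dDir hr hf i y)
  have h3 := hδc y hy
  rw [dist_eq_norm] at h3 ⊢
  have h4 := norm_add₃_le (a := dGen r f y u - dDir r f i y) (b := dDir r f i y - dDir r f i x)
    (c := dDir r f i x - dGen r f x u)
  rw [sub_add_sub_cancel, sub_add_sub_cancel, norm_sub_rev (dDir r f i x) (dGen r f x u)] at h4
  linarith

lemma dGen_smul (hr : 0 < r) (hf : Lip K f) (x u : V) (c : ℝ) :
    dGen r f x (c • u) = c • dGen r f x u := by
  have h := HasDerivAt.scomp (h := fun t => t * c) (0 : ℝ)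
    (by simpa using hasDerivAt_dGen hr hf x u) (hasDerivAt_mul_const c)
  refine (hasDerivAt_dGen hr hf x (c • u)).unique (h.congr_of_eventuallyEq
    (Eventually.of_forall fun t => ?_))
  simp [smul_smul]

lemma hasDerivAt_line (hr : 0 < r) (hf : Lip K f) (x u : V) (s : ℝ) :
    HasDerivAt (fun t : ℝ => moll r f (x + t • u)) (dGen r f (x + s • u) u) s := by
  have h := HasDerivAt.scomp (g₁ := fun t : ℝ => moll r f (x + s • u + t • u))
    (h := fun t : ℝ => t - s) s (g₁' := dGen r f (x + s • u) u) (h' := (1 : ℝ))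
    (by rw [sub_self]; exact hasDerivAt_dGen hr hf (x + s • u) u) ((hasDerivAt_id' s).sub_const s)
  rw [one_smul] at h
  refine h.congr_of_eventuallyEq (Eventually.of_forall fun t => ?_)
  simp only [Function.comp_apply]
  rw [add_assoc, ← add_smul, add_sub_cancel]

lemma dGen_add (hr : 0 < r) (hf : Lip K f) (x u w : V) :
    dGen r f x (u + w) = dGen r f x u + dGen r f x w := by
  refine (hasDerivAt_dGen hr hf x (u + w)).unique ?_
  have hu := hasDerivAt_iff_isLittleO.1 (hasDerivAt_dGen hr hf x u)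
  rw [hasDerivAt_iff_isLittleO, Asymptotics.isLittleO_iff]
  intro ε hε
  obtain ⟨δ, hδ, hδc⟩ := Metric.continuous_iff.1 (continuous_dGen hr hf w) x (ε / 2) (by linarith)
  have e1 : ∀ᶠ t in 𝓝 (0 : ℝ), |t| * (‖u‖ + ‖w‖) < δ :=
    ((continuous_abs.mul continuous_const).tendsto' 0 0 (by simp)).eventually (eventually_lt_nhds hδ)
  filter_upwards [Asymptotics.isLittleO_iff.1 hu (show 0 < ε / 2 by linarith), e1] with t ht htd
  simp only [zero_smul, add_zero, sub_zero] at ht ⊢
  have hseg := Convex.norm_image_sub_le_of_norm_hasDerivWithin_le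
    (f := fun s : ℝ => moll r f (x + t • u + s • w) - s • dGen r f x w)
    (f' := fun s => dGen r f (x + t • u + s • w) w - dGen r f x w)
    (s := uIcc 0 t) (C := ε / 2) (fun s _ => ?_) (fun s hs => ?_) (convex_uIcc 0 t)
    left_mem_uIcc right_mem_uIcc
  · simp only [zero_smul, add_zero, sub_zero] at hseg
    rw [show x + t • (u + w) = x + t • u + t • w by module]
    have h5 := norm_add_le (moll r f (x + t • u + t • w) - t • dGen r f x w - moll r f (x + t • u))
      (moll r f (x + t • u) - moll r f x - t • dGen r f x u)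
    rw [show moll r f (x + t • u + t • w) - t • dGen r f x w - moll r f (x + t • u)
      + (moll r f (x + t • u) - moll r f x - t • dGen r f x u)
      = moll r f (x + t • u + t • w) - moll r f x - t • (dGen r f x u + dGen r f x w) by module] at h5
    linarith
  · have h6 := (hasDerivAt_line hr hf (x + t • u) w s).sub
      ((hasDerivAt_id s).smul_const (dGen r f x w))
    rw [one_smul] at h6
    exact h6.hasDerivWithinAt
  · have hst : |s| ≤ |t| := by simpa using abs_sub_left_of_mem_uIcc hs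
    have hd : dist (x + t • u + s • w) x < δ := by
      rw [dist_eq_norm, show x + t • u + s • w - x = t • u + s • w by abel]
      refine lt_of_le_of_lt (norm_add_le _ _) (lt_of_le_of_lt ?_ htd)
      rw [norm_smul, norm_smul, Real.norm_eq_abs, Real.norm_eq_abs, mul_add]
      have := mul_le_mul_of_nonneg_right hst (norm_nonneg w)
      linarith
    have := hδc _ hd
    rw [dist_eq_norm] at this
    exact this.le

lemma jet_spec (hr : 0 < r) (hf : Lip K f) (x u : V) :
    HasDerivAt (fun t : ℝ => moll r f (x + t • u)) (jet r f x u) 0 := by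
  have h : ∃ A : V →L[ℝ] Z, ∀ u, HasDerivAt (fun t : ℝ => moll r f (x + t • u)) (A u) 0 :=
    ⟨LinearMap.mkContinuous
      { toFun := dGen r f x, map_add' := dGen_add hr hf x,
        map_smul' := fun c u => dGen_smul hr hf x u c } K (norm_dGen_le hr hf x),
      fun u => hasDerivAt_dGen hr hf x u⟩
  rw [jet, dif_pos h]
  exact h.choose_spec u

lemma jet_eq_dGen (hr : 0 < r) (hf : Lip K f) (x u : V) : jet r f x u = dGen r f x u :=
  (jet_spec hr hf x u).unique (hasDerivAt_dGen hr hf x u)

/-- A small map has small jets along each direction. -/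
lemma norm_jet_le_small {ε : ℝ} (hr : 0 < r) (hf : Lip K f) (h : ∀ y, ‖f y‖ ≤ ε) (x u : V) (i : ℕ) :
    ‖jet r f x u‖ ≤ (mollWeight V r i)⁻¹ * (2 * ε) + K * ‖u - TopologicalSpace.denseSeq V i‖ := by
  have h1 := norm_deriv_sub_le hr hf (jet_spec hr hf x u) (hasDerivAt_dDir hr hf i x)
  have h2 := norm_dDir_le hr hf h i x
  have h3 := norm_le_norm_add_norm_sub' (jet r f x u) (dDir r f i x)
  linarith

end MollAux

set_option linter.unusedSectionVars false

lemma norm_moll_sub_self (hr : 0 < r) (hf : Lip K f) (x : V) :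
    ‖moll r f x - f x‖ ≤ 2 * K * r :=
  ((norm_lim_sub_self (summable_step hr) hf x).trans
    (mul_le_mul_of_nonneg_left (tsum_step_le hr) hf.1)).trans (le_of_eq (by ring))

lemma hasDerivAt_jet (hr : 0 < r) (hf : Lip K f) (x u : V) :
    HasDerivAt (fun t : ℝ => moll r f (x + t • u)) (jet r f x u) 0 := jet_spec hr hf x u

lemma norm_jet_le (hr : 0 < r) (hf : Lip K f) (x u : V) : ‖jet r f x u‖ ≤ K * ‖u‖ := by
  rw [jet_eq_dGen hr hf]
  exact norm_dGen_le hr hf x u

lemma jet_clm (hr : 0 < r) (hf : Lip K f) (A : Z →L[ℝ] W) (x u : V) :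
    jet r (fun y => A (f y)) x u = A (jet r f x u) := by
  refine (jet_spec hr (Lip_clm hf A) x u).unique ?_
  simp_rw [moll_clm hr hf A]
  exact A.hasFDerivAt.comp_hasDerivAt 0 (jet_spec hr hf x u)

lemma jet_sub (hr : 0 < r) (hf : Lip K f) (hf' : Lip K' f') (x u : V) :
    jet r (fun y => f y - f' y) x u = jet r f x u - jet r f' x u := by
  refine (jet_spec hr (Lip_sub hf hf') x u).unique ?_
  simp_rw [moll_sub hr hf hf']
  exact (jet_spec hr hf x u).sub (jet_spec hr hf' x u)

lemma moll_eq_of_jet_zero (hr : 0 < r) (hf : Lip K f) (h : ∀ x u, jet r f x u = 0) (x y : V) :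
    moll r f x = moll r f y := by
  have hd : ∀ s : ℝ, HasDerivAt (fun t : ℝ => moll r f (x + t • (y - x))) 0 s := fun s => by
    have := hasDerivAt_line hr hf x (y - x) s
    rwa [← jet_eq_dGen hr hf, h] at this
  have := is_const_of_deriv_eq_zero (fun s => (hd s).differentiableAt) (fun s => (hd s).deriv) 0 1
  simpa using this

/-- Monotone along a direction. -/
lemma jet_nonneg (hr : 0 < r) {g : V → ℝ} (hg : Lip K g) (x u : V)
    (hmono : ∀ y : V, ∀ t : ℝ, 0 ≤ t → g y ≤ g (y + t • u)) : 0 ≤ jet r g x u := by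
  refine ge_of_tendsto (jet_spec hr hg x u).tendsto_slope_zero_right ?_
  filter_upwards [self_mem_nhdsWithin] with t (ht : 0 < t)
  simp only [zero_add, zero_smul, add_zero, smul_eq_mul]
  refine mul_nonneg (inv_nonneg.2 ht.le) ?_
  have h := lim_nonneg (g := fun y => g (y + t • u) - g y) (summable_step (V := V) hr)
    (Lip_sub (Lip_shift hg _) hg) (fun y => sub_nonneg.2 (hmono y t ht.le)) x
  rwa [lim_sub (summable_step hr) (Lip_shift hg _) hg, lim_shift] at h

/-- The jet of a derivative is symmetric. -/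
lemma jet_symm (hr : 0 < r) {P : V → Z} {Ψ : V → V →L[ℝ] Z} (hΨ : Lip K Ψ)
    (hP : ∀ s h, ‖P (s + h) - P s - Ψ s h‖ ≤ K * ‖h‖ ^ 2) (x u w : V) :
    jet r Ψ x u w = jet r Ψ x w u := by
  have hK := hΨ.1
  have hPd : ∀ y, HasFDerivAt P (Ψ y) y := fun y => by
    rw [hasFDerivAt_iff_isLittleO_nhds_zero, Asymptotics.isLittleO_iff]
    intro ε hε
    filter_upwards [Metric.ball_mem_nhds (0 : V) (div_pos hε (show 0 < K + 1 by linarith))] with h hh
    rw [mem_ball_zero_iff, lt_div_iff₀ (by linarith)] at hh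
    refine (hP y h).trans ?_
    rw [sq, ← mul_assoc]
    refine mul_le_mul_of_nonneg_right ?_ (norm_nonneg h)
    nlinarith [norm_nonneg h]
  set ev : V → ((V →L[ℝ] Z) →L[ℝ] Z) := fun v => ContinuousLinearMap.apply ℝ Z v
  set Ψv : V → V → Z := fun v y => Ψ y v with hΨv
  have hLΨ : ∀ v, Lip (K * ‖v‖) (Ψv v) := fun v =>
    ⟨mul_nonneg hK (norm_nonneg v), fun a b => by
      have h1 := (Ψ a - Ψ b).le_opNorm v
      simp only [_root_.sub_apply] at h1
      have h2 := mul_le_mul_of_nonneg_right (hΨ.2 a b) (norm_nonneg v)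
      simp only [hΨv]
      nlinarith⟩
  have hjv : ∀ a v, jet r Ψ x a v = jet r (Ψv v) x a := fun a v => by
    have := jet_clm hr hΨ (ev v) x a
    simpa [ev, hΨv] using this.symm
  -- difference quotients
  set q : V → ℝ → V → Z := fun v s y => s⁻¹ • (P (y + s • v) - P y) with hq
  have hLq : ∀ v s, s ≠ 0 → Lip (K * ‖v‖) (q v s) := fun v s hs => by
    refine ⟨mul_nonneg hK (norm_nonneg v), fun a b => ?_⟩
    have hd : ∀ y, HasFDerivAt (fun y => P (y + s • v) - P y) (Ψ (y + s • v) - Ψ y) y := fun y =>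
      (((hPd (y + s • v)).comp y ((hasFDerivAt_id y).add_const (s • v))).sub (hPd y)).congr_of_eventuallyEq
        (Eventually.of_forall fun _ => rfl)
    have hb : ∀ y, ‖Ψ (y + s • v) - Ψ y‖ ≤ K * (|s| * ‖v‖) := fun y => by
      simpa [norm_smul] using hΨ.2 (y + s • v) y
    have h1 := (convex_univ (𝕜 := ℝ) (E := V)).norm_image_sub_le_of_norm_hasFDerivWithin_le
      (fun y _ => (hd y).hasFDerivWithinAt) (fun y _ => hb y) (mem_univ b) (mem_univ a)
    simp only [hq]
    rw [← smul_sub, norm_smul, norm_inv, Real.norm_eq_abs, inv_mul_le_iff₀ (abs_pos.2 hs)]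
    linarith
  have hclose : ∀ v s, s ≠ 0 → ∀ y, ‖q v s y - Ψv v y‖ ≤ K * |s| * ‖v‖ ^ 2 := fun v s hs y => by
    have h1 := hP y (s • v)
    simp only [hq, hΨv]
    rw [show s⁻¹ • (P (y + s • v) - P y) - Ψ y v = s⁻¹ • (P (y + s • v) - P y - Ψ y (s • v)) by
      rw [map_smul, smul_sub _ _ (s • Ψ y v), smul_smul, inv_mul_cancel₀ hs, one_smul],
      norm_smul, norm_inv, Real.norm_eq_abs, inv_mul_le_iff₀ (abs_pos.2 hs)]
    rw [norm_smul, Real.norm_eq_abs, mul_pow] at h1
    exact h1.trans (le_of_eq (by ring))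
  -- the exchanged slope
  have hswap : ∀ s, s ≠ 0 →
      jet r (q w s) x u = s⁻¹ • (moll r (Ψv u) (x + s • w) - moll r (Ψv u) x) := by
    intro s hs
    refine tendsto_nhds_unique (jet_spec hr (hLq w s hs) x u).tendsto_slope_zero ?_
    have e : ∀ t : ℝ, t ≠ 0 → t⁻¹ • (moll r (q w s) (x + (0 + t) • u) - moll r (q w s) (x + (0 : ℝ) • u))
        = s⁻¹ • (moll r (q u t) (x + s • w) - moll r (q u t) x) := fun t ht => by
      rw [zero_add, zero_smul, add_zero, ← moll_slope hr (hLq w s hs) t⁻¹ (t • u) x,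
        ← moll_slope hr (hLq u t ht) s⁻¹ (s • w) x]
      congr 1
      funext y
      simp only [hq]
      rw [show y + t • u + s • w = y + s • w + t • u by abel]
      module
    have hpt : ∀ z, Tendsto (fun t => moll r (q u t) z) (𝓝[≠] (0 : ℝ)) (𝓝 (moll r (Ψv u) z)) := by
      intro z
      rw [tendsto_iff_norm_sub_tendsto_zero]
      refine squeeze_zero' (Eventually.of_forall fun _ => norm_nonneg _)
        (g := fun t : ℝ => K * |t| * ‖u‖ ^ 2) ?_ ?_
      · filter_upwards [self_mem_nhdsWithin] with t (ht : t ≠ 0)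
        rw [← moll_sub hr (hLq u t ht) (hLΨ u)]
        exact norm_moll_le hr (Lip_sub (hLq u t ht) (hLΨ u)) (hclose u t ht) z
      · exact ((continuous_const.mul continuous_abs).mul continuous_const).tendsto' 0 0 (by simp)
          |>.mono_left nhdsWithin_le_nhds
    refine (((hpt (x + s • w)).sub (hpt x)).const_smul s⁻¹).congr' ?_
    filter_upwards [self_mem_nhdsWithin] with t (ht : t ≠ 0)
    exact (e t ht).symm
  have h1 : Tendsto (fun s => jet r (q w s) x u) (𝓝[≠] (0 : ℝ)) (𝓝 (jet r (Ψv u) x w)) := by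
    refine (jet_spec hr (hLΨ u) x w).tendsto_slope_zero.congr' ?_
    filter_upwards [self_mem_nhdsWithin] with s (hs : s ≠ 0)
    simp [hswap s hs]
  have h2 : Tendsto (fun s => jet r (q w s) x u) (𝓝[≠] (0 : ℝ)) (𝓝 (jet r (Ψv w) x u)) := by
    rw [Metric.tendsto_nhds]
    intro ε hε
    have hKw : 0 ≤ K * ‖w‖ + K * ‖w‖ :=
      add_nonneg (mul_nonneg hK (norm_nonneg w)) (mul_nonneg hK (norm_nonneg w))
    obtain ⟨i, hi⟩ := exists_index u (show 0 < ε / (2 * (K * ‖w‖ + K * ‖w‖ + 1)) from
      div_pos hε (by linarith))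
    rw [lt_div_iff₀ (by linarith)] at hi
    have e1 : ∀ᶠ s in 𝓝[≠] (0 : ℝ),
        (mollWeight V r i)⁻¹ * (2 * (K * |s| * ‖w‖ ^ 2)) < ε / 2 :=
      ((((continuous_const.mul continuous_abs).mul continuous_const).const_smul (2 : ℝ)
        |>.const_smul (mollWeight V r i)⁻¹).tendsto' 0 0 (by simp) |>.mono_left
          nhdsWithin_le_nhds).eventually (eventually_lt_nhds (half_pos hε))
    filter_upwards [self_mem_nhdsWithin, e1] with s (hs : s ≠ 0) he
    rw [dist_eq_norm, ← jet_sub hr (hLq w s hs) (hLΨ w)]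
    have h3 := norm_jet_le_small hr (Lip_sub (hLq w s hs) (hLΨ w)) (hclose w s hs) x u i
    nlinarith [norm_nonneg (u - TopologicalSpace.denseSeq V i)]
  rw [hjv, hjv]
  exact tendsto_nhds_unique h2 h1

end Vale.Agent.P084.Full
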