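import Mathlib.MeasureTheory.Integral.IntervalIntegral.Basic
import Mathlib.MeasureTheory.Integral.IntervalIntegral.FundThmCalculus
import Mathlib.MeasureTheory.Integral.Prod
import Mathlib.MeasureTheory.Integral.DominatedConvergence
import Mathlib.Analysis.Calculus.Deriv.Shift
import Mathlib.Analysis.Calculus.MeanValue
import Mathlib.Analysis.Normed.Operator.Bilinear
import Mathlib.Analysis.SpecificLimits.Basic

/-! Iterated averages along a summable sequence of directions. -/

namespace Vale.Agent.P084.Full

open Filter Topology MeasureTheory Set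

variable {V Z W : Type*} [NormedAddCommGroup V] [NormedSpace ℝ V]
  [NormedAddCommGroup Z] [NormedSpace ℝ Z] [CompleteSpace Z]
  [NormedAddCommGroup W] [NormedSpace ℝ W] [CompleteSpace W]

/-- `f` is Lipschitz with constant `K`. -/
def Lip (K : ℝ) (f : V → Z) : Prop := 0 ≤ K ∧ ∀ x y, ‖f x - f y‖ ≤ K * ‖x - y‖

namespace MollAux

set_option linter.unusedSectionVars false

variable {K K' ε : ℝ} {f g : V → Z}

omit [NormedSpace ℝ V] [NormedSpace ℝ Z] [CompleteSpace Z] in
lemma Lip_continuous (hf : Lip K f) : Continuous f :=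
  (LipschitzWith.of_dist_le_mul (K := K.toNNReal) fun x y => by
    simpa [dist_eq_norm, Real.coe_toNNReal K hf.1] using hf.2 x y).continuous

omit [NormedSpace ℝ V] [CompleteSpace Z] [CompleteSpace W] in
lemma Lip_clm (hf : Lip K f) (A : Z →L[ℝ] W) : Lip (‖A‖ * K) fun y => A (f y) :=
  ⟨mul_nonneg (norm_nonneg _) hf.1, fun x y => by
    rw [← map_sub, mul_assoc]
    exact (A.le_opNorm _).trans (mul_le_mul_of_nonneg_left (hf.2 x y) (norm_nonneg _))⟩

omit [NormedSpace ℝ V] [NormedSpace ℝ Z] [NormedSpace ℝ W] [CompleteSpace Z] [CompleteSpace W] in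
lemma Lip_prod {h : V → W} (hf : Lip K f) (hh : Lip K' h) :
    Lip (max K K') fun y => (f y, h y) :=
  ⟨le_max_of_le_left hf.1, fun x y => by
    rw [Prod.norm_def]
    exact max_le ((hf.2 x y).trans (mul_le_mul_of_nonneg_right (le_max_left _ _) (norm_nonneg _)))
      ((hh.2 x y).trans (mul_le_mul_of_nonneg_right (le_max_right _ _) (norm_nonneg _)))⟩

omit [NormedSpace ℝ V] [CompleteSpace Z] in
lemma Lip_sub (hf : Lip K f) (hg : Lip K' g) : Lip (K + K') fun y => f y - g y :=
  ⟨add_nonneg hf.1 hg.1, fun x y => by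
    rw [show f x - g x - (f y - g y) = (f x - f y) - (g x - g y) by abel, add_mul]
    exact (norm_sub_le _ _).trans (add_le_add (hf.2 x y) (hg.2 x y))⟩

omit [NormedSpace ℝ V] [NormedSpace ℝ Z] [CompleteSpace Z] in
lemma Lip_shift (hf : Lip K f) (a : V) : Lip K fun y => f (y + a) :=
  ⟨hf.1, fun x y => by simpa using hf.2 (x + a) (y + a)⟩

omit [NormedSpace ℝ V] [CompleteSpace Z] in
lemma Lip_smul (hf : Lip K f) (c : ℝ) : Lip (|c| * K) fun y => c • f y :=
  ⟨mul_nonneg (abs_nonneg c) hf.1, fun x y => by
    rw [← smul_sub, norm_smul, Real.norm_eq_abs, mul_assoc]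
    exact mul_le_mul_of_nonneg_left (hf.2 x y) (abs_nonneg c)⟩

/-- The average along a segment. -/
noncomputable def avg (e : V) (f : V → Z) (x : V) : Z := ∫ τ in (0 : ℝ)..1, f (x + τ • e)

omit [CompleteSpace Z] in
lemma intble (hf : Continuous f) (x e : V) :
    IntervalIntegrable (fun τ : ℝ => f (x + τ • e)) volume 0 1 :=
  (hf.comp (continuous_const.add (continuous_id.smul continuous_const))).intervalIntegrable _ _

lemma avg_zero (f : V → Z) : avg 0 f = f := by
  funext x
  simp [avg]

lemma norm_avg_sub_le (hf : Continuous f) (hg : Continuous g) (h : ∀ y, ‖f y - g y‖ ≤ ε) (e x : V) :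
    ‖avg e f x - avg e g x‖ ≤ ε := by
  rw [avg, avg, ← intervalIntegral.integral_sub (intble hf x e) (intble hg x e)]
  refine (intervalIntegral.norm_integral_le_of_norm_le_const (fun τ _ => h _)).trans ?_
  simp

lemma Lip_avg (hf : Lip K f) (e : V) : Lip K (avg e f) := by
  refine ⟨hf.1, fun x y => ?_⟩
  have h1 := Lip_continuous hf
  rw [avg, avg, ← intervalIntegral.integral_sub (intble h1 x e) (intble h1 y e)]
  refine (intervalIntegral.norm_integral_le_of_norm_le_const (C := K * ‖x - y‖) fun τ _ => ?_).trans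
    (by simp)
  simpa using hf.2 (x + τ • e) (y + τ • e)

lemma norm_avg_sub_self (hf : Lip K f) (e x : V) : ‖avg e f x - f x‖ ≤ K * ‖e‖ := by
  have hc : f x = ∫ _τ in (0 : ℝ)..1, f x := by simp
  rw [avg, hc, ← intervalIntegral.integral_sub (intble (Lip_continuous hf) x e)
    (continuous_const.intervalIntegrable _ _)]
  refine (intervalIntegral.norm_integral_le_of_norm_le_const (C := K * ‖e‖) fun τ hτ => ?_).trans
    (by simp)
  rw [uIoc_of_le zero_le_one] at hτ
  refine (hf.2 _ _).trans (mul_le_mul_of_nonneg_left ?_ hf.1)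
  rw [add_sub_cancel_left, norm_smul, Real.norm_of_nonneg hτ.1.le]
  exact mul_le_of_le_one_left (norm_nonneg e) hτ.2

lemma avg_comm (hf : Continuous f) (a b : V) : avg a (avg b f) = avg b (avg a f) := by
  funext x
  simp only [avg]
  rw [intervalIntegral_intervalIntegral_swap
    (F := fun τ σ : ℝ => f (x + τ • a + σ • b))]
  · simp only [add_right_comm]
  · have hc : Continuous (Function.uncurry fun τ σ : ℝ => f (x + τ • a + σ • b)) :=
      hf.comp ((continuous_const.add (continuous_fst.smul continuous_const)).add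
        (continuous_snd.smul continuous_const))
    exact (hc.continuousOn.integrableOn_compact (isCompact_uIcc.prod isCompact_uIcc)).mono_set
      (prod_mono uIoc_subset_uIcc uIoc_subset_uIcc)

lemma avg_clm (hf : Continuous f) (A : Z →L[ℝ] W) (e x : V) :
    avg e (fun y => A (f y)) x = A (avg e f x) :=
  A.intervalIntegral_comp_comm (intble hf x e)

omit [CompleteSpace Z] in
lemma avg_shift (f : V → Z) (a e x : V) : avg e (fun y => f (y + a)) x = avg e f (x + a) := by
  simp only [avg, add_right_comm]

/-- A primitive along a line has the expected derivative. -/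
lemma hasDerivAt_avg (hg : Continuous g) (e x : V) :
    HasDerivAt (fun t : ℝ => avg e g (x + t • e)) (g (x + e) - g x) 0 := by
  set φ : ℝ → Z := fun s => g (x + s • e) with hφd
  have hφ : Continuous φ := hg.comp (continuous_const.add (continuous_id.smul continuous_const))
  have hP : ∀ t, HasDerivAt (fun u => ∫ s in (0 : ℝ)..u, φ s) (φ t) t := fun t =>
    (hφ.integral_hasStrictDerivAt 0 t).hasDerivAt
  have h1 := ((hP (0 + 1)).comp_add_const 0 1).fun_sub (hP 0)
  have e1 : φ (0 + 1) - φ 0 = g (x + e) - g x := by simp [hφd]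
  rw [e1] at h1
  refine h1.congr_of_eventuallyEq (Eventually.of_forall fun t => ?_)
  simp only [avg]
  rw [intervalIntegral.integral_interval_sub_left (hφ.intervalIntegrable _ _)
    (hφ.intervalIntegrable _ _)]
  have h2 := intervalIntegral.integral_comp_add_left (a := (0 : ℝ)) (b := 1) φ t
  rw [add_zero] at h2
  rw [← h2]
  exact intervalIntegral.integral_congr fun τ _ => by simp [hφd, add_smul, add_assoc]

/-- The iterated averages. -/
noncomputable def iter (e : ℕ → V) (f : V → Z) : ℕ → V → Z
  | 0 => f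
  | n + 1 => avg (e n) (iter e f n)

/-- Their limit. -/
noncomputable def lim (e : ℕ → V) (f : V → Z) (x : V) : Z :=
  limUnder atTop fun n => iter e f n x

variable {e : ℕ → V}

lemma Lip_iter (hf : Lip K f) : ∀ n, Lip K (iter e f n)
  | 0 => hf
  | n + 1 => Lip_avg (Lip_iter hf n) _

lemma dist_iter (hf : Lip K f) (x : V) (n : ℕ) :
    dist (iter e f n x) (iter e f n.succ x) ≤ K * ‖e n‖ := by
  rw [dist_eq_norm, norm_sub_rev]
  exact norm_avg_sub_self (Lip_iter hf n) _ _

lemma tendsto_lim (he : Summable fun n => ‖e n‖) (hf : Lip K f) (x : V) :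
    Tendsto (fun n => iter e f n x) atTop (𝓝 (lim e f x)) :=
  tendsto_nhds_limUnder (cauchySeq_tendsto_of_complete
    (cauchySeq_of_dist_le_of_summable _ (dist_iter hf x) (he.mul_left K)))

lemma norm_iter_sub_lim (he : Summable fun n => ‖e n‖) (hf : Lip K f) (x : V) (n : ℕ) :
    ‖iter e f n x - lim e f x‖ ≤ ∑' m, K * ‖e (n + m)‖ := by
  rw [← dist_eq_norm]
  exact dist_le_tsum_of_dist_le_of_tendsto _ (dist_iter hf x) (he.mul_left K) (tendsto_lim he hf x) n

lemma Lip_lim (he : Summable fun n => ‖e n‖) (hf : Lip K f) : Lip K (lim e f) :=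
  ⟨hf.1, fun x y => le_of_tendsto ((tendsto_lim he hf x).sub (tendsto_lim he hf y)).norm
    (Eventually.of_forall fun n => (Lip_iter hf n).2 x y)⟩

lemma norm_lim_sub_self (he : Summable fun n => ‖e n‖) (hf : Lip K f) (x : V) :
    ‖lim e f x - f x‖ ≤ K * ∑' n, ‖e n‖ := by
  have h := norm_iter_sub_lim he hf x 0
  simp only [Nat.zero_add, tsum_mul_left] at h
  rw [norm_sub_rev]
  exact h

lemma iter_clm (hf : Lip K f) (A : Z →L[ℝ] W) :
    ∀ n x, iter e (fun y => A (f y)) n x = A (iter e f n x)
  | 0, _ => rfl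
  | n + 1, x => by
    rw [iter, iter, show iter e (fun y => A (f y)) n = fun y => A (iter e f n y) from
      funext (iter_clm hf A n)]
    exact avg_clm (Lip_continuous (Lip_iter hf n)) A _ _

lemma lim_clm (he : Summable fun n => ‖e n‖) (hf : Lip K f) (A : Z →L[ℝ] W) (x : V) :
    lim e (fun y => A (f y)) x = A (lim e f x) := by
  refine tendsto_nhds_unique (tendsto_lim he (Lip_clm hf A) x) ?_
  simp_rw [iter_clm hf A]
  exact (A.continuous.tendsto _).comp (tendsto_lim he hf x)

lemma lim_sub (he : Summable fun n => ‖e n‖) (hf : Lip K f) (hg : Lip K' g) (x : V) :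
    lim e (fun y => f y - g y) x = lim e f x - lim e g x := by
  have h := Lip_prod hf hg
  have h1 := lim_clm he h (ContinuousLinearMap.fst ℝ Z Z) x
  have h2 := lim_clm he h (ContinuousLinearMap.snd ℝ Z Z) x
  have h3 := lim_clm he h (ContinuousLinearMap.fst ℝ Z Z - ContinuousLinearMap.snd ℝ Z Z) x
  simp only [_root_.sub_apply, ContinuousLinearMap.coe_fst', ContinuousLinearMap.coe_snd']
    at h1 h2 h3
  rw [h3, ← h1, ← h2]

lemma lim_smul (he : Summable fun n => ‖e n‖) (hf : Lip K f) (c : ℝ) (x : V) :
    lim e (fun y => c • f y) x = c • lim e f x :=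
  lim_clm he hf (c • ContinuousLinearMap.id ℝ Z) x

lemma iter_shift (f : V → Z) (a : V) :
    ∀ n x, iter e (fun y => f (y + a)) n x = iter e f n (x + a)
  | 0, _ => rfl
  | n + 1, x => by
    rw [iter, iter, show iter e (fun y => f (y + a)) n = fun y => iter e f n (y + a) from
      funext (iter_shift f a n)]
    exact avg_shift _ _ _ _

lemma lim_shift (f : V → Z) (a x : V) : lim e (fun y => f (y + a)) x = lim e f (x + a) := by
  unfold lim
  congr 1
  exact funext fun n => iter_shift f a n x

lemma norm_lim_le (he : Summable fun n => ‖e n‖) (hf : Lip K f) (h : ∀ y, ‖f y‖ ≤ ε) (x : V) :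
    ‖lim e f x‖ ≤ ε := by
  have key : ∀ n y, ‖iter e f n y‖ ≤ ε := by
    intro n
    induction n with
    | zero => exact h
    | succ n ih =>
      intro y
      refine (intervalIntegral.norm_integral_le_of_norm_le_const fun τ _ => ih _).trans ?_
      simp
  exact le_of_tendsto (tendsto_lim he hf x).norm (Eventually.of_forall fun n => key n x)

lemma lim_nonneg {g : V → ℝ} (he : Summable fun n => ‖e n‖) (hg : Lip K g) (h : ∀ y, 0 ≤ g y)
    (x : V) : 0 ≤ lim e g x := by
  have key : ∀ n y, 0 ≤ iter e g n y := by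
    intro n
    induction n with
    | zero => exact h
    | succ n ih => exact fun y => intervalIntegral.integral_nonneg zero_le_one fun τ _ => ih _
  exact ge_of_tendsto (tendsto_lim he hg x) (Eventually.of_forall fun n => key n x)

lemma iter_update (hf : Lip K f) (i : ℕ) : ∀ n, n ≤ i → iter e f n = iter (Function.update e i 0) f n
  | 0, _ => rfl
  | n + 1, h => by
    rw [iter, iter, Function.update_of_ne (Nat.ne_of_lt h), iter_update hf i n (Nat.le_of_succ_le h)]

lemma iter_split (hf : Lip K f) (i : ℕ) :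
    ∀ n, i < n → iter e f n = avg (e i) (iter (Function.update e i 0) f n)
  | 0, h => absurd h (Nat.not_lt_zero i)
  | n + 1, h => by
    rcases (Nat.lt_succ_iff.1 h).lt_or_eq with h' | h'
    · rw [iter, iter, Function.update_of_ne h'.ne', iter_split hf i n h',
        avg_comm (Lip_continuous (Lip_iter hf n))]
    · subst h'
      rw [iter, iter, Function.update_self, avg_zero, iter_update hf i i le_rfl]

lemma summable_update (he : Summable fun n => ‖e n‖) (i : ℕ) :
    Summable fun n => ‖Function.update e i 0 n‖ :=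
  he.of_nonneg_of_le (fun n => norm_nonneg _) fun n => by
    rcases eq_or_ne n i with h | h
    · subst h; simp
    · rw [Function.update_of_ne h]

lemma lim_split (he : Summable fun n => ‖e n‖) (hf : Lip K f) (i : ℕ) :
    lim e f = avg (e i) (lim (Function.update e i 0) f) := by
  have he' := summable_update he i
  funext x
  refine tendsto_nhds_unique (tendsto_lim he hf x) ?_
  refine Tendsto.congr' (eventually_atTop.2 ⟨i + 1, fun n hn =>
    (congrFun (iter_split hf i n hn) x).symm⟩) ?_
  rw [tendsto_iff_norm_sub_tendsto_zero]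
  refine squeeze_zero (fun n => norm_nonneg _) (fun n => norm_avg_sub_le
    (Lip_continuous (Lip_iter hf n)) (Lip_continuous (Lip_lim he' hf))
    (fun y => norm_iter_sub_lim he' hf y n) _ _) ?_
  have := tendsto_sum_nat_add fun m => K * ‖Function.update e i 0 m‖
  simpa only [add_comm] using this

end MollAux

end Vale.Agent.P084.Full
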