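import Vale.Agent.P084.Full.PlaneDet
import Vale.Agent.P084.Full.RankOne

/-! The ends of the smooth arcs of a planar sphere. -/

namespace Vale.Agent.P084.Full

open Inf Filter Topology Metric MeasureTheory Set
open scoped NNReal

set_option linter.unusedSectionVars false

variable {X Y : Type*} [NormedAddCommGroup X] [NormedSpace ℝ X] [CompleteSpace X]
  [NormedAddCommGroup Y] [NormedSpace ℝ Y] [CompleteSpace Y]
  {T : X → Y} {T' : Y → X}

/-- The derivative is a linear bijection at every point. -/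
lemma exists_linearEquiv (hT : IsTingley T T') {a : X} (ha : a ≠ 0) :
    ∃ A : X ≃ₗ[ℝ] Y, ∀ v, dT T a v = A v := by
  obtain ⟨C, hC⟩ := exists_ctrl hT
  obtain ⟨C', hC'⟩ := exists_ctrl hT.symm
  obtain ⟨A, hA⟩ : ∃ A : X →ₗ[ℝ] Y, ∀ v, dT T a v = A v := by
    by_cases h : C11At a
    · exact ⟨(dTc T a).toLinearMap, fun v => (dTc_apply hT hC ha h.smooth v).symm⟩
    · obtain ⟨A, hA, -⟩ := exists_isometry_of_not_c11 hT ha h
      exact ⟨A, hA⟩
  refine ⟨LinearEquiv.ofBijective A ⟨fun u w huw => ?_, fun v => ⟨dT T' (T a) v, ?_⟩⟩, fun v => hA v⟩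
  · rw [← dT_left hT hC ha hC' u, ← dT_left hT hC ha hC' w, hA, hA, huw]
  · have := dT_left hT.symm hC' (hT.map_ne_zero ha) hC v
    rw [hT.left, hA] at this
    exact this

lemma finrank_eq (hT : IsTingley T T') (hdim : Module.finrank ℝ X = 2) :
    Module.finrank ℝ Y = 2 := by
  have : FiniteDimensional ℝ X := Module.finite_of_finrank_eq_succ hdim
  obtain ⟨a, ha⟩ : ∃ a : X, a ≠ 0 := by
    have : Nontrivial X := Module.nontrivial_of_finrank_eq_succ hdim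
    exact exists_ne 0
  obtain ⟨A, -⟩ := exists_linearEquiv hT ha
  rw [← A.finrank_eq, hdim]

lemma arc_mk (hT : IsTingley T T') (hdim : Module.finrank ℝ X = 2) {a₀ b : X} {c d : ℝ}
    (hind : ∀ α β : ℝ, α • a₀ + β • b = 0 → α = 0 ∧ β = 0) (hcd : c ≤ d)
    (hc : ∀ s ∈ Icc c d, C11At (a₀ + s • b)) : Arc T T' a₀ b c d :=
  ⟨hT, exists_ctrl hT, exists_ctrl hT.symm, hdim, finrank_eq hT hdim, hind, hcd, hc⟩

/-- The limit of the velocity at an end. -/
lemma tendsto_velocity (hT : IsTingley T T') (hdim : Module.finrank ℝ X = 2) {p v : X}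
    (hind : ∀ α β : ℝ, α • p + β • v = 0 → α = 0 ∧ β = 0) {τ₀ : ℝ} (h0 : 0 < τ₀)
    (hc : ∀ τ ∈ Ioo 0 τ₀, C11At (p + τ • v)) :
    Tendsto (fun τ => dTc T (Arc.pt p v τ) v) (𝓝[>] 0) (𝓝 (dT T p v)) := by
  obtain ⟨C, hC⟩ := exists_ctrl hT
  have hp : p ≠ 0 := fun h => one_ne_zero (hind 1 0 (by simp [h])).1
  set U := fun τ => phi (Arc.pt p v τ) v with hU
  set S := U '' Ioo 0 τ₀ with hS
  have harc : ∀ r τ, r ∈ Ioo 0 τ₀ → τ ∈ Ioo 0 τ₀ → r ≤ τ → Arc T T' p v r τ := fun r τ hr hτ hrτ =>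
    arc_mk hT hdim hind hrτ fun s hs => hc s ⟨hr.1.trans_le hs.1, hs.2.trans_lt hτ.2⟩
  have hbd : BddBelow S := ⟨-‖v‖, by
    rintro _ ⟨τ, hτ, rfl⟩
    simp only [hU]
    rw [Arc.pt, phi_apply (hc τ hτ).smooth]
    exact (abs_le.1 (abs_Dn_le _ _)).1⟩
  have hne : S.Nonempty := ⟨U (τ₀ / 2), τ₀ / 2, ⟨by linarith, by linarith⟩, rfl⟩
  set ℓ := sInf S
  have hmono : ∀ r τ, r ∈ Ioo 0 τ₀ → τ ∈ Ioo 0 τ₀ → r ≤ τ → U r ≤ U τ := fun r τ hr hτ hrτ => by
    have h := harc r τ hr hτ hrτ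
    have := h.mono_u hrτ
    rwa [Arc.u, Arc.u, h.cl_eq (left_mem_Icc.2 hrτ), h.cl_eq (right_mem_Icc.2 hrτ)] at this
  have hstep : ∀ τ ∈ Ioo 0 τ₀,
      ‖τ⁻¹ • (T (Arc.pt p v τ) - T p) - dTc T (Arc.pt p v τ) v‖ ≤ 2 * (U τ - ℓ) := by
    intro τ hτ
    have key : ∀ r ∈ Ioo 0 τ, ‖T (Arc.pt p v τ) - T (Arc.pt p v r)
        - (τ - r) • dTc T (Arc.pt p v τ) v‖ ≤ 2 * (U τ - ℓ) * (τ - r) := by
      intro r hr
      have hr' : r ∈ Ioo 0 τ₀ := ⟨hr.1, hr.2.trans hτ.2⟩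
      have h := harc r τ hr' hτ hr.2.le
      have h1 := Convex.norm_image_sub_le_of_norm_hasDerivWithin_le
        (f := fun x => Arc.Z T p v x - x • dTc T (Arc.pt p v τ) v)
        (f' := fun x => Arc.V T p v r τ x - dTc T (Arc.pt p v τ) v) (s := Icc r τ)
        (C := 2 * (U τ - ℓ))
        (fun x hx => (((h.hasDerivAt_Z hx).sub
          ((hasDerivAt_id x).smul_const (dTc T (Arc.pt p v τ) v))).congr_deriv
            (by rw [one_smul])).hasDerivWithinAt)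
        (fun x hx => ?_) (convex_Icc r τ) (left_mem_Icc.2 hr.2.le) (right_mem_Icc.2 hr.2.le)
      · rw [Real.norm_eq_abs, abs_of_pos (sub_pos.2 hr.2)] at h1
        refine le_of_eq_of_le ?_ h1
        congr 1
        simp only [Arc.Z]
        module
      · have h2 := h.norm_V_sub_le' (right_mem_Icc.2 hr.2.le) hx
        have hux : Arc.u p v r τ x = U x := by rw [Arc.u, h.cl_eq hx]
        have huτ : Arc.u p v r τ τ = U τ := by rw [Arc.u, h.cl_eq (right_mem_Icc.2 hr.2.le)]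
        have hx' : x ∈ Ioo 0 τ₀ := ⟨hr.1.trans_le hx.1, hx.2.trans_lt hτ.2⟩
        have h3 := hmono x τ hx' hτ hx.2
        have h4 := csInf_le hbd (mem_image_of_mem U hx')
        rw [hux, huτ, abs_of_nonpos (by linarith), Arc.V, Arc.V, h.cl_eq (right_mem_Icc.2 hr.2.le)] at h2
        exact h2.trans (by linarith)
    have hcont : Continuous fun r => ‖T (Arc.pt p v τ) - T (Arc.pt p v r)
        - (τ - r) • dTc T (Arc.pt p v τ) v‖ := by
      have hpt : Continuous fun r => T (Arc.pt p v r) := by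
        unfold Arc.pt
        exact hT.lipschitz.continuous.comp (by fun_prop)
      exact ((continuous_const.sub hpt).sub
        ((continuous_const.sub continuous_id).smul continuous_const)).norm
    have h5 := le_of_tendsto_of_tendsto ((hcont.tendsto 0).mono_left nhdsWithin_le_nhds)
      (((continuous_const.mul (continuous_const.sub continuous_id)).tendsto 0).mono_left
        (nhdsWithin_le_nhds (s := Ioi 0)))
      (eventually_of_mem (Ioo_mem_nhdsGT hτ.1) key)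
    simp only [Arc.pt, zero_smul, add_zero, sub_zero, id_eq, Pi.mul_apply, Pi.sub_apply] at h5 ⊢
    calc ‖τ⁻¹ • (T (p + τ • v) - T p) - dTc T (p + τ • v) v‖
        = τ⁻¹ * ‖T (p + τ • v) - T p - τ • dTc T (p + τ • v) v‖ := by
          rw [show τ⁻¹ • (T (p + τ • v) - T p) - dTc T (p + τ • v) v
            = τ⁻¹ • (T (p + τ • v) - T p - τ • dTc T (p + τ • v) v) by
              rw [smul_sub τ⁻¹ (T (p + τ • v) - T p), inv_smul_smul₀ hτ.1.ne'],
            norm_smul, norm_inv, Real.norm_of_nonneg hτ.1.le]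
      _ ≤ τ⁻¹ * (2 * (U τ - ℓ) * τ) := mul_le_mul_of_nonneg_left h5 (inv_nonneg.2 hτ.1.le)
      _ = 2 * (U τ - ℓ) := by field_simp [hτ.1.ne']
  refine tendsto_of_tendsto_of_dist (tendsto_dT hT hC hp v) ?_
  rw [Metric.tendsto_nhds]
  intro ε hε
  obtain ⟨_, ⟨τ₁, hτ₁, rfl⟩, hlt⟩ := exists_lt_of_csInf_lt hne
    (show ℓ < ℓ + ε / 2 by linarith)
  filter_upwards [Ioo_mem_nhdsGT hτ₁.1] with τ hτ
  have hτ' : τ ∈ Ioo 0 τ₀ := ⟨hτ.1, hτ.2.trans hτ₁.2⟩
  rw [Real.dist_0_eq_abs, abs_dist, dist_eq_norm]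
  have := hstep τ hτ'
  have := hmono τ τ₁ hτ' hτ₁ hτ.2.le
  simp only [Arc.pt] at *
  linarith

/-- The limit of the squared determinant at an end. -/
lemma tendsto_Dsq (hT : IsTingley T T') (hdim : Module.finrank ℝ X = 2)
    (β : Module.Basis (Fin 2) ℝ Y) {p v : X}
    (hind : ∀ α γ : ℝ, α • p + γ • v = 0 → α = 0 ∧ γ = 0) {τ₀ : ℝ} (h0 : 0 < τ₀)
    (hc : ∀ τ ∈ Ioo 0 τ₀, C11At (p + τ • v)) :
    Tendsto (Dsq β T p v) (𝓝[>] 0) (𝓝 (pdet β (T p) (dT T p v) ^ 2)) := by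
  have : FiniteDimensional ℝ Y := Module.Finite.of_basis β
  have hV := tendsto_velocity hT hdim hind h0 hc
  have hZ : Tendsto (fun τ => T (Arc.pt p v τ)) (𝓝[>] 0) (𝓝 (T p)) := by
    have : Continuous fun τ => T (Arc.pt p v τ) := by
      unfold Arc.pt
      exact hT.lipschitz.continuous.comp (by fun_prop)
    exact (this.tendsto' 0 (T p) (by simp [Arc.pt])).mono_left nhdsWithin_le_nhds
  have c0 := (β.coord 0).continuous_of_finiteDimensional
  have c1 := (β.coord 1).continuous_of_finiteDimensional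
  have e : Dsq β T p v = fun τ =>
      (β.coord 0 (T (Arc.pt p v τ)) * β.coord 1 (dTc T (Arc.pt p v τ) v)
        - β.coord 1 (T (Arc.pt p v τ)) * β.coord 0 (dTc T (Arc.pt p v τ) v)) ^ 2 := rfl
  rw [e, pdet]
  exact ((((c0.tendsto _).comp hZ).mul ((c1.tendsto _).comp hV)).sub
    (((c1.tendsto _).comp hZ).mul ((c0.tendsto _).comp hV))).pow 2

/-- Every linear isometry gives the same squared determinant. -/
lemma pdet_isometry_sq (β : Module.Basis (Fin 2) ℝ Y) (A : X ≃ₗ[ℝ] Y) (A' : X →ₗ[ℝ] Y)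
    (hA : ∀ v, ‖A v‖ = ‖v‖) (hA' : ∀ v, ‖A' v‖ = ‖v‖) (p v : X) :
    pdet β (A' p) (A' v) ^ 2 = pdet β (A p) (A v) ^ 2 := by
  have h := abs_pdet_map β (A'.comp A.symm.toLinearMap) (fun w => by
    rw [LinearMap.comp_apply, hA', LinearEquiv.coe_coe, ← hA, A.apply_symm_apply]) (A p) (A v)
  simp only [LinearMap.comp_apply, LinearEquiv.coe_coe, LinearEquiv.symm_apply_apply] at h
  rw [← sq_abs, h, sq_abs]

/-- At a point outside the smooth set the end value is the isometric one. -/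
lemma end_value (hT : IsTingley T T') (β : Module.Basis (Fin 2) ℝ Y) (A : X ≃ₗ[ℝ] Y)
    (hA : ∀ v, ‖A v‖ = ‖v‖) {p : X} (hp : p ≠ 0) (hn : ¬ C11At p) (v : X) :
    pdet β (T p) (dT T p v) ^ 2 = pdet β (A p) (A v) ^ 2 := by
  obtain ⟨C, hC⟩ := exists_ctrl hT
  obtain ⟨A', hA', hiso⟩ := exists_isometry_of_not_c11 hT hp hn
  rw [← pdet_isometry_sq β A A' hA hiso p v, ← hA' v, ← hA' p, dT_self hT hC hp]

/-- The squared determinant approaches the end value to the right. -/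
lemma right_end (hT : IsTingley T T') (hdim : Module.finrank ℝ X = 2)
    (β : Module.Basis (Fin 2) ℝ Y) {a₀ b : X}
    (hind : ∀ α γ : ℝ, α • a₀ + γ • b = 0 → α = 0 ∧ γ = 0) {K : ℝ}
    (hK : pdet β (T b) (dT T b a₀) ^ 2 = K)
    (hKd : ∀ d, ¬ C11At (Arc.pt a₀ b d) →
      pdet β (T (Arc.pt a₀ b d)) (dT T (Arc.pt a₀ b d) (-b)) ^ 2 = K)
    {x : ℝ} (hx : 0 ≤ x) (hG : ∀ s ∈ Icc 0 x, C11At (Arc.pt a₀ b s)) {ε : ℝ} (hε : 0 < ε) :
    ∃ y, x ≤ y ∧ (∀ s ∈ Icc 0 y, C11At (Arc.pt a₀ b s)) ∧ |Dsq β T a₀ b y - K| < ε := by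
  obtain ⟨C, hC⟩ := exists_ctrl hT
  have hne : ∀ s, Arc.pt a₀ b s ≠ 0 := fun s h =>
    one_ne_zero (hind 1 s (by rw [one_smul]; exact h)).1
  have hopen : IsOpen {s : ℝ | C11At (Arc.pt a₀ b s)} := by
    refine isOpen_iff_eventually.2 fun s hs => ?_
    have : Continuous fun s => Arc.pt a₀ b s := by
      unfold Arc.pt
      fun_prop
    exact (this.tendsto s).eventually hs.eventually
  by_cases hall : ∀ s, 0 ≤ s → C11At (Arc.pt a₀ b s)
  · have hind' : ∀ α γ : ℝ, α • b + γ • a₀ = 0 → α = 0 ∧ γ = 0 := fun α γ h => by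
      rw [add_comm] at h
      exact (hind γ α h).symm
    have hpt : ∀ τ : ℝ, 0 < τ → b + τ • a₀ = τ • Arc.pt a₀ b τ⁻¹ := fun τ hτ => by
      rw [Arc.pt, smul_add, smul_smul, mul_inv_cancel₀ hτ.ne', one_smul, add_comm]
    have hlim := tendsto_Dsq hT hdim β hind' one_pos (fun τ hτ => by
      rw [hpt τ hτ.1]
      exact (hall _ (inv_nonneg.2 hτ.1.le)).smul hτ.1)
    rw [hK] at hlim
    obtain ⟨τ, hd, hτ⟩ := ((Metric.tendsto_nhds.1 hlim ε hε).and
      (Ioo_mem_nhdsGT (show (0 : ℝ) < (x + 1)⁻¹ by positivity))).exists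
    have hxy : x ≤ τ⁻¹ := by
      have h1 := le_inv_of_le_inv₀ hτ.1 hτ.2.le
      linarith
    refine ⟨τ⁻¹, hxy, fun s hs => hall s hs.1, ?_⟩
    rw [Real.dist_eq] at hd
    refine lt_of_eq_of_lt ?_ hd
    congr 2
    set q := Arc.pt a₀ b τ⁻¹ with hq
    have hs : Smooth q := (hall _ (inv_nonneg.2 hτ.1.le)).smooth
    have hq' : Arc.pt b a₀ τ = τ • q := hpt τ hτ.1
    have hL : ∀ v, dTc T (Arc.pt b a₀ τ) v = dTc T q v := fun v => by
      rw [hq', dTc_apply hT hC (smul_ne_zero hτ.1.ne' (hne _))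
        (((hall _ (inv_nonneg.2 hτ.1.le)).smul hτ.1).smooth), dTc_apply hT hC (hne _) hs,
        dT_smul_base hT (hne _) hτ.1]
    have hTq : T q = dTc T q a₀ + τ⁻¹ • dTc T q b := by
      rw [← map_smul, ← map_add]
      exact ((dTc_apply hT hC (hne _) hs q).trans (dT_self hT hC (hne _))).symm
    simp only [Dsq]
    rw [hL, hq', hT.homog _ _ hτ.1, ← hq, hTq]
    simp only [pdet, map_add, map_smul, smul_eq_mul]
    field_simp [hτ.1.ne']
    ring
  · push Not at hall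
    obtain ⟨s₁, hs₁, hbad⟩ := hall
    set B : Set ℝ := Ici 0 ∩ {s : ℝ | C11At (Arc.pt a₀ b s)}ᶜ with hB
    have hBc : IsClosed B := isClosed_Ici.inter hopen.isClosed_compl
    have hBb : BddBelow B := ⟨0, fun s hs => hs.1⟩
    have hmem : sInf B ∈ B := hBc.csInf_mem ⟨s₁, hs₁, hbad⟩ hBb
    set d := sInf B with hd
    have hlt : ∀ s, 0 ≤ s → s < d → C11At (Arc.pt a₀ b s) := fun s h1 h2 => by
      by_contra hn
      exact absurd (csInf_le hBb ⟨h1, hn⟩) (not_le.2 h2)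
    have hxd : x < d := by
      by_contra hn
      exact hmem.2 (hG d ⟨hmem.1, le_of_not_gt hn⟩)
    have hind' : ∀ α γ : ℝ, α • Arc.pt a₀ b d + γ • -b = 0 → α = 0 ∧ γ = 0 := fun α γ h => by
      obtain ⟨h1, h2⟩ := hind α (α * d - γ) (by rw [← h, Arc.pt]; module)
      rw [h1] at h2
      exact ⟨h1, by linarith⟩
    have hpt : ∀ τ : ℝ, Arc.pt (Arc.pt a₀ b d) (-b) τ = Arc.pt a₀ b (d - τ) := fun τ => by
      simp only [Arc.pt]
      module
    have hlim := tendsto_Dsq hT hdim β hind' (τ₀ := d) (hx.trans_lt hxd) (fun τ hτ => by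
      change C11At (Arc.pt (Arc.pt a₀ b d) (-b) τ)
      rw [hpt]
      exact hlt _ (by linarith [hτ.2]) (by linarith [hτ.1]))
    rw [hKd d hmem.2] at hlim
    obtain ⟨τ, hd', hτ⟩ := ((Metric.tendsto_nhds.1 hlim ε hε).and
      (Ioo_mem_nhdsGT (show (0 : ℝ) < d - x by linarith))).exists
    refine ⟨d - τ, by linarith [hτ.2], fun s hs => hlt s hs.1 (by linarith [hs.2, hτ.1]), ?_⟩
    rw [Real.dist_eq] at hd'
    refine lt_of_eq_of_lt ?_ hd'
    congr 2
    simp only [Dsq, hpt, map_neg]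
    simp only [pdet, map_neg]
    ring

end Vale.Agent.P084.Full
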