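import Vale.Agent.P084.Full.Arc
import Vale.Agent.P084.Full.PlaneEnds

/-! In dimension two the derivative of the extension preserves the norm. -/

namespace Vale.Agent.P084.Full

open Inf Filter Topology Metric MeasureTheory Set
open scoped NNReal

set_option linter.unusedSectionVars false

variable {X Y : Type*} [NormedAddCommGroup X] [NormedSpace ℝ X] [CompleteSpace X]
  [NormedAddCommGroup Y] [NormedSpace ℝ Y] [CompleteSpace Y]
  {T : X → Y} {T' : Y → X}

lemma Dsq_neg (β : Module.Basis (Fin 2) ℝ Y) (T : X → Y) (a₀ b : X) (y : ℝ) :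
    Dsq β T a₀ (-b) y = Dsq β T a₀ b (-y) := by
  have e : Arc.pt a₀ (-b) y = Arc.pt a₀ b (-y) := by
    simp only [Arc.pt]
    module
  simp only [Dsq, e, map_neg, pdet]
  ring

/-- The velocity is locally constant on a planar smooth arc. -/
lemma exists_velocity_const (hT : IsTingley T T') (hdim : Module.finrank ℝ X = 2) {a₀ b : X}
    (hind : ∀ α β : ℝ, α • a₀ + β • b = 0 → α = 0 ∧ β = 0) (ha : C11At a₀)
    (hb : ¬ C11At b ∨ ∀ p : X, p ≠ 0 → C11At p) :
    ∃ ρ, 0 < ρ ∧ (∀ s ∈ Icc (-ρ) ρ, C11At (Arc.pt a₀ b s)) ∧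
      ∀ s ∈ Icc (-ρ) ρ, dTc T (Arc.pt a₀ b s) b = dTc T a₀ b := by
  obtain ⟨C, hC⟩ := exists_ctrl hT
  have : FiniteDimensional ℝ X := Module.finite_of_finrank_eq_succ hdim
  have : FiniteDimensional ℝ Y := Module.finite_of_finrank_eq_succ (finrank_eq hT hdim)
  set β := Module.finBasisOfFinrankEq ℝ Y (finrank_eq hT hdim)
  have hb0 : b ≠ 0 := fun h => one_ne_zero (hind 0 1 (by rw [h]; simp)).2
  have hne : ∀ s, Arc.pt a₀ b s ≠ 0 := fun s h =>
    one_ne_zero (hind 1 s (by rw [one_smul]; exact h)).1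
  have hind' : ∀ α γ : ℝ, α • a₀ + γ • -b = 0 → α = 0 ∧ γ = 0 := fun α γ h => by
    rw [smul_neg, ← neg_smul] at h
    obtain ⟨h1, h2⟩ := hind α (-γ) h
    exact ⟨h1, neg_eq_zero.1 h2⟩
  have hne' : ∀ s, Arc.pt a₀ (-b) s ≠ 0 := fun s h =>
    one_ne_zero (hind' 1 s (by rw [one_smul]; exact h)).1
  -- the common end value
  obtain ⟨K, hK, hKd, hK', hKd'⟩ : ∃ K, pdet β (T b) (dT T b a₀) ^ 2 = K ∧
      (∀ d, ¬ C11At (Arc.pt a₀ b d) →
        pdet β (T (Arc.pt a₀ b d)) (dT T (Arc.pt a₀ b d) (-b)) ^ 2 = K) ∧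
      pdet β (T (-b)) (dT T (-b) a₀) ^ 2 = K ∧
      (∀ d, ¬ C11At (Arc.pt a₀ (-b) d) →
        pdet β (T (Arc.pt a₀ (-b) d)) (dT T (Arc.pt a₀ (-b) d) (-(-b))) ^ 2 = K) := by
    rcases hb with hb | hall
    · obtain ⟨A₀, hA₀, hiso⟩ := exists_isometry_of_not_c11 hT hb0 hb
      obtain ⟨A, hA⟩ := exists_linearEquiv hT hb0
      have hA' : ∀ v, ‖A v‖ = ‖v‖ := fun v => by rw [← hA, hA₀, hiso]
      refine ⟨_, rfl, fun d hd => ?_, ?_, fun d hd => ?_⟩
      · rw [end_value hT β A hA' (hne d) hd, end_value hT β A hA' hb0 hb]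
        simp only [pdet, Arc.pt, map_add, map_smul, map_neg, smul_eq_mul]
        ring
      · rw [end_value hT β A hA' (neg_ne_zero.2 hb0) (fun h => hb (by simpa using h.neg)),
          end_value hT β A hA' hb0 hb]
        simp only [pdet, map_neg]
        ring
      · rw [end_value hT β A hA' (hne' d) hd, end_value hT β A hA' hb0 hb]
        simp only [pdet, Arc.pt, map_add, map_smul, map_neg, smul_eq_mul]
        ring
    · refine ⟨_, rfl, fun d hd => absurd (hall _ (hne d)) hd, ?_,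
        fun d hd => absurd (hall _ (hne' d)) hd⟩
      have hs := (hall b hb0).smooth
      have e : dT T (-b) a₀ = dT T b a₀ := by
        have h1 : dT T (-b) a₀ = -dT T b (-a₀) := by
          refine tendsto_nhds_unique (tendsto_dT hT hC (neg_ne_zero.2 hb0) a₀)
            ((tendsto_dT hT hC hb0 (-a₀)).neg.congr' (Eventually.of_forall fun t => ?_))
          simp only
          rw [show -b + t • a₀ = -(b + t • -a₀) by module, hT.odd_general, hT.odd_general,
            ← smul_neg]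
          congr 1
          abel
        rw [h1, dT_neg_of_smooth hT hC hb0 hs, neg_neg]
      rw [e, hT.odd_general]
      simp only [pdet, map_neg]
      ring
  obtain ⟨δ, hδ, hball⟩ := Metric.eventually_nhds_iff.1
    ((show Continuous fun s => Arc.pt a₀ b s from continuous_const.add
      (continuous_id.smul continuous_const)).tendsto' 0 a₀ (by simp [Arc.pt]) |>.eventually ha.eventually)
  set ρ := δ / 2 with hρdef
  have hρ : 0 < ρ := half_pos hδ
  have hG : ∀ s ∈ Icc (-ρ) ρ, C11At (Arc.pt a₀ b s) := fun s hs => hball (by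
    rw [Real.dist_0_eq_abs, abs_lt]
    constructor <;> linarith [hs.1, hs.2])
  refine ⟨ρ, hρ, hG, fun s hs => ?_⟩
  have harc : Arc T T' a₀ b (-ρ) ρ := arc_mk hT hdim hind (by linarith) hG
  obtain ⟨-, hconst⟩ := harc.det_dichotomy β
  suffices heq : Dsq β T a₀ b (-ρ) = Dsq β T a₀ b ρ by
    have h1 := hconst heq s hs
    have h2 := hconst heq 0 ⟨by linarith, hρ.le⟩
    simp only [Arc.V, harc.cl_eq hs, harc.cl_eq (left_mem_Icc.2 (by linarith : -ρ ≤ ρ)),
      harc.cl_eq (show (0 : ℝ) ∈ Icc (-ρ) ρ from ⟨by linarith, hρ.le⟩)] at h1 h2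
    rw [h1, ← h2, show Arc.pt a₀ b 0 = a₀ by simp [Arc.pt]]
  by_contra hne2
  set ε := |Dsq β T a₀ b (-ρ) - Dsq β T a₀ b ρ| / 4 with hεdef
  have hε : 0 < ε := div_pos (abs_pos.2 (sub_ne_zero.2 hne2)) (by norm_num)
  obtain ⟨y, hy, hyG, hyK⟩ := right_end hT hdim β hind hK hKd hρ.le
    (fun s hs => hG s ⟨by linarith [hs.1], hs.2⟩) hε
  obtain ⟨z, hz, hzG, hzK⟩ := right_end hT hdim β hind' hK' hKd' hρ.le (fun s hs => by
    rw [show Arc.pt a₀ (-b) s = Arc.pt a₀ b (-s) by simp only [Arc.pt]; module]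
    exact hG _ ⟨by linarith [hs.2], by linarith [hs.1]⟩) hε
  rw [Dsq_neg] at hzK
  have hbig : Arc T T' a₀ b (-z) y := arc_mk hT hdim hind (by linarith) fun s hs => by
    rcases le_total 0 s with h0 | h0
    · exact hyG s ⟨h0, hs.2⟩
    · have := hzG (-s) ⟨neg_nonneg.2 h0, by linarith [hs.1]⟩
      rwa [show Arc.pt a₀ (-b) (-s) = Arc.pt a₀ b s by simp only [Arc.pt]; module] at this
  have i1 : -z ∈ Icc (-z) y := ⟨le_rfl, by linarith⟩
  have i2 : -ρ ∈ Icc (-z) y := ⟨by linarith, by linarith⟩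
  have i3 : ρ ∈ Icc (-z) y := ⟨by linarith, hy⟩
  have i4 : y ∈ Icc (-z) y := ⟨by linarith, le_rfl⟩
  obtain ⟨h3, h4⟩ := abs_lt.1 hyK
  obtain ⟨h5, h6⟩ := abs_lt.1 hzK
  rcases (hbig.det_dichotomy β).1 with hm | hm
  · have m1 := hm i1 i2 (by linarith)
    have m2 := hm i2 i3 (by linarith)
    have m3 := hm i3 i4 hy
    rw [abs_of_nonpos (by linarith)] at hεdef
    linarith
  · have m1 := hm i1 i2 (by linarith)
    have m2 := hm i2 i3 (by linarith)
    have m3 := hm i3 i4 hy
    rw [abs_of_nonneg (by linarith)] at hεdef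
    linarith

/-- Two independent vectors of a plane span it. -/
lemma exists_comb (hdim : Module.finrank ℝ X = 2) {a₀ b : X}
    (hind : ∀ α β : ℝ, α • a₀ + β • b = 0 → α = 0 ∧ β = 0) (e : X) :
    ∃ α β : ℝ, α • a₀ + β • b = e := by
  have : FiniteDimensional ℝ X := Module.finite_of_finrank_eq_succ hdim
  have hli : LinearIndependent ℝ ![a₀, b] := LinearIndependent.pair_iff.2 hind
  have hsp := hli.span_eq_top_of_card_eq_finrank (by rw [Fintype.card_fin, hdim])
  rw [Matrix.range_cons, Matrix.range_cons, Matrix.range_empty, union_empty, singleton_union] at hsp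
  exact Submodule.mem_span_pair.1 (hsp ▸ Submodule.mem_top)

/-- In dimension two the derivative of the extension preserves the norm. -/
theorem norm_dT_two (hT : IsTingley T T') (hdim : Module.rank ℝ X = 2) {a : X} (ha : a ≠ 0)
    (v : X) : ‖dT T a v‖ = ‖v‖ := by
  have hd : Module.finrank ℝ X = 2 := Module.finrank_eq_of_rank_eq hdim
  obtain ⟨C, hC⟩ := exists_ctrl hT
  refine norm_dT_of_locally_const hT (fun y hy hc _ e he => ?_) ha v
  have hy0 : y ≠ 0 := norm_ne_zero_iff.1 (by rw [hy]; exact one_ne_zero)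
  rcases eq_or_ne e 0 with rfl | he0
  · exact Eventually.of_forall fun t => by rw [smul_zero, add_zero]
  have hye : ∀ α β : ℝ, α • y + β • e = 0 → α = 0 ∧ β = 0 := by
    intro α β h
    have h1 : Dn y (α • y + β • e) = α := by
      rw [hc.smooth.map_add, hc.smooth.map_smul, hc.smooth.map_smul, Dn_self, hy, he]
      ring
    rw [h, show Dn y 0 = 0 by simpa using Dn_smul y y (le_refl (0 : ℝ))] at h1
    rw [← h1, zero_smul, zero_add, smul_eq_zero] at h
    exact ⟨h1.symm, h.resolve_right he0⟩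
  obtain ⟨b, hind, hb⟩ : ∃ b : X, (∀ α β : ℝ, α • y + β • b = 0 → α = 0 ∧ β = 0) ∧
      (¬ C11At b ∨ ∀ p : X, p ≠ 0 → C11At p) := by
    by_cases hall : ∀ p : X, p ≠ 0 → C11At p
    · exact ⟨e, hye, Or.inr hall⟩
    push Not at hall
    obtain ⟨b, hb0, hbn⟩ := hall
    refine ⟨b, fun α β h => ?_, Or.inl hbn⟩
    rcases eq_or_ne β 0 with rfl | hβ
    · rw [zero_smul, add_zero, smul_eq_zero] at h
      exact ⟨h.resolve_right hy0, rfl⟩
    exfalso
    have hbe : b = (-α / β) • y := by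
      apply smul_right_injective X hβ
      dsimp only
      rw [smul_smul, mul_div_cancel₀ _ hβ, neg_smul]
      exact eq_neg_of_add_eq_zero_right h
    rcases lt_trichotomy (-α / β) 0 with hc0 | hc0 | hc0
    · refine hbn ?_
      rw [hbe, ← neg_neg (-α / β), neg_smul, ← smul_neg]
      exact hc.neg.smul (neg_pos.2 hc0)
    · exact hb0 (by rw [hbe, hc0, zero_smul])
    · exact hbn (hbe ▸ hc.smul hc0)
  obtain ⟨ρ, hρ, hG, hV⟩ := exists_velocity_const hT hd hind hc hb
  have hne : ∀ s, Arc.pt y b s ≠ 0 := fun s h =>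
    one_ne_zero (hind 1 s (by rw [one_smul]; exact h)).1
  -- the image of the chart is affine
  have harc : Arc T T' y b (-ρ) ρ := arc_mk hT hd hind (by linarith) hG
  have hLy : ∀ s ∈ Icc (-ρ) ρ, dTc T (Arc.pt y b s) y = dTc T y y := by
    intro s hs
    have h0 : (0 : ℝ) ∈ Icc (-ρ) ρ := ⟨by linarith, hρ.le⟩
    have hz := Convex.norm_image_sub_le_of_norm_hasDerivWithin_le (C := 0)
      (f := fun x => Arc.Z T y b x - x • dTc T y b)
      (f' := fun x => Arc.V T y b (-ρ) ρ x - dTc T y b)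
      (fun x hx => (((harc.hasDerivAt_Z hx).sub
        ((hasDerivAt_id x).smul_const (dTc T y b))).congr_deriv
          (by rw [one_smul])).hasDerivWithinAt)
      (fun x hx => by rw [Arc.V, harc.cl_eq hx, hV x hx, sub_self, norm_zero])
      (convex_Icc _ _) h0 hs
    rw [zero_mul, norm_le_zero_iff, sub_eq_zero] at hz
    simp only [Arc.Z, zero_smul, sub_zero] at hz
    rw [show Arc.pt y b 0 = y by simp [Arc.pt]] at hz
    have h1 : dTc T (Arc.pt y b s) (Arc.pt y b s) = T (Arc.pt y b s) :=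
      (dTc_apply hT hC (hne s) (hG s hs).smooth _).trans (dT_self hT hC (hne s))
    have h2 : dTc T y y = T y := (dTc_apply hT hC hy0 hc.smooth _).trans (dT_self hT hC hy0)
    conv_lhs at h1 =>
      arg 2
      rw [Arc.pt]
    rw [map_add, map_smul, hV s hs] at h1
    rw [h2, ← hz, ← h1, add_sub_cancel_right]
  obtain ⟨α, β, hαβ⟩ := exists_comb hd hind e
  have hμ : Tendsto (fun t : ℝ => 1 + t * α) (𝓝 0) (𝓝 1) :=
    (continuous_const.add (continuous_id.mul continuous_const)).tendsto' 0 1 (by simp)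
  have hσ : Tendsto (fun t : ℝ => t * β / (1 + t * α)) (𝓝 0) (𝓝 0) := by
    simpa [Pi.div_def] using ((tendsto_id (α := ℝ) (x := 𝓝 0)).mul_const β).div hμ one_ne_zero
  filter_upwards [hμ.eventually (eventually_gt_nhds one_pos),
    hσ.eventually (Icc_mem_nhds (neg_lt_zero.2 hρ) hρ)] with t ht1 ht2
  set σ := t * β / (1 + t * α) with hσdef
  have hpt : y + t • e = (1 + t * α) • Arc.pt y b σ := by
    rw [Arc.pt, smul_add, smul_smul, hσdef, mul_div_cancel₀ _ ht1.ne', ← hαβ]
    module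
  rw [hpt, dT_smul_base hT (hne σ) ht1, ← dTc_apply hT hC (hne σ) (hG σ ht2).smooth,
    ← dTc_apply hT hC hy0 hc.smooth, ← hαβ, map_add, map_add, map_smul, map_smul, map_smul,
    map_smul, hV σ ht2, hLy σ ht2]

end Vale.Agent.P084.Full
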