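import Vale.Agent.P084.Full.PlaneBal

/-! The defect is constant along a chart. -/

namespace Vale.Agent.P084.Full

open Inf Filter Topology Metric MeasureTheory Set
open scoped NNReal

set_option linter.unusedSectionVars false

variable {X Y : Type*} [NormedAddCommGroup X] [NormedSpace ℝ X] [CompleteSpace X]
  [NormedAddCommGroup Y] [NormedSpace ℝ Y] [CompleteSpace Y]
  {T : X → Y} {T' : Y → X} {a₀ b : X} {c d : ℝ}

namespace Arc

variable (h : Arc T T' a₀ b c d)
include h

lemma eq_of_u_eq {f g : ℝ → ℝ} {L : ℝ≥0} (hf : LipschitzWith L f)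
    (hfd : ∀ᵐ s : ℝ, s ∈ Ioo c d → HasDerivAt f (deriv (u a₀ b c d) s * g s) s) {x y : ℝ}
    (hx : x ∈ Icc c d) (hy : y ∈ Icc c d) (hu : u a₀ b c d x = u a₀ b c d y) : f x = f y := by
  wlog hxy : x ≤ y generalizing x y
  · exact (this hy hx hu.symm (le_of_not_ge hxy)).symm
  have hd : ∀ θ : ℝ, θ • f x ≤ θ • f y := fun θ =>
    le_of_ae_deriv_nonneg (f := fun s => θ • f s) ((lipschitzWith_smul θ).comp hf) hxy (by
      filter_upwards [hfd, h.deriv_V_ae] with s hs hs' hm
      have hm' : s ∈ Ioo c d := ⟨hx.1.trans_lt hm.1, hm.2.trans_le hy.2⟩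
      have h0 : deriv (u a₀ b c d) s = 0 := by
        have e : u a₀ b c d =ᶠ[𝓝 s] fun _ => u a₀ b c d x := by
          filter_upwards [Ioo_mem_nhds hm.1 hm.2] with v hv
          exact le_antisymm ((h.mono_u hv.2.le).trans hu.symm.le) (h.mono_u hv.1.le)
        rw [e.deriv_eq, deriv_const]
      refine ⟨_, ?_, (hs hm').const_smul θ⟩
      rw [h0, zero_mul, smul_zero])
  have h1 := hd 1
  have h2 := hd (-1)
  simp only [smul_eq_mul] at h1 h2
  linarith

lemma slope_Q_le {M Q : ℝ → ℝ} {L : ℝ≥0} (hM : Monotone M) (hQ : LipschitzWith L Q)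
    (hQd : ∀ᵐ s : ℝ, s ∈ Ioo c d → HasDerivAt Q (deriv (u a₀ b c d) s * M s) s) {x y : ℝ}
    (hx : x ∈ Icc c d) (hy : y ∈ Icc c d) :
    M x * (u a₀ b c d y - u a₀ b c d x) ≤ Q y - Q x := by
  obtain ⟨K, hu, -, -⟩ := h.exists_lip
  rcases le_total x y with hxy | hxy
  · have key := le_of_ae_deriv_nonneg (f := fun s => Q s - M x • u a₀ b c d s)
      (hQ.sub ((lipschitzWith_smul (M x)).comp hu)) hxy (by
        filter_upwards [hQd, h.deriv_V_ae] with s hs hs' hm
        have hm' : s ∈ Ioo c d := ⟨hx.1.trans_lt hm.1, hm.2.trans_le hy.2⟩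
        obtain ⟨h0, d1, -⟩ := hs' hm'
        refine ⟨_, ?_, (hs hm').sub (d1.const_smul (M x))⟩
        rw [smul_eq_mul, mul_comm (M x), ← mul_sub]
        exact mul_nonneg h0 (sub_nonneg.2 (hM hm.1.le)))
    simp only [smul_eq_mul] at key
    linarith
  · have key := le_of_ae_deriv_nonneg (f := fun s => M x • u a₀ b c d s - Q s)
      (((lipschitzWith_smul (M x)).comp hu).sub hQ) hxy (by
        filter_upwards [hQd, h.deriv_V_ae] with s hs hs' hm
        have hm' : s ∈ Ioo c d := ⟨hy.1.trans_lt hm.1, hm.2.trans_le hx.2⟩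
        obtain ⟨h0, d1, -⟩ := hs' hm'
        refine ⟨_, ?_, (d1.const_smul (M x)).sub (hs hm')⟩
        rw [smul_eq_mul, mul_comm (M x), ← mul_sub]
        exact mul_nonneg h0 (sub_nonneg.2 (hM hm.2.le)))
    simp only [smul_eq_mul] at key
    linarith

/-- The turning of the velocity seen by a nearby norming functional is the turning weight. -/
lemma apply_F_le {M Q F : ℝ → ℝ} {L L' : ℝ≥0} (hM : Monotone M) (hQ : LipschitzWith L Q)
    (hF : LipschitzWith L' F)
    (hQd : ∀ᵐ s : ℝ, s ∈ Ioo c d → HasDerivAt Q (deriv (u a₀ b c d) s * M s) s)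
    (hFd : ∀ᵐ s : ℝ, s ∈ Ioo c d → HasDerivAt F (deriv (u a₀ b c d) s * E T a₀ b c d s) s)
    {a p w k : ℝ} (hp : p ∈ Icc c d) (hw : w ∈ Icc c d) (hk : 0 ≤ k)
    (hnear : ∀ v ∈ uIcc p w, |1 - nf (et T a₀ b c d a) (et T a₀ b c d v)| ≤ k * |M v - M a|) :
    |nf (et T a₀ b c d a) (V T a₀ b c d w) - nf (et T a₀ b c d a) (V T a₀ b c d p) - (F w - F p)|
      ≤ 2 * k * (Q w - Q p - M p * (u a₀ b c d w - u a₀ b c d p))
        + 2 * k * |M p - M a| * |u a₀ b c d w - u a₀ b c d p| := by
  obtain ⟨K, hu, -, -⟩ := h.exists_lip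
  set η := nf (et T a₀ b c d a)
  obtain ⟨Le, hL⟩ := h.lip_apply η
  set P := M p
  set A := |M p - M a|
  have hpt : ∀ θ : ℝ, |θ| ≤ 1 → ∀ v ∈ uIcc p w, v ∈ Icc c d → ∀ H : ℝ, 0 ≤ H →
      0 ≤ 2 * k * (H * (|M v - P| + A)) + θ * (H * E T a₀ b c d v * η (et T a₀ b c d v)
        - H * E T a₀ b c d v) := by
    intro θ hθ v hv hvI H hH
    have e : H * E T a₀ b c d v * η (et T a₀ b c d v) - H * E T a₀ b c d v
        = -(H * E T a₀ b c d v * (1 - η (et T a₀ b c d v))) := by ring
    have h1 : |θ * (H * E T a₀ b c d v * η (et T a₀ b c d v) - H * E T a₀ b c d v)|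
        ≤ 1 * (H * 2 * (k * (|M v - P| + A))) := by
      rw [e, abs_mul, abs_neg, abs_mul, abs_mul, abs_of_nonneg hH]
      refine mul_le_mul hθ (mul_le_mul (mul_le_mul_of_nonneg_left (h.abs_E_le v) hH)
        ((hnear v hv).trans (mul_le_mul_of_nonneg_left (abs_sub_le _ _ _) hk)) (abs_nonneg _)
        (by positivity)) (by positivity) one_pos.le
    linarith [neg_abs_le (θ * (H * E T a₀ b c d v * η (et T a₀ b c d v) - H * E T a₀ b c d v))]
  rcases le_total p w with hpw | hpw
  · have key : ∀ θ : ℝ, |θ| ≤ 1 → 0 ≤ (2 * k) * ((Q w - Q p - P * (u a₀ b c d w - u a₀ b c d p))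
        + A * (u a₀ b c d w - u a₀ b c d p))
        + θ * (η (V T a₀ b c d w) - η (V T a₀ b c d p) - (F w - F p)) := by
      intro θ hθ
      have := le_of_ae_deriv_nonneg
        (f := fun s => (2 * k) • (Q s - P • u a₀ b c d s + A • u a₀ b c d s)
          + θ • (η (V T a₀ b c d s) - F s))
        (((lipschitzWith_smul (2 * k)).comp ((hQ.sub ((lipschitzWith_smul P).comp hu)).add
          ((lipschitzWith_smul A).comp hu))).add ((lipschitzWith_smul θ).comp (hL.sub hF))) hpw (by
        filter_upwards [hQd, hFd, h.deriv_V_ae] with s hs1 hs2 hs3 hm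
        have hm' : s ∈ Ioo c d := ⟨hp.1.trans_lt hm.1, hm.2.trans_le hw.2⟩
        obtain ⟨h0, d1, d2⟩ := hs3 hm'
        refine ⟨_, ?_, ((((hs1 hm').sub (d1.const_smul P)).add (d1.const_smul A)).const_smul
          (2 * k)).add (((η.hasFDerivAt.comp_hasDerivAt s d2).sub (hs2 hm')).const_smul θ)⟩
        have := hpt θ hθ s (by rw [uIcc_of_le hpw]; exact Ioo_subset_Icc_self hm)
          (Ioo_subset_Icc_self hm') _ h0
        rw [abs_of_nonneg (show 0 ≤ M s - P from sub_nonneg.2 (hM hm.1.le))] at this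
        simp only [map_smul, smul_eq_mul]
        linarith)
      simp only [smul_eq_mul] at this
      linarith
    have k1 := key 1 (by norm_num)
    have k2 := key (-1) (by norm_num)
    rw [abs_of_nonneg (sub_nonneg.2 (h.mono_u hpw)), abs_le]
    constructor <;> linarith
  · have key : ∀ θ : ℝ, |θ| ≤ 1 → 0 ≤ (2 * k) * ((Q w - Q p - P * (u a₀ b c d w - u a₀ b c d p))
        + A * (u a₀ b c d p - u a₀ b c d w))
        + θ * (η (V T a₀ b c d p) - η (V T a₀ b c d w) - (F p - F w)) := by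
      intro θ hθ
      have := le_of_ae_deriv_nonneg
        (f := fun s => (2 * k) • (P • u a₀ b c d s - Q s + A • u a₀ b c d s)
          + θ • (η (V T a₀ b c d s) - F s))
        (((lipschitzWith_smul (2 * k)).comp ((((lipschitzWith_smul P).comp hu).sub hQ).add
          ((lipschitzWith_smul A).comp hu))).add ((lipschitzWith_smul θ).comp (hL.sub hF))) hpw (by
        filter_upwards [hQd, hFd, h.deriv_V_ae] with s hs1 hs2 hs3 hm
        have hm' : s ∈ Ioo c d := ⟨hw.1.trans_lt hm.1, hm.2.trans_le hp.2⟩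
        obtain ⟨h0, d1, d2⟩ := hs3 hm'
        refine ⟨_, ?_, ((((d1.const_smul P).sub (hs1 hm')).add (d1.const_smul A)).const_smul
          (2 * k)).add (((η.hasFDerivAt.comp_hasDerivAt s d2).sub (hs2 hm')).const_smul θ)⟩
        have := hpt θ hθ s (by rw [uIcc_of_ge hpw]; exact Ioo_subset_Icc_self hm)
          (Ioo_subset_Icc_self hm') _ h0
        rw [abs_of_nonpos (show M s - P ≤ 0 from sub_nonpos.2 (hM hm.2.le))] at this
        simp only [map_smul, smul_eq_mul]
        linarith)
      simp only [smul_eq_mul] at this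
      linarith
    have k1 := key 1 (by norm_num)
    have k2 := key (-1) (by norm_num)
    rw [abs_of_nonpos (sub_nonpos.2 (h.mono_u hpw)), abs_le]
    constructor <;> linarith

/-- The tangency point carries little extra variation. -/
lemma variation_le {M Q : ℝ → ℝ} {L : ℝ≥0} (hM : Monotone M) (hQ : LipschitzWith L Q)
    (hQd : ∀ᵐ s : ℝ, s ∈ Ioo c d → HasDerivAt Q (deriv (u a₀ b c d) s * M s) s) {t p s q : ℝ}
    (ht : t ∈ Icc c d) (hp : p ∈ Icc c d) (hs : s ∈ Icc c d) (htp : t ≤ p) (hps : p ≤ s)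
    (hb : jmean (N a₀ b) (u a₀ b c d) t p s = 0) (hq : q ∈ Icc t s)
    (hsh : N a₀ b t * (|u a₀ b c d q - u a₀ b c d p| * (s - t))
        ≤ (N a₀ b t * ∫ w in p..s, (u a₀ b c d w - u a₀ b c d p)) / 2 ∧
      N a₀ b s * (|u a₀ b c d q - u a₀ b c d p| * (s - t))
        ≤ (N a₀ b t * ∫ w in p..s, (u a₀ b c d w - u a₀ b c d p)) / 2) :
    |M q - M p| * (N a₀ b t * ∫ w in p..s, (u a₀ b c d w - u a₀ b c d p))
      ≤ 2 * jmean (N a₀ b) Q t p s := by
  have hqI : q ∈ Icc c d := ⟨ht.1.trans hq.1, hq.2.trans hs.2⟩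
  set U := u a₀ b c d
  set A := N a₀ b t * ∫ w in p..s, (U w - U p) with hA
  set B := fun w => Q w - Q p - M p * (U w - U p) with hB
  have hBc : Continuous B :=
    (hQ.continuous.sub continuous_const).sub (continuous_const.mul (h.continuous_u.sub continuous_const))
  have hU : Continuous U := h.continuous_u
  have hB0 : ∀ w ∈ Icc c d, 0 ≤ B w := fun w hw => sub_nonneg.2 (h.slope_Q_le hM hQ hQd hp hw)
  have hB1 : ∀ w ∈ Icc c d, (M q - M p) * (U w - U q) ≤ B w := fun w hw => by
    have e1 := h.slope_Q_le hM hQ hQd hqI hw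
    have e2 := hB0 q hqI
    simp only [hB] at e2 ⊢
    linarith
  have hJ : jmean (N a₀ b) Q t p s
      = N a₀ b t * (∫ w in p..s, B w) + N a₀ b s * ∫ w in t..p, B w := by
    have := jmean_sub_affine hQ.continuous hU hb (Q p - M p * U p) (M p)
    rw [← this]
    simp only [jmean, hB]
    congr 1 <;> congr 1 <;> refine intervalIntegral.integral_congr fun w _ => ?_ <;> ring
  have hN := fun x => (h.N_pos x).le
  have iB : ∀ x y, IntervalIntegrable B volume x y := fun x y => hBc.intervalIntegrable x y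
  have iU : ∀ z x y, IntervalIntegrable (fun w => U w - z) volume x y := fun z x y =>
    (hU.sub continuous_const).intervalIntegrable _ _
  have sh : ∀ x y z, ∫ w in x..y, (U w - z) = (∫ w in x..y, (U w - U p)) + (y - x) * (U p - z) :=
    fun x y z => by
      rw [intervalIntegral.integral_sub (hU.intervalIntegrable _ _) intervalIntegrable_const,
        intervalIntegral.integral_sub (hU.intervalIntegrable _ _) intervalIntegrable_const,
        intervalIntegral.integral_const, intervalIntegral.integral_const, smul_eq_mul, smul_eq_mul]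
      ring
  have pos : ∀ x y, x ≤ y → c ≤ x → y ≤ d → 0 ≤ ∫ w in x..y, B w := fun x y hxy hx hy =>
    intervalIntegral.integral_nonneg hxy fun w hw => hB0 w ⟨hx.trans hw.1, hw.2.trans hy⟩
  rcases le_total p q with hpq | hqp
  · have hMΔ := sub_nonneg.2 (hM hpq)
    have hΔ := sub_nonneg.2 (h.mono_u hpq)
    rw [abs_of_nonneg hMΔ]
    rw [abs_of_nonneg hΔ] at hsh
    have e1 := intervalIntegral.integral_mono_on hq.2 ((iU (U q) q s).const_mul (M q - M p)) (iB q s)
      (fun w hw => hB1 w ⟨hqI.1.trans hw.1, hw.2.trans hs.2⟩)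
    rw [intervalIntegral.integral_const_mul] at e1
    have e2 := pos p q hpq hp.1 hqI.2
    have e3 := pos t p htp ht.1 hp.2
    have e5 : ∫ w in p..q, (U w - U p) ≤ (q - p) * (U q - U p) := by
      have := intervalIntegral.integral_mono_on hpq (iU (U p) p q) intervalIntegrable_const
        (fun w hw => sub_le_sub_right (h.mono_u hw.2) (U p))
      rwa [intervalIntegral.integral_const, smul_eq_mul] at this
    have e6 : (∫ w in p..s, (U w - U p)) - (s - t) * (U q - U p) ≤ ∫ w in q..s, (U w - U q) := by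
      rw [← intervalIntegral.integral_add_adjacent_intervals (iU (U p) p q) (iU (U p) q s),
        sh q s (U q)]
      have := mul_nonneg (sub_nonneg.2 htp) hΔ
      linarith
    rw [hJ, ← intervalIntegral.integral_add_adjacent_intervals (iB p q) (iB q s)]
    have f1 := mul_le_mul_of_nonneg_left e6 (mul_nonneg hMΔ (hN t))
    have f2 := mul_le_mul_of_nonneg_left e1 (hN t)
    have f3 := mul_nonneg (hN t) e2
    have f4 := mul_nonneg (hN s) e3
    have f5 := mul_le_mul_of_nonneg_left hsh.1 hMΔ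
    linarith
  · have hMΔ := sub_nonneg.2 (hM hqp)
    have hΔ := sub_nonneg.2 (h.mono_u hqp)
    rw [abs_sub_comm, abs_of_nonneg hMΔ]
    rw [abs_sub_comm, abs_of_nonneg hΔ] at hsh
    have e1 := intervalIntegral.integral_mono_on hq.1 ((iU (U q) t q).const_mul (M q - M p)) (iB t q)
      (fun w hw => hB1 w ⟨ht.1.trans hw.1, hw.2.trans hqI.2⟩)
    rw [intervalIntegral.integral_const_mul] at e1
    have e2 := pos q p hqp hqI.1 hp.2
    have e3 := pos p s hps hp.1 hs.2
    have e4 : N a₀ b s * ∫ w in t..p, (U w - U p) = -A := by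
      rw [jmean] at hb
      rw [hA]
      linarith
    have e5 : (p - q) * (U q - U p) ≤ ∫ w in q..p, (U w - U p) := by
      have := intervalIntegral.integral_mono_on hqp intervalIntegrable_const (iU (U p) q p)
        (fun w hw => sub_le_sub_right (h.mono_u hw.1) (U p))
      rwa [intervalIntegral.integral_const, smul_eq_mul] at this
    have e6 : ∫ w in t..q, (U w - U q) ≤ (∫ w in t..p, (U w - U p)) + (s - t) * (U p - U q) := by
      rw [← intervalIntegral.integral_add_adjacent_intervals (iU (U p) t q) (iU (U p) q p),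
        sh t q (U q)]
      have := mul_nonneg (sub_nonneg.2 hps) hΔ
      linarith
    rw [hJ, ← intervalIntegral.integral_add_adjacent_intervals (iB t q) (iB q p)]
    have f1 := mul_le_mul_of_nonneg_left e6 (mul_nonneg hMΔ (hN s))
    have f2 := mul_le_mul_of_nonneg_left e1 (hN s)
    have f3 := mul_nonneg (hN s) e2
    have f4 := mul_nonneg (hN t) e3
    have f5 := mul_le_mul_of_nonneg_left hsh.2 hMΔ
    have f6 : (M p - M q) * (N a₀ b s * ∫ w in t..p, (U w - U p)) = (M p - M q) * -A := by rw [e4]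
    linarith

end Arc

end Vale.Agent.P084.Full
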