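import Mathlib.Analysis.Normed.Module.HahnBanach
import Mathlib.LinearAlgebra.FiniteDimensional.Lemmas
import Mathlib.Analysis.Normed.Module.FiniteDimension

/-! Norming functionals along a planar convex curve. -/

namespace Vale.Agent.P084.Full

variable {E : Type*} [NormedAddCommGroup E] [NormedSpace ℝ E]

/-- A chosen norming functional. -/
noncomputable def nf (v : E) : E →L[ℝ] ℝ := (exists_dual_vector'' ℝ v).choose

lemma nf_self (v : E) : nf v v = ‖v‖ := by
  have := (exists_dual_vector'' ℝ v).choose_spec.2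
  simpa [nf] using this

lemma norm_nf_le (v : E) : ‖nf v‖ ≤ 1 := (exists_dual_vector'' ℝ v).choose_spec.1

lemma abs_nf_le (v w : E) : |nf v w| ≤ ‖w‖ :=
  ((nf v).le_opNorm w).trans (mul_le_of_le_one_left (norm_nonneg _) (norm_nf_le v))

lemma nf_le (v w : E) : nf v w ≤ ‖w‖ := (le_abs_self _).trans (abs_nf_le v w)

/-- In a plane a tangent direction and a point span. -/
lemma plane_decomp (hE : Module.finrank ℝ E = 2) {φ : E →L[ℝ] ℝ} {γ e : E} (hγ : φ γ = 1)
    (he : φ e = 0) (he1 : ‖e‖ = 1) (v : E) :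
    v = φ v • γ + nf e (v - φ v • γ) • e := by
  have : FiniteDimensional ℝ E := Module.finite_of_finrank_eq_succ hE
  have hsurj : φ.toLinearMap.range = ⊤ := LinearMap.range_eq_top.2 fun x =>
    ⟨x • γ, by simp [hγ]⟩
  have h1 := φ.toLinearMap.finrank_range_add_finrank_ker
  rw [hsurj, finrank_top, Module.finrank_self, hE] at h1
  have hker : Module.finrank ℝ φ.toLinearMap.ker = 1 := by omega
  have hne : (⟨e, LinearMap.mem_ker.2 he⟩ : φ.toLinearMap.ker) ≠ 0 := fun h => by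
    have : e = 0 := congrArg Subtype.val h
    simp [this] at he1
  obtain ⟨c, hc⟩ := (finrank_eq_one_iff_of_nonzero' _ hne).1 hker
    ⟨v - φ v • γ, LinearMap.mem_ker.2 (by simp [hγ])⟩
  have hc' : c • e = v - φ v • γ := congrArg Subtype.val hc
  rw [← hc', map_smul, nf_self, he1, smul_eq_mul, mul_one, hc']
  abel

/-- The value of the norming functional of the tangent at the point grows at most by arc length. -/
lemma nf_step {γ₁ γ₂ e₁ e₂ : E} {φ₁ φ₂ : E →L[ℝ] ℝ} (he₁ : ‖e₁‖ = 1) (he₂ : ‖e₂‖ = 1)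
    (h11 : φ₁ γ₁ = 1) (h1e : φ₁ e₁ = 0) (h22 : φ₂ γ₂ = 1) (h2e : φ₂ e₂ = 0) (h12 : φ₁ γ₂ ≤ 1)
    (h21 : φ₂ γ₁ ≤ 1) (h21' : 0 < φ₂ γ₁) {p q α β : ℝ} (hp : 0 < p) (he : e₂ = p • e₁ + q • γ₁)
    (hβ : 0 < β) (hγ : γ₂ = α • γ₁ + β • e₁) :
    nf e₂ γ₂ - nf e₁ γ₁ ≤ ‖γ₂ - γ₁‖ := by
  have hα : α ≤ 1 := by
    rw [hγ] at h12
    simpa [h11, h1e] using h12
  have hpos : 0 ≤ φ₂ e₁ := by
    rw [hγ] at h22
    simp only [map_add, map_smul, smul_eq_mul] at h22
    have h3 : α * φ₂ γ₁ ≤ 1 := by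
      rcases le_total 0 α with h | h
      · exact mul_le_one₀ hα h21'.le h21
      · linarith [mul_nonpos_of_nonpos_of_nonneg h h21'.le]
    nlinarith
  have hq : q ≤ 0 := by
    rw [he] at h2e
    simp only [map_add, map_smul, smul_eq_mul] at h2e
    nlinarith
  have key : nf e₂ γ₁ ≤ nf e₁ γ₁ := by
    rcases hq.eq_or_lt with rfl | hq
    · rw [zero_smul, add_zero] at he
      have : p = 1 := by
        have h4 := congrArg norm he
        rw [norm_smul, he₁, he₂, mul_one, Real.norm_of_nonneg hp.le] at h4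
        exact h4.symm
      rw [he, this, one_smul]
    · have h5 := nf_le e₁ e₂
      have h6 := nf_self e₂
      have h7 := nf_le e₂ e₁
      have h8 := nf_self e₁
      rw [he₂] at h5 h6
      rw [he₁] at h7 h8
      rw [he] at h5
      nth_rewrite 2 [he] at h6
      simp only [map_add, map_smul, smul_eq_mul, h8] at h5 h6
      nlinarith
  have h9 := nf_le e₂ (γ₂ - γ₁)
  rw [map_sub] at h9
  linarith

/-- A tangent direction is nearly normed by a nearby norming functional. -/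
lemma one_sub_nf_le {γ₁ e₁ e₂ : E} (he₁ : ‖e₁‖ = 1) (he₂ : ‖e₂‖ = 1) {p q : ℝ} (hp : 0 ≤ p)
    (he : e₂ = p • e₁ + q • γ₁) :
    |1 - nf e₁ e₂| ≤ |q| * |nf e₂ γ₁ - nf e₁ γ₁| := by
  have h5 := nf_le e₁ e₂
  have h6 := nf_self e₂
  have h7 := nf_le e₂ e₁
  have h8 := nf_self e₁
  rw [he₂] at h5 h6
  rw [he₁] at h7 h8
  have hev : ∀ f : E →L[ℝ] ℝ, f e₂ = p * f e₁ + q * f γ₁ := fun f => by
    conv_lhs => rw [he]
    simp
  rw [abs_of_nonneg (by linarith), ← abs_mul]
  refine le_trans ?_ (le_abs_self _)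
  rw [hev] at h6 ⊢
  rw [h8]
  nlinarith

end Vale.Agent.P084.Full
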