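import Vale.Agent.P084.Full.Moving
import Vale.Agent.P084.Full.PlaneFrame
import Vale.Agent.P084.Antipodal
import Mathlib.Analysis.Calculus.Rademacher
import Mathlib.MeasureTheory.Integral.IntervalIntegral.AbsolutelyContinuousFun

/-! The extension along a chart of a planar arc on which the norm is `C^{1,1}`. -/

namespace Vale.Agent.P084.Full

open Inf Filter Topology Metric MeasureTheory Set
open scoped NNReal

variable {X Y : Type*} [NormedAddCommGroup X] [NormedSpace ℝ X] [CompleteSpace X]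
  [NormedAddCommGroup Y] [NormedSpace ℝ Y] [CompleteSpace Y]

set_option linter.unusedSectionVars false

/-- A chart segment of a planar `C^{1,1}` arc. -/
structure Arc (T : X → Y) (T' : Y → X) (a₀ b : X) (c d : ℝ) : Prop where
  isT : IsTingley T T'
  ctrl : ∃ C, Ctrl T C
  ctrl' : ∃ C, Ctrl T' C
  dimX : Module.finrank ℝ X = 2
  dimY : Module.finrank ℝ Y = 2
  indep : ∀ α β : ℝ, α • a₀ + β • b = 0 → α = 0 ∧ β = 0
  le : c ≤ d
  c11 : ∀ s ∈ Icc c d, C11At (a₀ + s • b)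

namespace Arc

/-- The chart. -/
def pt (a₀ b : X) (s : ℝ) : X := a₀ + s • b

/-- Clamping to the parameter interval. -/
def cl (c d s : ℝ) : ℝ := max c (min d s)

/-- The norm along the chart. -/
def N (a₀ b : X) (s : ℝ) : ℝ := ‖pt a₀ b s‖

/-- The slope of the norm. -/
noncomputable def u (a₀ b : X) (c d s : ℝ) : ℝ := phi (pt a₀ b (cl c d s)) b

/-- The image of the chart. -/
def Z (T : X → Y) (a₀ b : X) (s : ℝ) : Y := T (pt a₀ b s)

/-- The velocity of the image. -/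
noncomputable def V (T : X → Y) (a₀ b : X) (c d s : ℝ) : Y := dTc T (pt a₀ b (cl c d s)) b

/-- The derivative of the norm at the image. -/
noncomputable def Ps (T : X → Y) (a₀ b : X) (c d s : ℝ) : Y →L[ℝ] ℝ :=
  phi (Z T a₀ b (cl c d s))

/-- The tangent of the chart. -/
noncomputable def w (a₀ b : X) (c d s : ℝ) : X :=
  b - (u a₀ b c d s / N a₀ b (cl c d s)) • pt a₀ b (cl c d s)

/-- The tangent of the image. -/
noncomputable def om (T : X → Y) (a₀ b : X) (c d s : ℝ) : Y :=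
  V T a₀ b c d s - (u a₀ b c d s / N a₀ b (cl c d s)) • Z T a₀ b (cl c d s)

/-- The unit tangent of the chart. -/
noncomputable def e (a₀ b : X) (c d s : ℝ) : X := ‖w a₀ b c d s‖⁻¹ • w a₀ b c d s

/-- The unit tangent of the image. -/
noncomputable def et (T : X → Y) (a₀ b : X) (c d s : ℝ) : Y :=
  ‖w a₀ b c d s‖⁻¹ • om T a₀ b c d s

/-- The value of the norming functional of the tangent at the point. -/
noncomputable def kX (a₀ b : X) (c d s : ℝ) : ℝ :=
  nf (e a₀ b c d s) ((N a₀ b (cl c d s))⁻¹ • pt a₀ b (cl c d s))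

/-- The same in the image. -/
noncomputable def kY (T : X → Y) (a₀ b : X) (c d s : ℝ) : ℝ :=
  nf (et T a₀ b c d s) ((N a₀ b (cl c d s))⁻¹ • Z T a₀ b (cl c d s))

/-- The defect. -/
noncomputable def E (T : X → Y) (a₀ b : X) (c d s : ℝ) : ℝ := kY T a₀ b c d s - kX a₀ b c d s

variable {T : X → Y} {T' : Y → X} {a₀ b : X} {c d : ℝ} (h : Arc T T' a₀ b c d)
include h

lemma finX : FiniteDimensional ℝ X := Module.finite_of_finrank_eq_succ h.dimX

lemma finY : FiniteDimensional ℝ Y := Module.finite_of_finrank_eq_succ h.dimY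

lemma cl_mem (s : ℝ) : cl c d s ∈ Icc c d :=
  ⟨le_max_left _ _, max_le h.le (min_le_left _ _)⟩

lemma cl_eq {s : ℝ} (hs : s ∈ Icc c d) : cl c d s = s := by
  rw [cl, min_eq_right hs.2, max_eq_right hs.1]

omit h in
lemma lip_cl : LipschitzWith 1 (cl c d) := by
  unfold cl
  exact (LipschitzWith.id.const_min d).const_max c

lemma pt_ne (s : ℝ) : pt a₀ b s ≠ 0 := fun h0 =>
  one_ne_zero (h.indep 1 s (by rw [one_smul]; exact h0)).1

lemma N_pos (s : ℝ) : 0 < N a₀ b s := norm_pos_iff.2 (h.pt_ne s)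

omit h in
lemma pt_sub (s t : ℝ) : pt a₀ b s - pt a₀ b t = (s - t) • b := by
  simp only [pt]
  module

omit h in
lemma continuous_N : Continuous (N a₀ b) := by
  unfold N pt
  fun_prop

lemma continuous_Z : Continuous (Z T a₀ b) := by
  unfold Z pt
  exact h.isT.lipschitz.continuous.comp (by fun_prop)

lemma smoothX {s : ℝ} (hs : s ∈ Icc c d) : Smooth (pt a₀ b s) := (h.c11 s hs).smooth

lemma smoothY {s : ℝ} (hs : s ∈ Icc c d) : Smooth (Z T a₀ b s) := by
  obtain ⟨C, hC⟩ := h.ctrl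
  exact (C11At.map h.isT hC (h.pt_ne s) (h.c11 s hs)).smooth

lemma N_Z (s : ℝ) : ‖Z T a₀ b s‖ = N a₀ b s := h.isT.norm_map _

lemma u_le (s : ℝ) : |u a₀ b c d s| ≤ ‖b‖ := by
  rw [u, phi_apply (h.smoothX (h.cl_mem s))]
  exact abs_Dn_le _ _

lemma phi_pt {s : ℝ} (hs : s ∈ Icc c d) : phi (pt a₀ b s) (pt a₀ b s) = N a₀ b s := by
  rw [phi_apply (h.smoothX hs), Dn_self, N]

lemma Ps_Z {s : ℝ} (hs : s ∈ Icc c d) : Ps T a₀ b c d s (Z T a₀ b s) = N a₀ b s := by
  rw [Ps, h.cl_eq hs, phi_apply (h.smoothY hs), Dn_self, h.N_Z]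

lemma Ps_le (s : ℝ) (z : Y) : |Ps T a₀ b c d s z| ≤ ‖z‖ := by
  rw [Ps, phi_apply (h.smoothY (h.cl_mem s))]
  exact abs_Dn_le _ _

lemma Ps_V {s : ℝ} (hs : s ∈ Icc c d) : Ps T a₀ b c d s (V T a₀ b c d s) = u a₀ b c d s := by
  obtain ⟨C, hC⟩ := h.ctrl
  rw [Ps, V, u, h.cl_eq hs]
  exact phi_map h.isT hC (h.pt_ne s) (h.smoothX hs) (h.smoothY hs) b

lemma w_ne (s : ℝ) : w a₀ b c d s ≠ 0 := by
  intro h0
  set r := u a₀ b c d s / N a₀ b (cl c d s)
  obtain ⟨h1, h2⟩ := h.indep (-r) (1 - r * cl c d s) (by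
    rw [← h0, w]
    simp only [pt]
    module)
  rw [neg_eq_zero] at h1
  rw [h1] at h2
  norm_num at h2

lemma phi_w {s : ℝ} (hs : s ∈ Icc c d) : phi (pt a₀ b s) (w a₀ b c d s) = 0 := by
  have := h.N_pos s
  rw [w, u, h.cl_eq hs, map_sub, map_smul, h.phi_pt hs, smul_eq_mul]
  field_simp
  ring

lemma om_eq {s : ℝ} (hs : s ∈ Icc c d) :
    om T a₀ b c d s = dTc T (pt a₀ b s) (w a₀ b c d s) := by
  obtain ⟨C, hC⟩ := h.ctrl
  rw [om, w, V, u, h.cl_eq hs, map_sub, map_smul,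
    dTc_apply h.isT hC (h.pt_ne s) (h.smoothX hs) (pt a₀ b s), dT_self h.isT hC (h.pt_ne s)]
  rfl

lemma Ps_om {s : ℝ} (hs : s ∈ Icc c d) : Ps T a₀ b c d s (om T a₀ b c d s) = 0 := by
  obtain ⟨C, hC⟩ := h.ctrl
  rw [h.om_eq hs, Ps, h.cl_eq hs]
  exact (phi_map h.isT hC (h.pt_ne s) (h.smoothX hs) (h.smoothY hs) _).trans (h.phi_w hs)

lemma norm_om {s : ℝ} (hs : s ∈ Icc c d) : ‖om T a₀ b c d s‖ = ‖w a₀ b c d s‖ := by
  obtain ⟨C, hC⟩ := h.ctrl
  rw [h.om_eq hs, dTc_apply h.isT hC (h.pt_ne s) (h.smoothX hs)]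
  have h1 := norm_dT_sub_of_Dn_eq h.isT hC (h.pt_ne s) (u := w a₀ b c d s) (w := 0) (by
    rw [← phi_apply (h.smoothX hs), ← phi_apply (h.smoothX hs), h.phi_w hs, map_zero])
  rwa [dT_zero h.isT hC (h.pt_ne s), sub_zero, sub_zero] at h1

lemma norm_e (s : ℝ) : ‖e a₀ b c d s‖ = 1 := by
  rw [e, norm_smul, norm_inv, norm_norm, inv_mul_cancel₀ (norm_ne_zero_iff.2 (h.w_ne s))]

lemma norm_et {s : ℝ} (hs : s ∈ Icc c d) : ‖et T a₀ b c d s‖ = 1 := by
  rw [et, norm_smul, norm_inv, norm_norm, h.norm_om hs,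
    inv_mul_cancel₀ (norm_ne_zero_iff.2 (h.w_ne s))]

lemma Ps_et {s : ℝ} (hs : s ∈ Icc c d) : Ps T a₀ b c d s (et T a₀ b c d s) = 0 := by
  rw [et, map_smul, h.Ps_om hs, smul_zero]

lemma phi_e {s : ℝ} (hs : s ∈ Icc c d) : phi (pt a₀ b s) (e a₀ b c d s) = 0 := by
  rw [e, map_smul, h.phi_w hs, smul_zero]

lemma hasDerivAt_Z {s : ℝ} (hs : s ∈ Icc c d) :
    HasDerivAt (Z T a₀ b) (V T a₀ b c d s) s := by
  obtain ⟨C, hC⟩ := h.ctrl
  obtain ⟨ρ, K, hR⟩ := exists_reg h.isT hC (h.pt_ne s) (h.c11 s hs)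
  have hF : HasFDerivAt T (dTc T (pt a₀ b s)) (pt a₀ b s) := by
    rw [hasFDerivAt_iff_isLittleO_nhds_zero, Asymptotics.isLittleO_iff]
    intro ε hε
    filter_upwards [ball_mem_nhds (0 : X) hR.pos,
      ball_mem_nhds (0 : X) (div_pos hε (show 0 < K + 1 by linarith [hR.nonneg]))] with v h1 h2
    rw [mem_ball_zero_iff] at h1 h2
    rw [lt_div_iff₀ (by linarith [hR.nonneg])] at h2
    refine (hR.taylor _ (mem_ball_self hR.pos) v h1).trans ?_
    nlinarith [norm_nonneg v, hR.nonneg]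
  have := hF.comp_hasDerivAt s (((hasDerivAt_id s).smul_const b).const_add a₀)
  rw [one_smul] at this
  rw [V, h.cl_eq hs]
  exact this

lemma hasDerivAt_N {s : ℝ} (hs : s ∈ Icc c d) : HasDerivAt (N a₀ b) (u a₀ b c d s) s := by
  obtain ⟨C, hC⟩ := h.ctrl
  obtain ⟨ρ, K, hR⟩ := exists_reg h.isT hC (h.pt_ne s) (h.c11 s hs)
  have hF : HasFDerivAt (fun x : X => ‖x‖) (phi (pt a₀ b s)) (pt a₀ b s) := by
    rw [hasFDerivAt_iff_isLittleO_nhds_zero, Asymptotics.isLittleO_iff]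
    intro ε hε
    filter_upwards [ball_mem_nhds (0 : X) hR.pos,
      ball_mem_nhds (0 : X) (div_pos hε (show 0 < K + 1 by linarith [hR.nonneg]))] with v h1 h2
    rw [mem_ball_zero_iff] at h1 h2
    rw [lt_div_iff₀ (by linarith [hR.nonneg])] at h2
    have h3 := hR.gap_le _ (mem_ball_self hR.pos) v h1
    have h4 := gap_nonneg (pt a₀ b s) v
    simp only [gap] at h3 h4
    rw [phi_apply (h.smoothX hs), Real.norm_of_nonneg h4]
    nlinarith [norm_nonneg v, hR.nonneg]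
  have := hF.comp_hasDerivAt s (((hasDerivAt_id s).smul_const b).const_add a₀)
  rw [one_smul] at this
  rw [u, h.cl_eq hs]
  exact this

lemma mono_u : Monotone (u a₀ b c d) := by
  intro s t hst
  set p := cl c d s with hp
  set q := cl c d t with hq
  have hpq : p ≤ q := max_le_max le_rfl (min_le_min le_rfl hst)
  rcases hpq.eq_or_lt with h0 | h0
  · rw [u, u, ← hp, ← hq, h0]
  · have h1 := norm_add_ge (pt a₀ b p) ((q - p) • b)
    have h2 := norm_add_ge (pt a₀ b q) ((p - q) • b)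
    rw [← phi_apply (h.smoothX (h.cl_mem s)), map_smul, smul_eq_mul,
      show pt a₀ b p + (q - p) • b = pt a₀ b q by rw [← pt_sub]; abel] at h1
    rw [← phi_apply (h.smoothX (h.cl_mem t)), map_smul, smul_eq_mul,
      show pt a₀ b q + (p - q) • b = pt a₀ b p by rw [← pt_sub]; abel] at h2
    simp only [u, ← hp, ← hq]
    nlinarith

lemma exists_lip : ∃ K : ℝ≥0, LipschitzWith K (u a₀ b c d) ∧ LipschitzWith K (V T a₀ b c d) ∧
    LipschitzWith K (Ps T a₀ b c d) := by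
  obtain ⟨C, hC⟩ := h.ctrl
  obtain ⟨C', hC'⟩ := h.ctrl'
  have hX : LocallyLipschitzOn (Icc c d)
      fun s => (phi (pt a₀ b s) b, dTc T (pt a₀ b s) b, phi (Z T a₀ b s)) := by
    intro s hs
    obtain ⟨ρ, K, hR⟩ := exists_reg h.isT hC (h.pt_ne s) (h.c11 s hs)
    have hz : Z T a₀ b s ≠ 0 := h.isT.map_ne_zero (h.pt_ne s)
    obtain ⟨ρ', K', hR'⟩ := exists_reg h.isT.symm hC' hz
      (C11At.map h.isT hC (h.pt_ne s) (h.c11 s hs))
    have hcont : Continuous fun t => pt a₀ b t := by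
      unfold pt
      fun_prop
    have hmem := (hcont.tendsto s).eventually (ball_mem_nhds _ hR.pos)
    have hmem' := ((h.continuous_Z).tendsto s).eventually (ball_mem_nhds _ hR'.pos)
    have h0 := hR.nonneg
    have h0' := hR'.nonneg
    refine ⟨(K * ‖b‖ * ‖b‖ + K' * 3 * ‖b‖).toNNReal + (K * ‖b‖ * ‖b‖).toNNReal,
      {t | pt a₀ b t ∈ ball (pt a₀ b s) ρ ∧ Z T a₀ b t ∈ ball (Z T a₀ b s) ρ'},
      mem_nhdsWithin_of_mem_nhds (hmem.and hmem'), LipschitzOnWith.of_dist_le_mul ?_⟩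
    rintro p ⟨hp, hp'⟩ q ⟨hq, hq'⟩
    have hb1 : ‖pt a₀ b p - pt a₀ b q‖ = ‖p - q‖ * ‖b‖ := by rw [pt_sub, norm_smul]
    have hb2 : ‖Z T a₀ b p - Z T a₀ b q‖ ≤ 3 * (‖p - q‖ * ‖b‖) := by
      have := h.isT.lipschitz.norm_sub_le (pt a₀ b p) (pt a₀ b q)
      rwa [hb1, NNReal.coe_ofNat] at this
    have e1 := ((phi (pt a₀ b p) - phi (pt a₀ b q)).le_opNorm b).trans
      (mul_le_mul_of_nonneg_right (hR.phi_lip _ hq _ hp) (norm_nonneg b))
    have e2 := ((dTc T (pt a₀ b p) - dTc T (pt a₀ b q)).le_opNorm b).trans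
      (mul_le_mul_of_nonneg_right (hR.dT_lip _ hq _ hp) (norm_nonneg b))
    have e3 := hR'.phi_lip _ hq' _ hp'
    have e4 := mul_le_mul_of_nonneg_left hb2 h0'
    rw [hb1, _root_.sub_apply] at e1 e2
    have hpq := norm_nonneg (p - q)
    rw [NNReal.coe_add, Real.coe_toNNReal _ (by positivity), Real.coe_toNNReal _ (by positivity),
      dist_eq_norm, dist_eq_norm, Prod.norm_def, Prod.norm_def]
    have q1 : 0 ≤ K * ‖b‖ * ‖b‖ * ‖p - q‖ := by positivity
    have q2 : 0 ≤ K' * 3 * ‖b‖ * ‖p - q‖ := by positivity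
    refine max_le ?_ (max_le ?_ ?_) <;> simp only [Prod.fst_sub, Prod.snd_sub] <;> linarith
  obtain ⟨K, hK⟩ := hX.exists_lipschitzOnWith_of_compact isCompact_Icc
  refine ⟨K, ?_, ?_, ?_⟩ <;> refine LipschitzWith.of_dist_le_mul fun p q => ?_
  all_goals
    have e := hK.dist_le_mul _ (h.cl_mem p) _ (h.cl_mem q)
    have e' := (lip_cl (c := c) (d := d)).dist_le_mul p q
    rw [NNReal.coe_one, one_mul] at e'
    have e'' := e.trans (mul_le_mul_of_nonneg_left e' K.coe_nonneg)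
    rw [Prod.dist_eq, Prod.dist_eq, max_le_iff, max_le_iff] at e''
  · exact e''.1
  · exact e''.2.1
  · exact e''.2.2

lemma continuous_u : Continuous (u a₀ b c d) :=
  h.exists_lip.choose_spec.1.continuous

lemma continuous_V : Continuous (V T a₀ b c d) :=
  h.exists_lip.choose_spec.2.1.continuous

lemma continuous_w : Continuous (w a₀ b c d) := by
  refine continuous_const.sub (((h.continuous_u).div (continuous_N.comp lip_cl.continuous)
    fun s => (h.N_pos _).ne').smul ?_)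
  have : Continuous fun t => pt a₀ b t := by
    unfold pt
    fun_prop
  exact this.comp lip_cl.continuous

lemma continuous_om : Continuous (om T a₀ b c d) :=
  h.continuous_V.sub (((h.continuous_u).div (continuous_N.comp lip_cl.continuous)
    fun s => (h.N_pos _).ne').smul (h.continuous_Z.comp lip_cl.continuous))

lemma continuous_e : Continuous (e a₀ b c d) :=
  (h.continuous_w.norm.inv₀ fun s => norm_ne_zero_iff.2 (h.w_ne s)).smul h.continuous_w

lemma continuous_et : Continuous (et T a₀ b c d) :=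
  (h.continuous_w.norm.inv₀ fun s => norm_ne_zero_iff.2 (h.w_ne s)).smul h.continuous_om

/-- Antipodal sums of equal norm points are preserved. -/
lemma norm_map_add {p q : X} (hpq : ‖p‖ = ‖q‖) : ‖T p + T q‖ = ‖p + q‖ := by
  have := h.finX
  have h1 := h.isT.dist_map p (-q) (by rw [norm_neg]; exact hpq)
  rwa [h.isT.odd_general, sub_neg_eq_add, sub_neg_eq_add] at h1

end Arc

end Vale.Agent.P084.Full
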