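import Mathlib.MeasureTheory.Integral.IntervalIntegral.Basic
import Mathlib.MeasureTheory.Integral.IntervalIntegral.FundThmCalculus
import Mathlib.Topology.Order.IntermediateValue

/-! A function dominated in weighted means by its values at the barycentres is below its chords. -/

namespace Vale.Agent.P084.Full

open Set Filter Topology MeasureTheory

/-- Weighted mean of `g` over `[t, s]` split at `p`, minus the value at `p` times the total weight. -/
noncomputable def jmean (N g : ℝ → ℝ) (t p s : ℝ) : ℝ :=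
  N t * (∫ w in p..s, (g w - g p)) + N s * (∫ w in t..p, (g w - g p))

lemma jmean_sub_affine {N P u : ℝ → ℝ} {t p s : ℝ} (hP : Continuous P) (hu : Continuous u)
    (hb : jmean N u t p s = 0) (A B : ℝ) :
    jmean N (fun w => P w - (A + B * u w)) t p s = jmean N P t p s := by
  have i1 : ∀ x y : ℝ, IntervalIntegrable (fun w => P w - P p) volume x y := fun x y =>
    (hP.sub continuous_const).intervalIntegrable _ _
  have i2 : ∀ x y : ℝ, IntervalIntegrable (fun w => B * (u w - u p)) volume x y := fun x y =>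
    (continuous_const.mul (hu.sub continuous_const)).intervalIntegrable _ _
  have e : ∀ x y : ℝ, ∫ w in x..y, (P w - (A + B * u w) - (P p - (A + B * u p)))
      = (∫ w in x..y, (P w - P p)) - B * ∫ w in x..y, (u w - u p) := fun x y => by
    rw [← intervalIntegral.integral_const_mul, ← intervalIntegral.integral_sub (i1 x y) (i2 x y)]
    exact intervalIntegral.integral_congr fun w _ => by ring
  unfold jmean at hb ⊢
  rw [e, e]
  linear_combination (-B) * hb

variable {u N P : ℝ → ℝ} {c d : ℝ}

/-- The maximum point argument. -/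
theorem below_chord_of_jmean (hu : Continuous u) (hum : Monotone u) (hN : Continuous N)
    (hN0 : ∀ x, 0 < N x) (hP : Continuous P) (hPu : ∀ x y, u x = u y → P x = P y) {δ : ℝ}
    (hδ : 0 < δ)
    (hJ : ∀ t p s, c ≤ t → t ≤ p → p ≤ s → s ≤ d → t < s → u s - u t < δ →
      jmean N u t p s = 0 → 0 ≤ jmean N P t p s)
    {x : ℝ} (hx : x ∈ Icc c d) :
    (P x - P c) * (u d - u c) ≤ (P d - P c) * (u x - u c) := by
  have hcd : c ≤ d := hx.1.trans hx.2
  rcases (sub_nonneg.2 (hum hcd)).eq_or_lt with h0 | h0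
  · have h1 : u x = u c := le_antisymm (by linarith [hum hx.2]) (hum hx.1)
    rw [← h0, h1]
    simp
  set B := (P d - P c) / (u d - u c) with hB
  set g : ℝ → ℝ := fun w => P w - (P c - B * u c + B * u w) with hg
  have hgc : g c = 0 := by simp [hg]
  have hgd : g d = 0 := by simp only [hg, hB]; field_simp; ring
  have hgu : ∀ a b, u a = u b → g a = g b := fun a b h => by simp only [hg, h, hPu a b h]
  have hgcont : Continuous g := hP.sub (continuous_const.add (continuous_const.mul hu))
  suffices hle : g x ≤ 0 by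
    simp only [hg, hB] at hle
    rw [sub_nonpos, div_mul_eq_mul_div, div_mul_eq_mul_div, sub_add, ← sub_div, le_sub_iff_add_le,
      ← le_sub_iff_add_le', div_le_iff₀ h0] at hle
    linarith
  by_contra hpos
  rw [not_le] at hpos
  obtain ⟨z, hz, hmax⟩ := isCompact_Icc.exists_isMaxOn (nonempty_Icc.2 hcd) hgcont.continuousOn
  have hzpos : 0 < g z := hpos.trans_le (hmax hx)
  -- the last maximiser and the first point with the same slope
  have hS : IsCompact (Icc c d ∩ {w | g w = g z}) :=
    isCompact_Icc.inter_right (isClosed_eq hgcont continuous_const)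
  obtain ⟨σ, ⟨hσ, hσz⟩, hlast⟩ := hS.exists_isMaxOn ⟨z, hz, rfl⟩ continuous_id.continuousOn
  have hS' : IsCompact (Icc c d ∩ {w | u w = u σ}) :=
    isCompact_Icc.inter_right (isClosed_eq hu continuous_const)
  obtain ⟨σ', ⟨hσ', hu'⟩, hfirst⟩ := hS'.exists_isMinOn ⟨σ, hσ, rfl⟩ continuous_id.continuousOn
  have hσd : σ < d := lt_of_le_of_ne hσ.2 fun h => by
    rw [h] at hσz; simp only [mem_ofPred_eq, hgd] at hσz; linarith
  have hcσ : c < σ' := lt_of_le_of_ne hσ'.1 fun h => by
    have := hgu σ' σ hu'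
    rw [← h, hgc, hσz] at this
    linarith
  have hσσ : σ' ≤ σ := hfirst ⟨hσ, rfl⟩
  have hstrict : ∀ w, σ < w → w ≤ d → g w < g z ∧ u σ < u w := by
    intro w h1 h2
    have hwI : w ∈ Icc c d := ⟨hσ.1.trans h1.le, h2⟩
    have hne : g w ≠ g z := fun h => absurd (hlast ⟨hwI, h⟩) (not_le.2 h1)
    refine ⟨lt_of_le_of_ne (hmax hwI) hne, lt_of_le_of_ne (hum h1.le) fun h => hne ?_⟩
    rw [← hgu _ _ h, hσz]
  have hbefore : ∀ w, c ≤ w → w < σ' → u w < u σ := by
    intro w h1 h2
    refine lt_of_le_of_ne ((hum h2.le).trans hu'.le) fun h => ?_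
    exact absurd (hfirst ⟨⟨h1, h2.le.trans hσ'.2⟩, h⟩) (not_le.2 h2)
  -- short intervals
  obtain ⟨e, he, hec⟩ : ∃ e > 0, ∀ w, |w - σ| < e ∨ |w - σ'| < e → |u w - u σ| < δ / 2 := by
    obtain ⟨e1, he1, h1⟩ := Metric.continuous_iff.1 hu σ (δ / 2) (half_pos hδ)
    obtain ⟨e2, he2, h2⟩ := Metric.continuous_iff.1 hu σ' (δ / 2) (half_pos hδ)
    refine ⟨min e1 e2, lt_min he1 he2, fun w hw => hw.elim (fun h => ?_) fun h => ?_⟩
    · exact h1 w (h.trans_le (min_le_left _ _))
    · have := h2 w (h.trans_le (min_le_right _ _))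
      rwa [Real.dist_eq, hu'] at this
  set s₀ := min d (σ + e / 2) with hs₀
  set t₀ := max c (σ' - e / 2) with ht₀
  have hs₀σ : σ < s₀ := lt_min hσd (by linarith)
  have ht₀σ : t₀ < σ' := max_lt hcσ (by linarith)
  set R : ℝ → ℝ := fun s => (∫ w in σ..s, (u w - u σ)) / N s with hR
  set L : ℝ → ℝ := fun t => (∫ w in t..σ, (u σ - u w)) / N t with hL
  have hRc : Continuous R := Continuous.div
    (intervalIntegral.continuous_primitive (fun _ _ => (hu.sub continuous_const).intervalIntegrable _ _) σ)
    hN fun s => (hN0 s).ne'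
  have hLc : Continuous L := by
    refine Continuous.div ?_ hN fun s => (hN0 s).ne'
    have : (fun t => ∫ w in t..σ, (u σ - u w)) = fun t => -∫ w in σ..t, (u σ - u w) :=
      funext fun t => intervalIntegral.integral_symm _ _
    rw [this]
    exact (intervalIntegral.continuous_primitive
      (fun _ _ => (continuous_const.sub hu).intervalIntegrable _ _) σ).neg
  have hR0 : R σ = 0 := by simp [hR]
  have hflat : ∀ w ∈ Icc σ' σ, u w = u σ := fun w hw =>
    le_antisymm (hum hw.2) (hu' ▸ hum hw.1)
  have hL0 : L σ' = 0 := by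
    simp only [hL]
    rw [intervalIntegral.integral_congr (g := fun _ => (0 : ℝ)) fun w hw => by
      rw [uIcc_of_le hσσ] at hw
      simp [hflat w hw]]
    simp
  have hRpos : ∀ s, σ < s → s ≤ d → 0 < R s := fun s h1 h2 => by
    refine div_pos (intervalIntegral.intervalIntegral_pos_of_pos_on
      ((hu.sub continuous_const).intervalIntegrable _ _)
      (fun w hw => sub_pos.2 (hstrict w hw.1 (hw.2.le.trans h2)).2) h1) (hN0 s)
  have hLpos : ∀ t, c ≤ t → t < σ' → 0 < L t := fun t h1 h2 => by
    refine div_pos ?_ (hN0 t)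
    have i3 : ∀ a b : ℝ, IntervalIntegrable (fun w => u σ - u w) volume a b := fun a b =>
      (continuous_const.sub hu).intervalIntegrable _ _
    rw [← intervalIntegral.integral_add_adjacent_intervals (b := σ') (i3 _ _) (i3 _ _)]
    refine add_pos_of_pos_of_nonneg (intervalIntegral.intervalIntegral_pos_of_pos_on
      ((continuous_const.sub hu).intervalIntegrable _ _)
      (fun w hw => sub_pos.2 (hbefore w (h1.trans hw.1.le) hw.2)) h2) ?_
    exact intervalIntegral.integral_nonneg hσσ fun w hw => sub_nonneg.2 (hum hw.2)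
  obtain ⟨t, s, ht1, ht2, hs1, hs2, hts⟩ : ∃ t s, t₀ ≤ t ∧ t < σ' ∧ σ < s ∧ s ≤ s₀ ∧ L t = R s := by
    have hs₀d : s₀ ≤ d := min_le_left _ _
    have hct₀ : c ≤ t₀ := le_max_left _ _
    rcases le_total (R s₀) (L t₀) with h | h
    · obtain ⟨t, ht, hte⟩ := intermediate_value_Icc' ht₀σ.le hLc.continuousOn
        (show R s₀ ∈ Icc (L σ') (L t₀) from ⟨hL0 ▸ (hRpos s₀ hs₀σ hs₀d).le, h⟩)
      refine ⟨t, s₀, ht.1, lt_of_le_of_ne ht.2 fun he' => ?_, hs₀σ, le_rfl, hte⟩
      rw [he', hL0] at hte
      linarith [hRpos s₀ hs₀σ hs₀d]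
    · obtain ⟨s, hs, hse⟩ := intermediate_value_Icc hs₀σ.le hRc.continuousOn
        (show L t₀ ∈ Icc (R σ) (R s₀) from ⟨hR0 ▸ (hLpos t₀ hct₀ ht₀σ).le, h⟩)
      refine ⟨t₀, s, le_rfl, ht₀σ, lt_of_le_of_ne hs.1 fun he' => ?_, hs.2, hse.symm⟩
      rw [← he', hR0] at hse
      linarith [hLpos t₀ hct₀ ht₀σ]
  have hct : c ≤ t := (le_max_left _ _).trans ht1
  have hsd : s ≤ d := hs2.trans (min_le_left _ _)
  have hbal : jmean N u t σ s = 0 := by
    have h1 : ∫ w in t..σ, (u w - u σ) = -∫ w in t..σ, (u σ - u w) := by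
      rw [← intervalIntegral.integral_neg]
      simp only [neg_sub]
    simp only [hL, hR] at hts
    rw [div_eq_div_iff (hN0 t).ne' (hN0 s).ne'] at hts
    simp only [jmean, h1]
    linarith
  have hsmall : u s - u t < δ := by
    have e1 := hec s (Or.inl (by
      rw [abs_of_pos (by linarith)]
      linarith [(min_le_right d (σ + e / 2))]))
    have e2 := hec t (Or.inr (by
      rw [abs_of_neg (by linarith)]
      linarith [(le_max_right c (σ' - e / 2))]))
    linarith [(abs_lt.1 e1).2, (abs_lt.1 e2).1]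
  have key := hJ t σ s hct (by linarith) hs1.le hsd (by linarith) hsmall hbal
  rw [← jmean_sub_affine hP hu hbal (P c - B * u c) B] at key
  change 0 ≤ jmean N g t σ s at key
  simp only [jmean, show g σ = g z from hσz] at key
  have hneg : ∫ w in σ..s, (g w - g z) < 0 := by
    have := intervalIntegral.intervalIntegral_pos_of_pos_on (f := fun w => -(g w - g z))
      ((hgcont.sub continuous_const).neg.intervalIntegrable _ _)
      (fun w hw => by linarith [(hstrict w hw.1 (hw.2.le.trans hsd)).1]) hs1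
    rw [intervalIntegral.integral_neg] at this
    linarith
  have hnonpos : ∫ w in t..σ, (g w - g z) ≤ 0 := by
    have := intervalIntegral.integral_nonneg (μ := volume) (f := fun w => -(g w - g z))
      (show t ≤ σ by linarith)
      (fun w hw => by linarith [show g w ≤ g z from hmax ⟨hct.trans hw.1, hw.2.trans hσ.2⟩])
    rw [intervalIntegral.integral_neg] at this
    linarith
  nlinarith [mul_neg_of_pos_of_neg (hN0 t) hneg,
    mul_nonpos_of_nonneg_of_nonpos (hN0 s).le hnonpos]

/-- If the weighted means of `F` are negligible against those of `Q`, then `F` is affine in `u`. -/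
theorem affine_of_jmean {F Q : ℝ → ℝ} (hu : Continuous u) (hum : Monotone u) (hN : Continuous N)
    (hN0 : ∀ x, 0 < N x) (hF : Continuous F) (hQ : Continuous Q)
    (hFu : ∀ x y, u x = u y → F x = F y) (hQu : ∀ x y, u x = u y → Q x = Q y)
    (hJ : ∀ ε : ℝ, 0 < ε → ∃ δ, 0 < δ ∧ ∀ t p s, c ≤ t → t ≤ p → p ≤ s → s ≤ d → t < s →
      u s - u t < δ → jmean N u t p s = 0 → |jmean N F t p s| ≤ ε * jmean N Q t p s)
    {x : ℝ} (hx : x ∈ Icc c d) :
    (F x - F c) * (u d - u c) = (F d - F c) * (u x - u c) := by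
  set D := (F x - F c) * (u d - u c) - (F d - F c) * (u x - u c)
  set C := (Q x - Q c) * (u d - u c) - (Q d - Q c) * (u x - u c)
  have key : ∀ ε : ℝ, 0 < ε → |D| ≤ -ε * C := by
    intro ε hε
    obtain ⟨δ, hδ, h⟩ := hJ ε hε
    have hlin : ∀ θ t p s, jmean N (fun w => θ * F w + ε * Q w) t p s
        = θ * jmean N F t p s + ε * jmean N Q t p s := by
      intro θ t p s
      have e : ∀ a b : ℝ, ∫ w in a..b, (θ * F w + ε * Q w - (θ * F p + ε * Q p))
          = θ * (∫ w in a..b, (F w - F p)) + ε * ∫ w in a..b, (Q w - Q p) := fun a b => by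
        have i4 : IntervalIntegrable (fun w => θ * (F w - F p)) volume a b :=
          (continuous_const.mul (hF.sub continuous_const)).intervalIntegrable _ _
        have i5 : IntervalIntegrable (fun w => ε * (Q w - Q p)) volume a b :=
          (continuous_const.mul (hQ.sub continuous_const)).intervalIntegrable _ _
        rw [← intervalIntegral.integral_const_mul, ← intervalIntegral.integral_const_mul,
          ← intervalIntegral.integral_add i4 i5]
        exact intervalIntegral.integral_congr fun w _ => by ring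
      simp only [jmean, e]
      ring
    have hP : ∀ θ : ℝ, Continuous fun w => θ * F w + ε * Q w := fun θ =>
      (continuous_const.mul hF).add (continuous_const.mul hQ)
    have h1 := below_chord_of_jmean (c := c) (d := d) hu hum hN hN0 (hP 1)
      (fun a b hab => by simp only [hFu a b hab, hQu a b hab]) hδ
      (fun t p s a1 a2 a3 a4 a5 a6 a7 => by
        rw [hlin]
        linarith [(abs_le.1 (h t p s a1 a2 a3 a4 a5 a6 a7)).1]) hx
    have h2 := below_chord_of_jmean (c := c) (d := d) hu hum hN hN0 (hP (-1))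
      (fun a b hab => by simp only [hFu a b hab, hQu a b hab]) hδ
      (fun t p s a1 a2 a3 a4 a5 a6 a7 => by
        rw [hlin]
        linarith [(abs_le.1 (h t p s a1 a2 a3 a4 a5 a6 a7)).2]) hx
    simp only [D, C, abs_le]
    constructor <;> linarith
  have h0 : |D| ≤ 0 := by
    refine ge_of_tendsto (f := fun ε : ℝ => -ε * C) (x := 𝓝[>] (0 : ℝ)) ?_ ?_
    · exact ((continuous_id.neg.mul continuous_const).tendsto' 0 0 (by simp)).mono_left
        nhdsWithin_le_nhds
    · filter_upwards [self_mem_nhdsWithin] with ε hε using key ε hε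
  exact sub_eq_zero.1 (abs_nonpos_iff.1 h0)

end Vale.Agent.P084.Full
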