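import Vale.Agent.P084.Full.PlaneEst
import Vale.Agent.P084.Full.PlaneMean

/-! Balanced intervals of a chart. -/

namespace Vale.Agent.P084.Full

open Inf Filter Topology Metric MeasureTheory Set
open scoped NNReal

set_option linter.unusedSectionVars false

/-- The absolute value of a weighted mean. -/
lemma abs_jmean_sub_le {N f g B : ℝ → ℝ} {t p s : ℝ} (hf : Continuous f) (hg : Continuous g)
    (hB : Continuous B) (hN : ∀ x, 0 ≤ N x) (htp : t ≤ p) (hps : p ≤ s)
    (h : ∀ w ∈ Icc t s, |f w - f p - (g w - g p)| ≤ B w) :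
    |jmean N f t p s - jmean N g t p s|
      ≤ N t * (∫ w in p..s, B w) + N s * (∫ w in t..p, B w) := by
  have e : ∀ x y, (∫ w in x..y, (f w - f p)) - (∫ w in x..y, (g w - g p))
      = ∫ w in x..y, (f w - f p - (g w - g p)) := fun x y => by
    have c1 : Continuous fun w => f w - f p := hf.sub continuous_const
    have c2 : Continuous fun w => g w - g p := hg.sub continuous_const
    rw [← intervalIntegral.integral_sub (c1.intervalIntegrable _ _) (c2.intervalIntegrable _ _)]
  have e2 : ∀ x y, x ≤ y → Icc x y ⊆ Icc t s →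
      |∫ w in x..y, (f w - f p - (g w - g p))| ≤ ∫ w in x..y, B w := fun x y hxy hsub => by
    rw [← Real.norm_eq_abs]
    exact intervalIntegral.norm_integral_le_of_norm_le hxy
      (Eventually.of_forall fun w hw => h w (hsub (Ioc_subset_Icc_self hw)))
      (hB.intervalIntegrable _ _)
  have e3 : jmean N f t p s - jmean N g t p s
      = N t * (∫ w in p..s, (f w - f p - (g w - g p)))
        + N s * ∫ w in t..p, (f w - f p - (g w - g p)) := by
    simp only [jmean, ← e]
    ring
  rw [e3]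
  refine (abs_add_le _ _).trans (add_le_add ?_ ?_) <;> rw [abs_mul, abs_of_nonneg (hN _)]
  · exact mul_le_mul_of_nonneg_left (e2 p s hps (Icc_subset_Icc htp le_rfl)) (hN _)
  · exact mul_le_mul_of_nonneg_left (e2 t p htp (Icc_subset_Icc le_rfl hps)) (hN _)

/-- The numerical core of the shift of a barycentre. -/
lemma shift_num {Nt Ns m t p q s I Δ : ℝ} (hm : 0 ≤ m) (hNt : m ≤ Nt) (hNs : m ≤ Ns) (htp : t ≤ p)
    (hps : p ≤ s) (htq : t ≤ q) (hqs : q ≤ s)
    (hI : (p ≤ q ∧ 0 ≤ Δ ∧ 0 ≤ I ∧ I ≤ (q - p) * Δ) ∨ (q ≤ p ∧ Δ ≤ 0 ∧ 0 ≤ I ∧ I ≤ (p - q) * -Δ)) :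
    m * (|Δ| * (s - t)) ≤ |(Ns - Nt) * I - Δ * (Nt * (s - q) + Ns * (q - t))| := by
  rcases hI with ⟨hpq, hΔ, h0, h1⟩ | ⟨hqp, hΔ, h0, h1⟩
  · refine le_trans ?_ (neg_le_abs _)
    rw [abs_of_nonneg hΔ]
    rcases le_total Nt Ns with hN | hN
    · have g1 := mul_le_mul_of_nonneg_left h1 (sub_nonneg.2 hN)
      have g2 := mul_le_mul_of_nonneg_right hNt (mul_nonneg hΔ (by linarith : 0 ≤ s - t))
      have g3 := mul_nonneg (mul_nonneg (sub_nonneg.2 hN) hΔ) (by linarith : 0 ≤ p - t)
      linarith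
    · have g1 := mul_nonneg (sub_nonneg.2 hN) h0
      have g2 := mul_le_mul_of_nonneg_right hNs (mul_nonneg hΔ (by linarith : 0 ≤ s - t))
      have g3 := mul_nonneg (mul_nonneg (sub_nonneg.2 hN) hΔ) (by linarith : 0 ≤ s - q)
      linarith
  · refine le_trans ?_ (le_abs_self _)
    rw [abs_of_nonpos hΔ]
    have hΔ' : 0 ≤ -Δ := by linarith
    rcases le_total Nt Ns with hN | hN
    · have g1 := mul_nonneg (sub_nonneg.2 hN) h0
      have g2 := mul_le_mul_of_nonneg_right hNt (mul_nonneg hΔ' (by linarith : 0 ≤ s - t))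
      have g3 := mul_nonneg (mul_nonneg (sub_nonneg.2 hN) hΔ') (by linarith : 0 ≤ q - t)
      linarith
    · have g1 := mul_le_mul_of_nonneg_left h1 (sub_nonneg.2 hN)
      have g2 := mul_le_mul_of_nonneg_right hNs (mul_nonneg hΔ' (by linarith : 0 ≤ s - t))
      have g3 := mul_nonneg (mul_nonneg (sub_nonneg.2 hN) hΔ') (by linarith : 0 ≤ s - p)
      linarith

variable {X Y : Type*} [NormedAddCommGroup X] [NormedSpace ℝ X] [CompleteSpace X]
  [NormedAddCommGroup Y] [NormedSpace ℝ Y] [CompleteSpace Y]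
  {T : X → Y} {T' : Y → X} {a₀ b : X} {c d : ℝ}

namespace Arc

variable (h : Arc T T' a₀ b c d)
include h

lemma integral_u_sub {x y : ℝ} (hx : x ∈ Icc c d) (hy : y ∈ Icc c d) (k : ℝ) :
    ∫ w in x..y, (u a₀ b c d w - k) = N a₀ b y - N a₀ b x - (y - x) * k := by
  rw [intervalIntegral.integral_sub (h.continuous_u.intervalIntegrable _ _) intervalIntegrable_const,
    intervalIntegral.integral_eq_sub_of_hasDerivAt
      (fun w hw => h.hasDerivAt_N (uIcc_subset_Icc hx hy hw))
      (h.continuous_u.intervalIntegrable _ _), intervalIntegral.integral_const, smul_eq_mul]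

lemma integral_apply_V_sub (η : Y →L[ℝ] ℝ) {x y : ℝ} (hx : x ∈ Icc c d) (hy : y ∈ Icc c d) (k : ℝ) :
    ∫ w in x..y, (η (V T a₀ b c d w) - k) = η (Z T a₀ b y) - η (Z T a₀ b x) - (y - x) * k := by
  have hc : Continuous fun w => η (V T a₀ b c d w) := η.continuous.comp h.continuous_V
  rw [intervalIntegral.integral_sub (hc.intervalIntegrable _ _) intervalIntegrable_const,
    intervalIntegral.integral_eq_sub_of_hasDerivAt
      (fun w hw => η.hasFDerivAt.comp_hasDerivAt w (h.hasDerivAt_Z (uIcc_subset_Icc hx hy hw)))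
      (hc.intervalIntegrable _ _), intervalIntegral.integral_const, smul_eq_mul]
  rfl

variable {t p s : ℝ}

/-- The chord of a balanced interval is parallel to the tangent at the barycentre. -/
lemma chord_eq (ht : t ∈ Icc c d) (hp : p ∈ Icc c d) (hs : s ∈ Icc c d)
    (hb : jmean (N a₀ b) (u a₀ b c d) t p s = 0) :
    N a₀ b t - N a₀ b s
      = -((N a₀ b t * (s - p) + N a₀ b s * (p - t)) * (u a₀ b c d p / N a₀ b p)) := by
  rw [jmean, h.integral_u_sub hp hs, h.integral_u_sub ht hp] at hb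
  have := h.N_pos p
  field_simp
  linarith

lemma jmean_apply (ht : t ∈ Icc c d) (hp : p ∈ Icc c d) (hs : s ∈ Icc c d)
    (hb : jmean (N a₀ b) (u a₀ b c d) t p s = 0) (η : Y →L[ℝ] ℝ) :
    jmean (N a₀ b) (fun w => η (V T a₀ b c d w)) t p s
      = η (N a₀ b t • Z T a₀ b s - N a₀ b s • Z T a₀ b t)
        - (N a₀ b t * (s - p) + N a₀ b s * (p - t)) * η (om T a₀ b c d p) := by
  have e := h.chord_eq ht hp hs hb
  rw [jmean, h.integral_apply_V_sub η hp hs, h.integral_apply_V_sub η ht hp, om, h.cl_eq hp]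
  simp only [map_sub, map_smul, smul_eq_mul]
  linear_combination -(η (Z T a₀ b p)) * e

lemma norm_chord (ht : t ∈ Icc c d) (hp : p ∈ Icc c d) (hs : s ∈ Icc c d) (htp : t ≤ p)
    (hps : p ≤ s) (hb : jmean (N a₀ b) (u a₀ b c d) t p s = 0) :
    ‖N a₀ b t • Z T a₀ b s - N a₀ b s • Z T a₀ b t‖
      = (N a₀ b t * (s - p) + N a₀ b s * (p - t)) * ‖w a₀ b c d p‖ := by
  have hNt := h.N_pos t
  have hNs := h.N_pos s
  have e := h.chord_eq ht hp hs hb
  set D := N a₀ b t * (s - p) + N a₀ b s * (p - t) with hD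
  have hD0 : 0 ≤ D := by
    have := sub_nonneg.2 htp
    have := sub_nonneg.2 hps
    positivity
  have hr : N a₀ b t • pt a₀ b s - N a₀ b s • pt a₀ b t = D • w a₀ b c d p := by
    have e2 : N a₀ b t • pt a₀ b s - N a₀ b s • pt a₀ b t
        = (N a₀ b t - N a₀ b s) • pt a₀ b p + D • b := by
      simp only [pt, hD]
      module
    rw [e2, e, w, h.cl_eq hp]
    module
  rw [← Real.norm_of_nonneg hD0, ← norm_smul, ← hr]
  simp only [Z]
  rw [← h.isT.homog _ _ hNt, ← h.isT.homog _ _ hNs]
  refine h.isT.dist_map _ _ ?_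
  rw [norm_smul, norm_smul, Real.norm_of_nonneg hNt.le, Real.norm_of_nonneg hNs.le]
  exact mul_comm _ _

/-- A parameter at which the chord of the image is tangent. -/
lemma exists_tangent (ht : t ∈ Icc c d) (hs : s ∈ Icc c d) (hts : t ≤ s) :
    ∃ q ∈ Icc t s, Ps T a₀ b c d q (N a₀ b t • Z T a₀ b s - N a₀ b s • Z T a₀ b t) = 0 := by
  obtain ⟨K, -, -, hP⟩ := h.exists_lip
  set r := N a₀ b t • Z T a₀ b s - N a₀ b s • Z T a₀ b t with hr
  have hc : Continuous fun q => Ps T a₀ b c d q r := hP.continuous.clm_apply continuous_const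
  have h1 : Ps T a₀ b c d t r ≤ 0 := by
    have e := (le_abs_self _).trans (h.Ps_le t (Z T a₀ b s))
    rw [h.N_Z] at e
    have := mul_le_mul_of_nonneg_left e (h.N_pos t).le
    rw [hr, map_sub, map_smul, map_smul, h.Ps_Z ht, smul_eq_mul, smul_eq_mul]
    linarith
  have h2 : 0 ≤ Ps T a₀ b c d s r := by
    have e := (le_abs_self _).trans (h.Ps_le s (Z T a₀ b t))
    rw [h.N_Z] at e
    have := mul_le_mul_of_nonneg_left e (h.N_pos s).le
    rw [hr, map_sub, map_smul, map_smul, h.Ps_Z hs, smul_eq_mul, smul_eq_mul]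
    linarith
  obtain ⟨q, hq, hq0⟩ := intermediate_value_Icc hts hc.continuousOn (show (0 : ℝ) ∈ Icc _ _ from ⟨h1, h2⟩)
  exact ⟨q, hq, hq0⟩

/-- The tangency point is close to the barycentre. -/
lemma shift_le {m k : ℝ} (hm : 0 < m) (hk : 0 ≤ k) (hN : ∀ x ∈ Icc c d, m ≤ N a₀ b x ∧ N a₀ b x ≤ m⁻¹)
    (ht : t ∈ Icc c d) (hp : p ∈ Icc c d) (hs : s ∈ Icc c d) (htp : t ≤ p) (hps : p ≤ s)
    (hb : jmean (N a₀ b) (u a₀ b c d) t p s = 0) {q : ℝ} (hq : q ∈ Icc t s)
    (hq0 : Ps T a₀ b c d q (N a₀ b t • Z T a₀ b s - N a₀ b s • Z T a₀ b t) = 0)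
    (hnear : ∀ v ∈ Icc t s, |Ps T a₀ b c d q (et T a₀ b c d v)| ≤ k) (hks : 4 * k ≤ m ^ 2) :
    |u a₀ b c d q - u a₀ b c d p| * (s - t) * m ^ 3
      ≤ 8 * k * (N a₀ b t * ∫ w in p..s, (u a₀ b c d w - u a₀ b c d p)) := by
  have hqI : q ∈ Icc c d := ⟨ht.1.trans hq.1, hq.2.trans hs.2⟩
  set U := u a₀ b c d with hU
  set Δ := U q - U p with hΔ
  set A := N a₀ b t * ∫ w in p..s, (U w - U p) with hA
  set I := ∫ w in p..q, (U w - U p) with hI
  have iU : ∀ z x y, IntervalIntegrable (fun w => U w - z) volume x y := fun z x y =>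
    (h.continuous_u.sub continuous_const).intervalIntegrable _ _
  -- the balance at the tangency point
  have hJ : jmean (N a₀ b) (fun w => Ps T a₀ b c d q (V T a₀ b c d w)) t q s
      = jmean (N a₀ b) U t q s := by
    rw [jmean, jmean, h.integral_u_sub hqI hs, h.integral_u_sub ht hqI,
      h.integral_apply_V_sub _ hqI hs, h.integral_apply_V_sub _ ht hqI, h.Ps_V hqI, h.Ps_Z hqI]
    rw [map_sub, map_smul, map_smul, smul_eq_mul, smul_eq_mul] at hq0
    simp only [hU]
    linear_combination hq0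
  set S := fun w => |U w - U p| + |Δ| with hS
  have hSc : Continuous S := ((h.continuous_u.sub continuous_const).abs).add continuous_const
  have hbound : |jmean (N a₀ b) U t q s| ≤ 2 * k * (N a₀ b t * (∫ w in q..s, S w)
      + N a₀ b s * ∫ w in t..q, S w) := by
    have h1 := abs_jmean_sub_le (N := N a₀ b) (f := fun w => Ps T a₀ b c d q (V T a₀ b c d w))
      (g := fun _ => 0) (B := fun w => 2 * k * S w)
      ((Ps T a₀ b c d q).continuous.comp h.continuous_V) continuous_const
      (continuous_const.mul hSc) (fun x => (h.N_pos x).le) hq.1 hq.2 (fun w hw => by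
        have hwI : w ∈ Icc c d := ⟨ht.1.trans hw.1, hw.2.trans hs.2⟩
        have h2 := h.apply_V_sub_le (Ps T a₀ b c d q) hqI hwI
          (fun v hv => hnear v (uIcc_subset_Icc hq hw hv))
        rw [map_sub] at h2
        simp only [sub_self, sub_zero]
        refine h2.trans (mul_le_mul_of_nonneg_left ?_ (by positivity))
        simp only [hS, hΔ, hU]
        calc |u a₀ b c d w - u a₀ b c d q|
            = |(u a₀ b c d w - u a₀ b c d p) - (u a₀ b c d q - u a₀ b c d p)| := by ring_nf
          _ ≤ _ := abs_sub _ _)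
    rw [hJ, show jmean (N a₀ b) (fun _ => (0 : ℝ)) t q s = 0 by simp [jmean], sub_zero] at h1
    refine h1.trans (le_of_eq ?_)
    rw [intervalIntegral.integral_const_mul, intervalIntegral.integral_const_mul]
    ring
  -- comparison of the two balances
  have hform : jmean (N a₀ b) U t q s
      = (N a₀ b s - N a₀ b t) * I - Δ * (N a₀ b t * (s - q) + N a₀ b s * (q - t)) := by
    have hbal := hb
    rw [jmean, h.integral_u_sub hp hs, h.integral_u_sub ht hp] at hbal
    rw [jmean, h.integral_u_sub hqI hs, h.integral_u_sub ht hqI, hI, h.integral_u_sub hp hqI, hΔ]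
    simp only [hU] at hbal ⊢
    linear_combination hbal
  have hcase : (p ≤ q ∧ 0 ≤ Δ ∧ 0 ≤ I ∧ I ≤ (q - p) * Δ) ∨
      (q ≤ p ∧ Δ ≤ 0 ∧ 0 ≤ I ∧ I ≤ (p - q) * -Δ) := by
    rcases le_total p q with hpq | hqp
    · refine Or.inl ⟨hpq, sub_nonneg.2 (h.mono_u hpq),
        intervalIntegral.integral_nonneg hpq fun w hw => sub_nonneg.2 (h.mono_u hw.1), ?_⟩
      have := intervalIntegral.integral_mono_on hpq (iU (U p) p q) intervalIntegrable_const
        (fun w hw => show U w - U p ≤ Δ from sub_le_sub_right (h.mono_u hw.2) _)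
      rwa [intervalIntegral.integral_const, smul_eq_mul] at this
    · have e : I = ∫ w in q..p, (U p - U w) := by
        rw [hI, intervalIntegral.integral_symm, ← intervalIntegral.integral_neg]
        simp only [neg_sub]
      refine Or.inr ⟨hqp, sub_nonpos.2 (h.mono_u hqp), ?_, ?_⟩ <;> rw [e]
      · exact intervalIntegral.integral_nonneg hqp fun w hw => sub_nonneg.2 (h.mono_u hw.2)
      · have := intervalIntegral.integral_mono_on (f := fun w => U p - U w) hqp
          (((continuous_const.sub h.continuous_u : Continuous fun w => U p - U w)).intervalIntegrable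
            (μ := volume) _ _) intervalIntegrable_const
          (fun w hw => show U p - U w ≤ -Δ by
            rw [hΔ, neg_sub]; exact sub_le_sub_left (h.mono_u hw.1) _)
        rwa [intervalIntegral.integral_const, smul_eq_mul] at this
  have h3 := shift_num hm.le (hN t ht).1 (hN s hs).1 htp hps hq.1 hq.2 hcase
  rw [← hform] at h3
  -- the total variation
  have hAs : N a₀ b s * ∫ w in t..p, (U p - U w) = A := by
    have e : ∫ w in t..p, (U p - U w) = -∫ w in t..p, (U w - U p) := by
      rw [← intervalIntegral.integral_neg]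
      simp only [neg_sub]
    rw [jmean] at hb
    rw [e, hA]
    linarith
  have habs : m * ∫ w in t..s, |U w - U p| ≤ 2 * A := by
    have iabs : ∀ x y, IntervalIntegrable (fun w => |U w - U p|) volume x y := fun x y =>
      ((h.continuous_u.sub continuous_const).abs).intervalIntegrable _ _
    rw [← intervalIntegral.integral_add_adjacent_intervals (iabs t p) (iabs p s),
      intervalIntegral.integral_congr (g := fun w => U p - U w) (fun w hw => by
        rw [uIcc_of_le htp] at hw
        exact (abs_of_nonpos (sub_nonpos.2 (h.mono_u hw.2))).trans (neg_sub _ _)),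
      intervalIntegral.integral_congr (g := fun w => U w - U p) (a := p) (fun w hw => by
        rw [uIcc_of_le hps] at hw
        exact abs_of_nonneg (sub_nonneg.2 (h.mono_u hw.1)))]
    have g1 := mul_le_mul_of_nonneg_right (hN s hs).1
      (intervalIntegral.integral_nonneg (μ := volume) htp fun w hw => sub_nonneg.2 (h.mono_u hw.2) :
        0 ≤ ∫ w in t..p, (U p - U w))
    have g2 := mul_le_mul_of_nonneg_right (hN t ht).1
      (intervalIntegral.integral_nonneg (μ := volume) hps fun w hw => sub_nonneg.2 (h.mono_u hw.1) :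
        0 ≤ ∫ w in p..s, (U w - U p))
    linarith
  have hSq : N a₀ b t * (∫ w in q..s, S w) + N a₀ b s * (∫ w in t..q, S w)
      ≤ m⁻¹ * ((∫ w in t..s, |U w - U p|) + (s - t) * |Δ|) := by
    have p1 : 0 ≤ ∫ w in q..s, S w := intervalIntegral.integral_nonneg hq.2 fun w _ => by positivity
    have p2 : 0 ≤ ∫ w in t..q, S w := intervalIntegral.integral_nonneg hq.1 fun w _ => by positivity
    refine (add_le_add (mul_le_mul_of_nonneg_right (hN t ht).2 p1)
      (mul_le_mul_of_nonneg_right (hN s hs).2 p2)).trans (le_of_eq ?_)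
    rw [← mul_add, add_comm, intervalIntegral.integral_add_adjacent_intervals
      (hSc.intervalIntegrable _ _) (hSc.intervalIntegrable _ _)]
    congr 1
    simp only [hS]
    have c3 : Continuous fun w => |U w - U p| := (h.continuous_u.sub continuous_const).abs
    rw [intervalIntegral.integral_add (c3.intervalIntegrable _ _) intervalIntegrable_const,
      intervalIntegral.integral_const, smul_eq_mul]
  have h4 : m ^ 3 * (|Δ| * (s - t)) ≤ 2 * k * (2 * A + m * ((s - t) * |Δ|)) := by
    have h5 := (h3.trans hbound).trans (mul_le_mul_of_nonneg_left hSq (by positivity))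
    have h6 := mul_le_mul_of_nonneg_left h5 (sq_nonneg m)
    have h7 := mul_le_mul_of_nonneg_left habs (show 0 ≤ 2 * k by positivity)
    have e : m ^ 2 * (2 * k * (m⁻¹ * ((∫ w in t..s, |U w - U p|) + (s - t) * |Δ|)))
        = 2 * k * (m * ((∫ w in t..s, |U w - U p|)) + m * ((s - t) * |Δ|)) := by
      field_simp
    rw [e] at h6
    linarith
  have h8 : 2 * k * (m * ((s - t) * |Δ|)) ≤ m ^ 3 / 2 * ((s - t) * |Δ|) := by
    have := mul_le_mul_of_nonneg_right hks
      (show 0 ≤ m * ((s - t) * |Δ|) from mul_nonneg hm.le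
        (mul_nonneg (by linarith) (abs_nonneg _)))
    linarith
  linarith

end Arc

end Vale.Agent.P084.Full
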