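import Vale.Agent.P084.Full.PlaneAffine

/-! The turning weight is proportional to the slope increments. -/

namespace Vale.Agent.P084.Full

open Inf Filter Topology Metric MeasureTheory Set
open scoped NNReal

set_option linter.unusedSectionVars false

variable {X Y : Type*} [NormedAddCommGroup X] [NormedSpace ℝ X] [CompleteSpace X]
  [NormedAddCommGroup Y] [NormedSpace ℝ Y] [CompleteSpace Y]
  {T : X → Y} {T' : Y → X} {a₀ b : X} {c d : ℝ}

namespace Arc

variable (h : Arc T T' a₀ b c d)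
include h

/-- At the tangency point the norming functional exceeds the value at the tangent of the barycentre. -/
lemma apply_tangent {t p s q δ : ℝ} (ht : t ∈ Icc c d) (hp : p ∈ Icc c d) (hs : s ∈ Icc c d)
    (htp : t ≤ p) (hps : p ≤ s) (hts : t < s) (hb : jmean (N a₀ b) (u a₀ b c d) t p s = 0)
    (hq : q ∈ Icc t s)
    (hq0 : Ps T a₀ b c d q (N a₀ b t • Z T a₀ b s - N a₀ b s • Z T a₀ b t) = 0)
    (hu : ∀ v ∈ Icc t s, |u a₀ b c d v - u a₀ b c d p| ≤ δ)
    (hnf : 1 / 2 < nf (et T a₀ b c d q) (et T a₀ b c d p)) (hδ : 4 * δ < ‖w a₀ b c d p‖) :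
    0 ≤ jmean (N a₀ b) (fun w => nf (et T a₀ b c d q) (V T a₀ b c d w)) t p s := by
  have hqI : q ∈ Icc c d := ⟨ht.1.trans hq.1, hq.2.trans hs.2⟩
  set η := nf (et T a₀ b c d q) with hη
  set r := N a₀ b t • Z T a₀ b s - N a₀ b s • Z T a₀ b t with hr
  set D := N a₀ b t * (s - p) + N a₀ b s * (p - t) with hD
  have hD0 : 0 < D := by
    rcases hps.eq_or_lt with rfl | hlt
    · have := mul_pos (h.N_pos p) (sub_pos.2 hts)
      rw [hD]
      linarith
    · have := mul_pos (h.N_pos t) (sub_pos.2 hlt)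
      have := mul_nonneg (h.N_pos s).le (sub_nonneg.2 htp)
      linarith
  have hn : ‖r‖ = D * ‖w a₀ b c d p‖ := h.norm_chord ht hp hs htp hps hb
  have hpar : |η r| = ‖r‖ := by
    have h1 := plane_decomp h.dimY (h.Ps_gY hqI) (h.Ps_et hqI) (h.norm_et hqI) r
    rw [hq0, zero_smul, zero_add, sub_zero, ← hη] at h1
    conv_rhs => rw [h1]
    rw [norm_smul, h.norm_et hqI, mul_one, Real.norm_eq_abs]
  have hom : η (om T a₀ b c d p) = ‖w a₀ b c d p‖ * η (et T a₀ b c d p) := by
    rw [et, map_smul, smul_eq_mul, ← mul_assoc,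
      mul_inv_cancel₀ (norm_ne_zero_iff.2 (h.w_ne p)), one_mul]
  have hΦ := h.jmean_apply ht hp hs hb η
  rw [← hr, ← hD, hom] at hΦ
  -- the mean is small
  have hbd : |jmean (N a₀ b) (fun w => η (V T a₀ b c d w)) t p s| ≤ 2 * δ * D := by
    have h1 := abs_jmean_sub_le (N := N a₀ b) (f := fun w => η (V T a₀ b c d w)) (g := fun _ => 0)
      (B := fun _ => 2 * δ) (η.continuous.comp h.continuous_V) continuous_const continuous_const
      (fun x => (h.N_pos x).le) htp hps (fun w hw => by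
        have hwI : w ∈ Icc c d := ⟨ht.1.trans hw.1, hw.2.trans hs.2⟩
        simp only [sub_self, sub_zero, ← map_sub]
        exact (abs_nf_le _ _).trans ((h.norm_V_sub_le' hp hwI).trans (by linarith [hu w hw])))
    rw [show jmean (N a₀ b) (fun _ => (0 : ℝ)) t p s = 0 by simp [jmean], sub_zero,
      intervalIntegral.integral_const, intervalIntegral.integral_const] at h1
    simp only [smul_eq_mul] at h1
    refine h1.trans (le_of_eq ?_)
    rw [hD]
    ring
  have hσ : 0 < ‖w a₀ b c d p‖ := norm_pos_iff.2 (h.w_ne p)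
  have hpos : 0 ≤ η r := by
    have g1 := mul_lt_mul_of_pos_left hnf (mul_pos hD0 hσ)
    have g2 := mul_lt_mul_of_pos_left hδ hD0
    linarith [(abs_le.1 hbd).1]
  rw [abs_of_nonneg hpos, hn] at hpar
  rw [hΦ, hpar, ← mul_assoc]
  have h2 := nf_le (et T a₀ b c d q) (et T a₀ b c d p)
  rw [h.norm_et hp] at h2
  have := mul_le_mul_of_nonneg_left h2 (mul_pos hD0 hσ).le
  linarith

/-- The estimate on balanced intervals. -/
lemma jmean_F_le {M Q F : ℝ → ℝ} {L L' : ℝ≥0} {BM : ℝ} (hM : Monotone M) (hBM : ∀ x, |M x| ≤ BM)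
    (hMk : ∀ p q, p ≤ q → |kY T a₀ b c d q - kY T a₀ b c d p|
      + ‖gY T a₀ b c d q - gY T a₀ b c d p‖ ≤ M q - M p)
    (hQ : LipschitzWith L Q) (hF : LipschitzWith L' F)
    (hQd : ∀ᵐ s : ℝ, s ∈ Ioo c d → HasDerivAt Q (deriv (u a₀ b c d) s * M s) s)
    (hFd : ∀ᵐ s : ℝ, s ∈ Ioo c d → HasDerivAt F (deriv (u a₀ b c d) s * E T a₀ b c d s) s)
    {ε : ℝ} (hε : 0 < ε) :
    ∃ δ, 0 < δ ∧ ∀ t p s, c ≤ t → t ≤ p → p ≤ s → s ≤ d → t < s →
      u a₀ b c d s - u a₀ b c d t < δ → jmean (N a₀ b) (u a₀ b c d) t p s = 0 →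
      |jmean (N a₀ b) F t p s| ≤ ε * jmean (N a₀ b) Q t p s := by
  obtain ⟨C, δ₀, hC, hδ₀, hnear⟩ := h.exists_near hMk
  obtain ⟨m, hm, hb⟩ := h.exists_bounds
  have hBM0 : 0 ≤ BM := (abs_nonneg _).trans (hBM 0)
  have hbd : ∀ x ∈ Icc c d, m ≤ N a₀ b x ∧ N a₀ b x ≤ m⁻¹ := fun x hx => by
    have := hb x
    rw [h.cl_eq hx] at this
    exact ⟨this.1, this.2.2⟩
  set κ := min (min (ε / 10) (m ^ 2 / 4)) (min (m ^ 4 / 16) (1 / (4 * (BM + 1)))) with hκ
  have hκ0 : 0 < κ := lt_min (lt_min (by positivity) (by positivity))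
    (lt_min (by positivity) (by positivity))
  refine ⟨min (min δ₀ (m / 5)) (κ / C), lt_min (lt_min hδ₀ (by positivity)) (div_pos hκ0 hC),
    fun t p s ht' htp hps hs' hts hus hbal => ?_⟩
  set δ := min (min δ₀ (m / 5)) (κ / C) with hδ
  have hδ1 : δ ≤ δ₀ := (min_le_left _ _).trans (min_le_left _ _)
  have hδ2 : δ ≤ m / 5 := (min_le_left _ _).trans (min_le_right _ _)
  have hδ3 : C * δ ≤ κ := by
    have h1 : δ ≤ κ / C := min_le_right _ _
    rw [le_div_iff₀ hC] at h1
    linarith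
  have hk1 : κ ≤ ε / 10 := (min_le_left _ _).trans (min_le_left _ _)
  have hk2 : κ ≤ m ^ 2 / 4 := (min_le_left _ _).trans (min_le_right _ _)
  have hk3 : κ ≤ m ^ 4 / 16 := (min_le_right _ _).trans (min_le_left _ _)
  have hk4 : κ * (4 * (BM + 1)) ≤ 1 := (le_div_iff₀ (by positivity)).1
    ((min_le_right _ _).trans (min_le_right _ _))
  have hδ0 : 0 ≤ δ := le_trans (sub_nonneg.2 (h.mono_u hts.le)) hus.le
  set k := C * δ with hk
  have hk0 : 0 ≤ k := mul_nonneg hC.le hδ0
  have ht : t ∈ Icc c d := ⟨ht', hts.le.trans hs'⟩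
  have hs : s ∈ Icc c d := ⟨ht'.trans hts.le, hs'⟩
  have hp : p ∈ Icc c d := ⟨ht'.trans htp, hps.trans hs'⟩
  have hpI : p ∈ Icc t s := ⟨htp, hps⟩
  have hu : ∀ v ∈ Icc t s, ∀ x ∈ Icc t s, |u a₀ b c d v - u a₀ b c d x| ≤ δ := fun v hv x hx => by
    have := h.mono_u hv.1
    have := h.mono_u hv.2
    have := h.mono_u hx.1
    have := h.mono_u hx.2
    rw [abs_le]
    constructor <;> linarith
  have hI : ∀ v ∈ Icc t s, v ∈ Icc c d := fun v hv => ⟨ht'.trans hv.1, hv.2.trans hs'⟩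
  have hn : ∀ a ∈ Icc t s, ∀ v ∈ Icc t s, |Ps T a₀ b c d a (et T a₀ b c d v)| ≤ k ∧
      |1 - nf (et T a₀ b c d a) (et T a₀ b c d v)| ≤ k * |M v - M a| := fun a ha v hv =>
    hnear δ a v (hI a ha) (hI v hv) hδ1 (hu v hv a ha)
  set A := N a₀ b t * ∫ w in p..s, (u a₀ b c d w - u a₀ b c d p) with hA
  have hA0 : 0 ≤ A := mul_nonneg (h.N_pos t).le
    (intervalIntegral.integral_nonneg hps fun w hw => sub_nonneg.2 (h.mono_u hw.1))
  have hQc := hQ.continuous
  have hFc := hF.continuous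
  have hUc := h.continuous_u
  -- comparison with the norming functionals
  have hcmp : ∀ a ∈ Icc t s,
      |jmean (N a₀ b) (fun w => nf (et T a₀ b c d a) (V T a₀ b c d w)) t p s - jmean (N a₀ b) F t p s|
        ≤ 2 * k * jmean (N a₀ b) Q t p s + 2 * k * |M p - M a| * (2 * A) := by
    intro a ha
    have h1 := abs_jmean_sub_le (N := N a₀ b) (f := fun w => nf (et T a₀ b c d a) (V T a₀ b c d w))
      (g := F) (B := fun w => 2 * k * (Q w - Q p - M p * (u a₀ b c d w - u a₀ b c d p))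
        + 2 * k * |M p - M a| * |u a₀ b c d w - u a₀ b c d p|)
      ((nf (et T a₀ b c d a)).continuous.comp h.continuous_V) hFc
      ((continuous_const.mul ((hQc.sub continuous_const).sub
        (continuous_const.mul (hUc.sub continuous_const)))).add
        (continuous_const.mul (hUc.sub continuous_const).abs))
      (fun x => (h.N_pos x).le) htp hps (fun w hw => h.apply_F_le hM hQ hF hQd hFd hp (hI w hw) hk0
        fun v hv => (hn a ha v (uIcc_subset_Icc hpI hw hv)).2)
    refine h1.trans (le_of_eq ?_)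
    have c1 : Continuous fun w => Q w - Q p - M p * (u a₀ b c d w - u a₀ b c d p) :=
      (hQc.sub continuous_const).sub (continuous_const.mul (hUc.sub continuous_const))
    have c2 : Continuous fun w => |u a₀ b c d w - u a₀ b c d p| := (hUc.sub continuous_const).abs
    have split : ∀ x y, ∫ w in x..y, (2 * k * (Q w - Q p - M p * (u a₀ b c d w - u a₀ b c d p))
        + 2 * k * |M p - M a| * |u a₀ b c d w - u a₀ b c d p|)
        = 2 * k * (∫ w in x..y, (Q w - Q p - M p * (u a₀ b c d w - u a₀ b c d p)))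
          + 2 * k * |M p - M a| * ∫ w in x..y, |u a₀ b c d w - u a₀ b c d p| := fun x y => by
      rw [intervalIntegral.integral_add ((c1.intervalIntegrable _ _).const_mul _)
        ((c2.intervalIntegrable _ _).const_mul _), intervalIntegral.integral_const_mul,
        intervalIntegral.integral_const_mul]
    have e1 := jmean_sub_affine hQc hUc hbal (Q p - M p * u a₀ b c d p) (M p)
    have e2 : N a₀ b t * (∫ w in p..s, |u a₀ b c d w - u a₀ b c d p|)
        + N a₀ b s * ∫ w in t..p, |u a₀ b c d w - u a₀ b c d p| = 2 * A := by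
      rw [intervalIntegral.integral_congr (g := fun w => u a₀ b c d w - u a₀ b c d p) (a := p)
        (fun w hw => by
          rw [uIcc_of_le hps] at hw
          exact abs_of_nonneg (sub_nonneg.2 (h.mono_u hw.1))),
        intervalIntegral.integral_congr (g := fun w => -(u a₀ b c d w - u a₀ b c d p)) (a := t)
        (fun w hw => by
          rw [uIcc_of_le htp] at hw
          exact abs_of_nonpos (sub_nonpos.2 (h.mono_u hw.2))), intervalIntegral.integral_neg]
      rw [jmean] at hbal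
      rw [hA]
      linarith
    have e3 : jmean (N a₀ b) Q t p s
        = N a₀ b t * (∫ w in p..s, (Q w - Q p - M p * (u a₀ b c d w - u a₀ b c d p)))
          + N a₀ b s * ∫ w in t..p, (Q w - Q p - M p * (u a₀ b c d w - u a₀ b c d p)) := by
      rw [← e1]
      simp only [jmean]
      congr 1 <;> congr 1 <;> refine intervalIntegral.integral_congr fun w _ => ?_ <;> ring
    rw [split, split, e3, ← e2]
    ring
  -- the two special functionals
  have hJQ : 0 ≤ k * jmean (N a₀ b) Q t p s := by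
    have h1 := (abs_nonneg _).trans (hcmp p hpI)
    rw [sub_self, abs_zero] at h1
    linarith
  have hup : jmean (N a₀ b) (fun w => nf (et T a₀ b c d p) (V T a₀ b c d w)) t p s ≤ 0 := by
    have e := h.jmean_apply ht hp hs hbal (nf (et T a₀ b c d p))
    have e2 := h.norm_chord ht hp hs htp hps hbal
    have e3 := nf_le (et T a₀ b c d p) (N a₀ b t • Z T a₀ b s - N a₀ b s • Z T a₀ b t)
    have e4 : nf (et T a₀ b c d p) (om T a₀ b c d p) = ‖w a₀ b c d p‖ := by
      have e5 : om T a₀ b c d p = ‖w a₀ b c d p‖ • et T a₀ b c d p := by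
        rw [et, smul_inv_smul₀ (norm_ne_zero_iff.2 (h.w_ne p))]
      rw [e5, map_smul, nf_self, h.norm_et hp, smul_eq_mul, mul_one]
    rw [e, e4]
    linarith
  obtain ⟨q, hq, hq0⟩ := h.exists_tangent ht hs hts.le
  have hlow : 0 ≤ jmean (N a₀ b) (fun w => nf (et T a₀ b c d q) (V T a₀ b c d w)) t p s := by
    refine h.apply_tangent ht hp hs htp hps hts hbal hq hq0 (fun v hv => hu v hv p hpI) ?_ ?_
    · have e1 := (le_abs_self _).trans (hn q hq p hpI).2
      have e2 := mul_le_mul hδ3 ((abs_sub _ _).trans (add_le_add (hBM p) (hBM q)))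
        (abs_nonneg (M p - M q)) hκ0.le
      linarith
    · linarith [(hb p).2.1]
  have hsh : ∀ n, n ≤ m⁻¹ → 0 ≤ n → n * (|u a₀ b c d q - u a₀ b c d p| * (s - t)) ≤ A / 2 := by
    intro n hn1 hn0
    have e := h.shift_le hm hk0 hbd ht hp hs htp hps hbal hq hq0
      (fun v hv => (hn q hq v hv).1) (by linarith)
    rw [← hA] at e
    set Δ := |u a₀ b c d q - u a₀ b c d p| * (s - t) with hΔ
    have hΔ0 : 0 ≤ Δ := mul_nonneg (abs_nonneg _) (sub_nonneg.2 hts.le)
    have e2 := mul_le_mul_of_nonneg_right hn1 hΔ0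
    have e3 : m ^ 4 * (m⁻¹ * Δ) ≤ m ^ 4 * (A / 2) := by
      have e4 : m ^ 4 * (m⁻¹ * Δ) = Δ * m ^ 3 := by field_simp
      have e5 := mul_le_mul_of_nonneg_right (hδ3.trans hk3) hA0
      rw [e4]
      linarith
    exact e2.trans (le_of_mul_le_mul_left e3 (pow_pos hm 4))
  have hvar := h.variation_le hM hQ hQd ht hp hs htp hps hbal hq
    ⟨hsh _ (hbd t ht).2 (h.N_pos t).le, hsh _ (hbd s hs).2 (h.N_pos s).le⟩
  rw [← hA, abs_sub_comm] at hvar
  have g1 := abs_le.1 (hcmp p hpI)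
  have g2 := abs_le.1 (hcmp q hq)
  rw [sub_self, abs_zero] at g1
  have g3 := mul_le_mul_of_nonneg_left hvar hk0
  have g4 : 10 * (k * jmean (N a₀ b) Q t p s) ≤ ε * jmean (N a₀ b) Q t p s := by
    rcases eq_or_lt_of_le hk0 with h0 | h0
    · rw [← h0, zero_mul, mul_zero]
      refine mul_nonneg hε.le ?_
      have e3 := hvar
      exact nonneg_of_mul_nonneg_right (le_trans (mul_nonneg (abs_nonneg _) hA0) e3) two_pos
    · have hQ0 : 0 ≤ jmean (N a₀ b) Q t p s := nonneg_of_mul_nonneg_right hJQ h0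
      have := mul_le_mul_of_nonneg_right (hδ3.trans hk1) hQ0
      linarith
  rw [abs_le]
  constructor <;> linarith

/-- The defect is constant. -/
theorem exists_defect_const : ∃ E₀ : ℝ, ∀ᵐ s : ℝ, s ∈ Ioo c d →
    deriv (u a₀ b c d) s * E T a₀ b c d s = E₀ * deriv (u a₀ b c d) s := by
  obtain ⟨M₁, hM₁, hEm, hMk₁⟩ := h.exists_majorant
  obtain ⟨K, hu, -, -⟩ := h.exists_lip
  set M := fun x => M₁ (cl c d x) with hMdef
  have hM : Monotone M := fun p q hpq => hM₁ (max_le_max le_rfl (min_le_min le_rfl hpq))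
  set BM := |M₁ c| + |M₁ d| with hBMdef
  have hBM : ∀ x, |M x| ≤ BM := fun x => by
    have h1 := hM₁ (h.cl_mem x).1
    have h2 := hM₁ (h.cl_mem x).2
    rw [abs_le]
    constructor <;> linarith [neg_abs_le (M₁ c), le_abs_self (M₁ d), abs_nonneg (M₁ c),
      abs_nonneg (M₁ d)]
  have hMk : ∀ p q, p ≤ q → |kY T a₀ b c d q - kY T a₀ b c d p|
      + ‖gY T a₀ b c d q - gY T a₀ b c d p‖ ≤ M q - M p := fun p q hpq => by
    have := (hMk₁ (cl c d p) (cl c d q) (max_le_max le_rfl (min_le_min le_rfl hpq))).2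
    simpa only [hMdef, kY, gY, et, om, w, u, V, h.cl_eq (h.cl_mem p), h.cl_eq (h.cl_mem q)] using this
  have hd : ∀ x, |deriv (u a₀ b c d) x| ≤ K := fun x =>
    (Real.norm_eq_abs _).symm.le.trans (norm_deriv_le_of_lipschitz hu)
  obtain ⟨hF, hFd⟩ := prim_props (g := fun x => deriv (u a₀ b c d) x * E T a₀ b c d x) (B := K * 2)
    ((measurable_deriv _).mul hEm)
    (fun x => by rw [abs_mul]; exact mul_le_mul (hd x) (h.abs_E_le x) (abs_nonneg _) K.coe_nonneg) c d
  obtain ⟨hQ, hQd⟩ := prim_props (g := fun x => deriv (u a₀ b c d) x * M x) (B := K * BM)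
    ((measurable_deriv _).mul hM.measurable)
    (fun x => by rw [abs_mul]; exact mul_le_mul (hd x) (hBM x) (abs_nonneg _) K.coe_nonneg) c d
  set F := fun s => ∫ x in c..cl c d s, deriv (u a₀ b c d) x * E T a₀ b c d x with hFdef
  set Q := fun s => ∫ x in c..cl c d s, deriv (u a₀ b c d) x * M x with hQdef
  have hFcl : ∀ x, F x = F (cl c d x) ∧ Q x = Q (cl c d x) ∧
      u a₀ b c d x = u a₀ b c d (cl c d x) := fun x => by
    simp only [hFdef, hQdef, u, h.cl_eq (h.cl_mem x), and_self]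
  have hFu : ∀ x y, u a₀ b c d x = u a₀ b c d y → F x = F y ∧ Q x = Q y := fun x y hxy => by
    rw [(hFcl x).2.2, (hFcl y).2.2] at hxy
    rw [(hFcl x).1, (hFcl y).1, (hFcl x).2.1, (hFcl y).2.1]
    exact ⟨h.eq_of_u_eq hF hFd (h.cl_mem x) (h.cl_mem y) hxy,
      h.eq_of_u_eq hQ hQd (h.cl_mem x) (h.cl_mem y) hxy⟩
  have haff : ∀ x ∈ Icc c d, (F x - F c) * (u a₀ b c d d - u a₀ b c d c)
      = (F d - F c) * (u a₀ b c d x - u a₀ b c d c) := fun x hx =>
    affine_of_jmean h.continuous_u h.mono_u continuous_N h.N_pos hF.continuous hQ.continuous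
      (fun x y hxy => (hFu x y hxy).1) (fun x y hxy => (hFu x y hxy).2)
      (fun ε hε => h.jmean_F_le hM hBM hMk hQ hF hQd hFd hε) hx
  rcases (sub_nonneg.2 (h.mono_u h.le)).eq_or_lt with h0 | h0
  · refine ⟨0, Eventually.of_forall fun s hs => ?_⟩
    have e : u a₀ b c d =ᶠ[𝓝 s] fun _ => u a₀ b c d c := by
      filter_upwards [Ioo_mem_nhds hs.1 hs.2] with v hv
      exact le_antisymm ((h.mono_u hv.2.le).trans (by linarith)) (h.mono_u hv.1.le)
    rw [e.deriv_eq, deriv_const, zero_mul, zero_mul]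
  refine ⟨(F d - F c) / (u a₀ b c d d - u a₀ b c d c), ?_⟩
  filter_upwards [hFd, h.deriv_V_ae] with s hs hs' hm
  obtain ⟨-, d1, -⟩ := hs' hm
  refine (hs hm).unique ?_
  refine (((d1.sub_const (u a₀ b c d c)).const_mul _).const_add (F c)).congr_of_eventuallyEq ?_
  filter_upwards [Ioo_mem_nhds hm.1 hm.2] with v hv
  have := haff v (Ioo_subset_Icc_self hv)
  field_simp
  linarith

end Arc

end Vale.Agent.P084.Full
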