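import Vale.Agent.P084.Full.PlaneConst

/-! The determinant of the image frame is monotone along a chart. -/

namespace Vale.Agent.P084.Full

open Inf Filter Topology Metric MeasureTheory Set
open scoped NNReal

set_option linter.unusedSectionVars false

section Det

variable {F : Type*} [NormedAddCommGroup F] [NormedSpace ℝ F]

/-- The determinant in a basis of a plane. -/
noncomputable def pdet (β : Module.Basis (Fin 2) ℝ F) (x y : F) : ℝ :=
  β.coord 0 x * β.coord 1 y - β.coord 1 x * β.coord 0 y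

lemma pdet_basis (β : Module.Basis (Fin 2) ℝ F) : pdet β (β 0) (β 1) = 1 := by
  simp [pdet]

lemma pdet_comb (β : Module.Basis (Fin 2) ℝ F) (x y : F) (a₁ b₁ a₂ b₂ : ℝ) :
    pdet β (a₁ • x + b₁ • y) (a₂ • x + b₂ • y) = (a₁ * b₂ - b₁ * a₂) * pdet β x y := by
  simp only [pdet, map_add, map_smul, smul_eq_mul]
  ring

/-- Norm preserving linear maps preserve the determinant up to sign. -/
lemma abs_pdet_map (β : Module.Basis (Fin 2) ℝ F) (B : F →ₗ[ℝ] F) (hB : ∀ v, ‖B v‖ = ‖v‖)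
    (x y : F) : |pdet β (B x) (B y)| = |pdet β x y| := by
  have : FiniteDimensional ℝ F := Module.Finite.of_basis β
  set k := pdet β (B (β 0)) (B (β 1))
  have hk : ∀ u v, pdet β (B u) (B v) = k * pdet β u v := fun u v => by
    have e : ∀ z : F, z = β.coord 0 z • β 0 + β.coord 1 z • β 1 := fun z => by
      conv_lhs => rw [← β.sum_repr z]
      rw [Fin.sum_univ_two]
      rfl
    conv_lhs => rw [e u, e v]
    simp only [map_add, map_smul]
    rw [pdet_comb]
    simp only [pdet, k]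
    ring
  have := FiniteDimensional.proper ℝ F
  have hc : Continuous fun z : F × F => |pdet β z.1 z.2| := by
    have c0 := (β.coord 0).continuous_of_finiteDimensional
    have c1 := (β.coord 1).continuous_of_finiteDimensional
    unfold pdet
    fun_prop
  obtain ⟨⟨u, v⟩, ⟨hu, hv⟩, hmax⟩ := ((isCompact_closedBall (0 : F) 1).prod
    (isCompact_closedBall (0 : F) 1)).exists_isMaxOn ⟨(0, 0), by simp⟩ hc.continuousOn
  rw [mem_closedBall_zero_iff] at hu hv
  have hM : ∀ p q : F, ‖p‖ ≤ 1 → ‖q‖ ≤ 1 → |pdet β p q| ≤ |pdet β u v| := fun p q hp hq =>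
    hmax (show (p, q) ∈ closedBall (0 : F) 1 ×ˢ closedBall (0 : F) 1 from
      ⟨mem_closedBall_zero_iff.2 hp, mem_closedBall_zero_iff.2 hq⟩)
  have hpos : 0 < |pdet β u v| := by
    have h1 := hM (‖β 0‖⁻¹ • β 0) (‖β 1‖⁻¹ • β 1) (by
      rw [norm_smul, norm_inv, norm_norm, inv_mul_cancel₀ (norm_ne_zero_iff.2 (β.ne_zero 0))]) (by
      rw [norm_smul, norm_inv, norm_norm, inv_mul_cancel₀ (norm_ne_zero_iff.2 (β.ne_zero 1))])
    refine lt_of_lt_of_le (abs_pos.2 ?_) h1
    have e : pdet β (‖β 0‖⁻¹ • β 0) (‖β 1‖⁻¹ • β 1) = ‖β 0‖⁻¹ * ‖β 1‖⁻¹ := by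
      simp [pdet]
    rw [e]
    exact mul_ne_zero (inv_ne_zero (norm_ne_zero_iff.2 (β.ne_zero 0)))
      (inv_ne_zero (norm_ne_zero_iff.2 (β.ne_zero 1)))
  have hinj : Function.Injective B := (injective_iff_map_eq_zero B).2 fun z hz => by
    rw [← norm_eq_zero, ← hB z, hz, norm_zero]
  obtain ⟨u', rfl⟩ := LinearMap.injective_iff_surjective.1 hinj u
  obtain ⟨v', rfl⟩ := LinearMap.injective_iff_surjective.1 hinj v
  have h2 := hM (B (B u')) (B (B v')) (by rwa [hB]) (by rwa [hB])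
  have h3 := hM u' v' (by rwa [← hB]) (by rwa [← hB])
  rw [hk (B u') (B v'), abs_mul] at h2
  have h4 : |pdet β (B u') (B v')| = |k| * |pdet β u' v'| := by rw [hk, abs_mul]
  have h5 : |k| ≤ 1 := le_of_mul_le_mul_right (by rwa [one_mul]) hpos
  have h6 := mul_le_mul_of_nonneg_left h3 (abs_nonneg k)
  have h7 : 1 ≤ |k| := le_of_mul_le_mul_right (by rw [one_mul]; linarith) hpos
  rw [hk, abs_mul, le_antisymm h5 h7, one_mul]

end Det

variable {X Y : Type*} [NormedAddCommGroup X] [NormedSpace ℝ X] [CompleteSpace X]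
  [NormedAddCommGroup Y] [NormedSpace ℝ Y] [CompleteSpace Y]
  {T : X → Y} {T' : Y → X} {a₀ b : X} {c d : ℝ}

/-- The squared determinant of the image frame of a chart. -/
noncomputable def Dsq (β : Module.Basis (Fin 2) ℝ Y) (T : X → Y) (a₀ b : X) (s : ℝ) : ℝ :=
  pdet β (T (Arc.pt a₀ b s)) (dTc T (Arc.pt a₀ b s) b) ^ 2

/-- A function with almost everywhere nonnegative derivative increases. -/
lemma le_of_ac_deriv_nonneg {f : ℝ → ℝ} {p q : ℝ} (hf : AbsolutelyContinuousOnInterval f p q)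
    (hpq : p ≤ q) (h : ∀ᵐ x : ℝ, x ∈ Ioo p q → ∃ y, 0 ≤ y ∧ HasDerivAt f y x) : f p ≤ f q := by
  rw [← sub_nonneg, ← hf.integral_deriv_eq_sub]
  refine intervalIntegral.integral_nonneg_of_ae_restrict hpq ?_
  refine (ae_restrict_iff' measurableSet_Icc).2 ?_
  filter_upwards [h, (by simp [ae_iff] : ∀ᵐ x : ℝ, x ≠ p), (by simp [ae_iff] : ∀ᵐ x : ℝ, x ≠ q)]
    with x hx h1 h2 hm
  obtain ⟨y, hy, hd⟩ := hx ⟨lt_of_le_of_ne hm.1 h1.symm, lt_of_le_of_ne hm.2 h2⟩
  rw [Pi.zero_apply, hd.deriv]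
  exact hy

namespace Arc

variable (h : Arc T T' a₀ b c d)
include h

lemma pdet_ne (β : Module.Basis (Fin 2) ℝ Y) {s : ℝ} (hs : s ∈ Icc c d) :
    pdet β (Z T a₀ b s) (V T a₀ b c d s) ≠ 0 := by
  intro h0
  have hdec := fun z => plane_decomp h.dimY (h.Ps_gY hs) (h.Ps_et hs) (h.norm_et hs) z
  have e1 : pdet β (gY T a₀ b c d s) (et T a₀ b c d s) = 0 := by
    simp only [pdet] at h0
    simp only [pdet, gY, et, om, h.cl_eq hs, map_smul, map_sub, smul_eq_mul]
    linear_combination ((N a₀ b s)⁻¹ * ‖w a₀ b c d s‖⁻¹) * h0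
  have e2 := pdet_basis β
  rw [hdec (β 0), hdec (β 1), pdet_comb, e1, mul_zero] at e2
  exact zero_ne_one e2

/-- Along a chart the squared determinant is monotone; where it does not change the velocity is
constant. -/
theorem det_dichotomy (β : Module.Basis (Fin 2) ℝ Y) :
    (MonotoneOn (Dsq β T a₀ b) (Icc c d) ∨ AntitoneOn (Dsq β T a₀ b) (Icc c d)) ∧
    (Dsq β T a₀ b c = Dsq β T a₀ b d → ∀ s ∈ Icc c d, V T a₀ b c d s = V T a₀ b c d c) := by
  have := h.finY
  obtain ⟨E₀, hE⟩ := h.exists_defect_const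
  obtain ⟨K, -, hV, -⟩ := h.exists_lip
  set c0 : Y →L[ℝ] ℝ := LinearMap.toContinuousLinearMap (β.coord 0) with hc0
  set c1 : Y →L[ℝ] ℝ := LinearMap.toContinuousLinearMap (β.coord 1) with hc1
  have hZ : LipschitzWith (3 * ‖b‖₊) (Z T a₀ b) := by
    refine h.isT.lipschitz.comp (LipschitzWith.of_dist_le_mul fun p q => ?_)
    rw [dist_eq_norm, pt_sub, norm_smul, coe_nnnorm, Real.dist_eq, Real.norm_eq_abs, mul_comm]
  set D := fun s => c0 (Z T a₀ b s) * c1 (V T a₀ b c d s) - c1 (Z T a₀ b s) * c0 (V T a₀ b c d s)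
    with hD
  have hDsq : ∀ s ∈ Icc c d, Dsq β T a₀ b s = D s * D s := fun s hs => by
    simp only [Dsq, hD, V, h.cl_eq hs, Z, pdet, hc0, hc1, LinearMap.coe_toContinuousLinearMap', sq]
  have hac : ∀ p q, AbsolutelyContinuousOnInterval D p q := fun p q => by
    have acv : ∀ l : Y →L[ℝ] ℝ, AbsolutelyContinuousOnInterval (fun s => l (V T a₀ b c d s)) p q :=
      fun l => ((l.lipschitz.comp hV).lipschitzOnWith (s := uIcc p q)).absolutelyContinuousOnInterval
    have acz : ∀ l : Y →L[ℝ] ℝ, AbsolutelyContinuousOnInterval (fun s => l (Z T a₀ b s)) p q :=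
      fun l => ((l.lipschitz.comp hZ).lipschitzOnWith (s := uIcc p q)).absolutelyContinuousOnInterval
    exact ((acz c0).fun_mul (acv c1)).fun_sub ((acz c1).fun_mul (acv c0))
  have hd : ∀ᵐ s : ℝ, s ∈ Ioo c d → 0 ≤ deriv (u a₀ b c d) s ∧
      HasDerivAt (V T a₀ b c d) ((E₀ * deriv (u a₀ b c d) s) • et T a₀ b c d s) s ∧
      HasDerivAt (fun x => D x * D x)
        (E₀ * (2 * deriv (u a₀ b c d) s / ‖w a₀ b c d s‖ * (D s * D s))) s := by
    filter_upwards [h.deriv_V_ae, hE] with s hs hs' hm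
    obtain ⟨h0, -, d2⟩ := hs hm
    rw [hs' hm] at d2
    refine ⟨h0, d2, ?_⟩
    have dz := h.hasDerivAt_Z (Ioo_subset_Icc_self hm)
    have dD : HasDerivAt D (E₀ * deriv (u a₀ b c d) s / ‖w a₀ b c d s‖ * D s) s := by
      refine (((c0.hasFDerivAt.comp_hasDerivAt s dz).mul (c1.hasFDerivAt.comp_hasDerivAt s d2)).sub
        ((c1.hasFDerivAt.comp_hasDerivAt s dz).mul (c0.hasFDerivAt.comp_hasDerivAt s d2))).congr_deriv ?_
      simp only [hD, et, om, h.cl_eq (Ioo_subset_Icc_self hm), map_smul, map_sub, smul_eq_mul,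
        Function.comp_apply]
      ring
    refine (dD.mul dD).congr_deriv ?_
    ring
  have hnn : ∀ θ : ℝ, 0 ≤ θ * E₀ →
      MonotoneOn (fun s => θ * Dsq β T a₀ b s) (Icc c d) := by
    intro θ hθ p hp q hq hpq
    simp only [hDsq p hp, hDsq q hq]
    refine le_of_ac_deriv_nonneg (f := fun s => θ * (D s * D s))
      (((hac p q).fun_mul (hac p q)).const_mul θ) hpq ?_
    filter_upwards [hd] with s hs hm
    obtain ⟨h0, -, d3⟩ := hs ⟨hp.1.trans_lt hm.1, hm.2.trans_le hq.2⟩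
    refine ⟨_, ?_, d3.const_mul θ⟩
    rw [← mul_assoc]
    exact mul_nonneg hθ (mul_nonneg (by positivity) (mul_self_nonneg _))
  have hmono : MonotoneOn (Dsq β T a₀ b) (Icc c d) ∨ AntitoneOn (Dsq β T a₀ b) (Icc c d) := by
    rcases le_total 0 E₀ with h0 | h0
    · left
      intro p hp q hq hpq
      simpa using hnn 1 (by linarith) hp hq hpq
    · right
      intro p hp q hq hpq
      simpa using hnn (-1) (by linarith) hp hq hpq
  refine ⟨hmono, fun heq => ?_⟩
  have hconst : ∀ x ∈ Icc c d, Dsq β T a₀ b x = Dsq β T a₀ b c := fun x hx => by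
    rcases hmono with hm | hm
    · exact le_antisymm ((hm hx (right_mem_Icc.2 h.le) hx.2).trans heq.symm.le)
        (hm (left_mem_Icc.2 h.le) hx hx.1)
    · exact le_antisymm (hm (left_mem_Icc.2 h.le) hx hx.1)
        (heq.le.trans (hm hx (right_mem_Icc.2 h.le) hx.2))
  have hV0 : ∀ᵐ s : ℝ, s ∈ Ioo c d → HasDerivAt (V T a₀ b c d) 0 s := by
    filter_upwards [hd] with s hs hm
    obtain ⟨-, d2, d3⟩ := hs hm
    have e : (fun x => D x * D x) =ᶠ[𝓝 s] fun _ => Dsq β T a₀ b c := by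
      filter_upwards [Ioo_mem_nhds hm.1 hm.2] with x hx
      rw [← hDsq x (Ioo_subset_Icc_self hx), hconst x (Ioo_subset_Icc_self hx)]
    have h0 := d3.unique ((hasDerivAt_const s _).congr_of_eventuallyEq e)
    have hD0 : D s ≠ 0 := by
      have := h.pdet_ne β (Ioo_subset_Icc_self hm)
      simpa [hD, pdet, hc0, hc1] using this
    have hw : ‖w a₀ b c d s‖ ≠ 0 := norm_ne_zero_iff.2 (h.w_ne s)
    have : E₀ * deriv (u a₀ b c d) s = 0 := by
      field_simp at h0
      rw [mul_zero, mul_eq_zero] at h0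
      rcases h0 with h0 | h0
      · linarith
      · exact absurd (pow_eq_zero_iff two_ne_zero |>.1 h0) hD0
    rw [this, zero_smul] at d2
    exact d2
  intro s hs
  by_contra hne
  set η := nf (V T a₀ b c d s - V T a₀ b c d c)
  obtain ⟨L, hL⟩ := h.lip_apply η
  have key := le_of_ae_deriv_nonneg (f := fun x => (-1 : ℝ) • η (V T a₀ b c d x))
    ((lipschitzWith_smul (-1 : ℝ)).comp hL) hs.1 (by
      filter_upwards [hV0] with x hx hm
      refine ⟨_, le_rfl, ?_⟩
      have := ((η.hasFDerivAt.comp_hasDerivAt x (hx ⟨hm.1, hm.2.trans_le hs.2⟩)).const_smul (-1 : ℝ))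
      simpa [Function.comp_def, Pi.neg_def] using this)
  have h1 := nf_self (V T a₀ b c d s - V T a₀ b c d c)
  rw [map_sub] at h1
  simp only [smul_eq_mul] at key
  have := norm_pos_iff.2 (sub_ne_zero.2 hne)
  linarith

end Arc

end Vale.Agent.P084.Full
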