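import Vale.Agent.P084.Full.PlaneVar
import Mathlib.MeasureTheory.Integral.IntervalIntegral.LebesgueDifferentiationThm
import Mathlib.Analysis.Calculus.FDeriv.Measurable

/-! Estimates on chart intervals on which the slope varies little. -/

namespace Vale.Agent.P084.Full

open Inf Filter Topology Metric MeasureTheory Set
open scoped NNReal

set_option linter.unusedSectionVars false

/-- The primitive of a bounded measurable function. -/
lemma prim_props {g : ℝ → ℝ} {B : ℝ} (hg : Measurable g) (hB : ∀ x, |g x| ≤ B) (c d : ℝ) :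
    LipschitzWith B.toNNReal (fun s => ∫ x in c..Arc.cl c d s, g x) ∧
      ∀ᵐ s : ℝ, s ∈ Ioo c d → HasDerivAt (fun s => ∫ x in c..Arc.cl c d s, g x) (g s) s := by
  have hloc : LocallyIntegrable g volume := by
    rw [locallyIntegrable_iff]
    exact fun k hk => IntegrableOn.of_bound hk.measure_lt_top hg.aestronglyMeasurable B
      (Eventually.of_forall fun x => (Real.norm_eq_abs _).le.trans (hB x))
  have hint : ∀ p q, IntervalIntegrable g volume p q := fun p q =>
    intervalIntegrable_iff.2 ((hloc.integrableOn_isCompact isCompact_uIcc).mono_set uIoc_subset_uIcc)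
  refine ⟨LipschitzWith.of_dist_le_mul fun p q => ?_, ?_⟩
  · rw [Real.dist_eq, Real.dist_eq, intervalIntegral.integral_interval_sub_left (hint _ _) (hint _ _),
      Real.coe_toNNReal _ ((abs_nonneg _).trans (hB 0))]
    have h1 := intervalIntegral.norm_integral_le_of_norm_le_const (a := Arc.cl c d q)
      (b := Arc.cl c d p) (f := g) (C := B) fun x _ => (Real.norm_eq_abs _).le.trans (hB x)
    rw [Real.norm_eq_abs] at h1
    refine h1.trans (mul_le_mul_of_nonneg_left ?_ ((abs_nonneg _).trans (hB 0)))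
    simpa [Real.dist_eq] using (Arc.lip_cl (c := c) (d := d)).dist_le_mul p q
  · filter_upwards [LocallyIntegrable.ae_hasDerivAt_integral hloc] with s hs hm
    refine (hs c).congr_of_eventuallyEq ?_
    filter_upwards [Ioo_mem_nhds hm.1 hm.2] with t ht
    rw [Arc.cl, min_eq_right ht.2.le, max_eq_right ht.1.le]

variable {X Y : Type*} [NormedAddCommGroup X] [NormedSpace ℝ X] [CompleteSpace X]
  [NormedAddCommGroup Y] [NormedSpace ℝ Y] [CompleteSpace Y]
  {T : X → Y} {T' : Y → X} {a₀ b : X} {c d : ℝ}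

namespace Arc

variable (h : Arc T T' a₀ b c d)
include h

lemma abs_u_sub_le {a v ξ : ℝ} (hξ : ξ ∈ uIcc a v) :
    |u a₀ b c d ξ - u a₀ b c d a| ≤ |u a₀ b c d v - u a₀ b c d a| := by
  rcases le_total a v with hav | hav
  · rw [uIcc_of_le hav] at hξ
    have h1 := h.mono_u hξ.1
    have h2 := h.mono_u hξ.2
    rw [abs_of_nonneg (by linarith), abs_of_nonneg (by linarith)]
    linarith
  · rw [uIcc_of_ge hav] at hξ
    have h1 := h.mono_u hξ.1
    have h2 := h.mono_u hξ.2
    rw [abs_of_nonpos (by linarith), abs_of_nonpos (by linarith)]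
    linarith

/-- A functional which is small on the tangents is small on the turning of the velocity. -/
lemma apply_V_sub_le (η : Y →L[ℝ] ℝ) {p q k : ℝ} (hp : p ∈ Icc c d) (hq : q ∈ Icc c d)
    (hk : ∀ v ∈ uIcc p q, |η (et T a₀ b c d v)| ≤ k) :
    |η (V T a₀ b c d q - V T a₀ b c d p)| ≤ 2 * k * |u a₀ b c d q - u a₀ b c d p| := by
  wlog hpq : p ≤ q generalizing p q
  · have := this hq hp (by rwa [uIcc_comm]) (le_of_not_ge hpq)
    rw [map_sub] at this ⊢
    rw [abs_sub_comm, abs_sub_comm (u a₀ b c d q)]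
    exact this
  obtain ⟨K, hu, -, -⟩ := h.exists_lip
  obtain ⟨L, hL⟩ := h.lip_apply η
  rw [uIcc_of_le hpq] at hk
  have hk0 : 0 ≤ k := (abs_nonneg _).trans (hk p (left_mem_Icc.2 hpq))
  have key : ∀ θ : ℝ, |θ| ≤ 1 → (2 * k) • u a₀ b c d p + θ • η (V T a₀ b c d p)
      ≤ (2 * k) • u a₀ b c d q + θ • η (V T a₀ b c d q) := by
    intro θ hθ
    refine le_of_ae_deriv_nonneg (f := fun s => (2 * k) • u a₀ b c d s + θ • η (V T a₀ b c d s))
      (((lipschitzWith_smul (2 * k)).comp hu).add ((lipschitzWith_smul θ).comp hL)) hpq ?_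
    filter_upwards [h.deriv_V_ae] with s hs hm
    obtain ⟨h0, d1, d2⟩ := hs ⟨hp.1.trans_lt hm.1, hm.2.trans_le hq.2⟩
    refine ⟨_, ?_, (d1.const_smul (2 * k)).add
      ((η.hasFDerivAt.comp_hasDerivAt s d2).const_smul θ)⟩
    simp only [map_smul, smul_eq_mul]
    have h1 : |θ * (deriv (u a₀ b c d) s * E T a₀ b c d s * η (et T a₀ b c d s))|
        ≤ 1 * (deriv (u a₀ b c d) s * 2 * k) := by
      rw [abs_mul, abs_mul, abs_mul, abs_of_nonneg h0]
      exact mul_le_mul hθ (mul_le_mul (mul_le_mul_of_nonneg_left (h.abs_E_le s) h0)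
        (hk s (Ioo_subset_Icc_self hm)) (abs_nonneg _) (by positivity)) (by positivity) one_pos.le
    linarith [neg_abs_le (θ * (deriv (u a₀ b c d) s * E T a₀ b c d s * η (et T a₀ b c d s)))]
  have k1 := key 1 (by norm_num)
  have k2 := key (-1) (by norm_num)
  simp only [smul_eq_mul] at k1 k2
  rw [map_sub, abs_of_nonneg (sub_nonneg.2 (h.mono_u hpq)), abs_le]
  constructor <;> linarith

lemma norm_V_sub_le' {p q : ℝ} (hp : p ∈ Icc c d) (hq : q ∈ Icc c d) :
    ‖V T a₀ b c d q - V T a₀ b c d p‖ ≤ 2 * |u a₀ b c d q - u a₀ b c d p| := by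
  rw [← nf_self (V T a₀ b c d q - V T a₀ b c d p)]
  refine (le_abs_self _).trans ((h.apply_V_sub_le _ hp hq (k := 1) fun v hv => ?_).trans (by rw [mul_one]))
  refine (abs_nf_le _ _).trans (h.norm_et ?_).le
  exact (uIcc_subset_Icc hp hq) hv

/-- Where the slope varies little the tangents of the image are nearly normal. -/
lemma exists_near {M : ℝ → ℝ}
    (hMk : ∀ p q, p ≤ q → |kY T a₀ b c d q - kY T a₀ b c d p|
      + ‖gY T a₀ b c d q - gY T a₀ b c d p‖ ≤ M q - M p) :
    ∃ C δ₀ : ℝ, 0 < C ∧ 0 < δ₀ ∧ ∀ δ a v, a ∈ Icc c d → v ∈ Icc c d → δ ≤ δ₀ →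
      |u a₀ b c d v - u a₀ b c d a| ≤ δ →
      |Ps T a₀ b c d a (et T a₀ b c d v)| ≤ C * δ ∧
      |1 - nf (et T a₀ b c d a) (et T a₀ b c d v)| ≤ C * δ * |M v - M a| := by
  obtain ⟨m, hm, hb⟩ := h.exists_bounds
  set L := d - c with hL
  have hL0 : 0 ≤ L := sub_nonneg.2 h.le
  set C := (3 + ‖b‖ / m * (3 * L)) / m with hC
  have hC0 : 0 < C := by positivity
  have first : ∀ δ a v, a ∈ Icc c d → v ∈ Icc c d → |u a₀ b c d v - u a₀ b c d a| ≤ δ →
      |Ps T a₀ b c d a (et T a₀ b c d v)| ≤ C * δ := by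
    intro δ a v ha hv hd
    have hδ : 0 ≤ δ := (abs_nonneg _).trans hd
    have hsub := uIcc_subset_Icc ha hv
    have hN := h.N_pos v
    have hva : |v - a| ≤ L := by
      rw [abs_le]
      constructor <;> linarith [ha.1, ha.2, hv.1, hv.2]
    have r1 : |Ps T a₀ b c d a (V T a₀ b c d v) - u a₀ b c d a| ≤ 2 * δ := by
      rw [← h.Ps_V ha, ← map_sub]
      exact (h.Ps_le _ _).trans ((h.norm_V_sub_le' ha hv).trans (by linarith))
    have r2 : |Ps T a₀ b c d a (Z T a₀ b v) - (N a₀ b a + (v - a) * u a₀ b c d a)|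
        ≤ 2 * δ * L := by
      have h1 := Convex.norm_image_sub_le_of_norm_hasDerivWithin_le
        (f := fun t => Z T a₀ b t - t • V T a₀ b c d a)
        (f' := fun t => V T a₀ b c d t - V T a₀ b c d a) (s := uIcc a v) (C := 2 * δ)
        (fun t ht => (((h.hasDerivAt_Z (hsub ht)).sub
          ((hasDerivAt_id t).smul_const (V T a₀ b c d a))).congr_deriv
            (by rw [one_smul])).hasDerivWithinAt)
        (fun t ht => (h.norm_V_sub_le' ha (hsub ht)).trans (by linarith [h.abs_u_sub_le ht]))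
        (convex_uIcc a v) left_mem_uIcc right_mem_uIcc
      have h2 := (h.Ps_le a _).trans h1
      simp only [map_sub, map_smul, h.Ps_Z ha, h.Ps_V ha, smul_eq_mul] at h2
      refine le_trans (le_of_eq_of_le ?_ h2) (mul_le_mul_of_nonneg_left hva (by positivity))
      congr 1
      ring
    have r3 : |N a₀ b v - (N a₀ b a + (v - a) * u a₀ b c d a)| ≤ δ * L := by
      have h1 := Convex.norm_image_sub_le_of_norm_hasDerivWithin_le
        (f := fun t => N a₀ b t - t * u a₀ b c d a)
        (f' := fun t => u a₀ b c d t - u a₀ b c d a) (s := uIcc a v) (C := δ)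
        (fun t ht => (((h.hasDerivAt_N (hsub ht)).sub
          ((hasDerivAt_id t).mul_const (u a₀ b c d a))).congr_deriv
            (by rw [one_mul])).hasDerivWithinAt)
        (fun t ht => (Real.norm_eq_abs _).le.trans ((h.abs_u_sub_le ht).trans hd))
        (convex_uIcc a v) left_mem_uIcc right_mem_uIcc
      rw [Real.norm_eq_abs] at h1
      refine le_trans (le_of_eq_of_le ?_ h1) (mul_le_mul_of_nonneg_left hva hδ)
      congr 1
      ring
    have hw := norm_pos_iff.2 (h.w_ne v)
    have e1 : ‖w a₀ b c d v‖ * Ps T a₀ b c d a (et T a₀ b c d v)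
        = (u a₀ b c d a - u a₀ b c d v) + (Ps T a₀ b c d a (V T a₀ b c d v) - u a₀ b c d a)
          - u a₀ b c d v / N a₀ b v * ((Ps T a₀ b c d a (Z T a₀ b v)
              - (N a₀ b a + (v - a) * u a₀ b c d a))
            - (N a₀ b v - (N a₀ b a + (v - a) * u a₀ b c d a))) := by
      rw [et, map_smul, smul_eq_mul, ← mul_assoc, mul_inv_cancel₀ hw.ne', one_mul, om, h.cl_eq hv,
        map_sub, map_smul, smul_eq_mul]
      field_simp
      ring
    have e2 : |u a₀ b c d v / N a₀ b v| ≤ ‖b‖ / m := by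
      rw [abs_div, abs_of_pos hN]
      have := (hb v).1
      rw [h.cl_eq hv] at this
      exact div_le_div₀ (norm_nonneg b) (h.u_le v) hm this
    have e3 := abs_sub (Ps T a₀ b c d a (Z T a₀ b v) - (N a₀ b a + (v - a) * u a₀ b c d a))
      (N a₀ b v - (N a₀ b a + (v - a) * u a₀ b c d a))
    have e4 : |‖w a₀ b c d v‖ * Ps T a₀ b c d a (et T a₀ b c d v)|
        ≤ δ + 2 * δ + ‖b‖ / m * (3 * δ * L) := by
      rw [e1]
      refine (abs_sub _ _).trans (add_le_add ((abs_add_le _ _).trans (add_le_add ?_ r1)) ?_)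
      · rwa [abs_sub_comm]
      · rw [abs_mul]
        exact mul_le_mul e2 (e3.trans (by linarith)) (abs_nonneg _) (by positivity)
    rw [abs_mul, abs_norm] at e4
    rw [hC, div_mul_eq_mul_div, le_div_iff₀ hm]
    have e5 := mul_le_mul_of_nonneg_right (hb v).2.1
      (abs_nonneg (Ps T a₀ b c d a (et T a₀ b c d v)))
    linarith
  refine ⟨C, 1 / (2 * C), hC0, by positivity, fun δ a v ha hv hδ hd => ⟨first δ a v ha hv hd, ?_⟩⟩
  have hδ2 : C * δ ≤ 1 / 2 := by
    rw [le_div_iff₀ (by positivity)] at hδ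
    linarith
  have hg := h.Ps_gY ha
  set q := fun x => Ps T a₀ b c d a (et T a₀ b c d x) with hq
  set p := fun x => nf (et T a₀ b c d a) (et T a₀ b c d x - q x • gY T a₀ b c d a) with hp
  have hdec : ∀ x, et T a₀ b c d x = p x • et T a₀ b c d a + q x • gY T a₀ b c d a := fun x => by
    rw [add_comm]
    exact plane_decomp h.dimY hg (h.Ps_et ha) (h.norm_et ha) _
  have hp0 : ∀ x ∈ uIcc a v, p x ≠ 0 := fun x hx hx0 => by
    have h1 := congrArg norm (hdec x)
    rw [hx0, zero_smul, zero_add, h.norm_et (uIcc_subset_Icc ha hv hx), norm_smul, gY, h.norm_gY,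
      mul_one, Real.norm_eq_abs] at h1
    have h2 := first δ a x ha (uIcc_subset_Icc ha hv hx) ((h.abs_u_sub_le hx).trans hd)
    simp only [hq] at h1
    linarith
  have hpa : p a = 1 := by
    simp only [hp, hq, h.Ps_et ha, zero_smul, sub_zero, nf_self, h.norm_et ha]
  have hpc : Continuous p := by
    have hqc : Continuous q := (Ps T a₀ b c d a).continuous.comp h.continuous_et
    exact (nf (et T a₀ b c d a)).continuous.comp (h.continuous_et.sub (hqc.smul continuous_const))
  have hpv : 0 ≤ p v := by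
    by_contra hneg
    rw [not_le] at hneg
    obtain ⟨x, hx, hx0⟩ := intermediate_value_uIcc hpc.continuousOn
      (show (0 : ℝ) ∈ uIcc (p a) (p v) by
        rw [hpa, uIcc_of_ge (by linarith)]
        exact ⟨hneg.le, zero_le_one⟩)
    exact hp0 x hx hx0
  refine (one_sub_nf_le (h.norm_et ha) (h.norm_et hv) hpv (hdec v)).trans ?_
  refine mul_le_mul (first δ a v ha hv hd) ?_ (abs_nonneg _)
    (mul_nonneg hC0.le ((abs_nonneg _).trans hd))
  have key : |kY T a₀ b c d v - kY T a₀ b c d a| + ‖gY T a₀ b c d v - gY T a₀ b c d a‖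
      ≤ |M v - M a| := by
    rcases le_total a v with hav | hav
    · exact (hMk a v hav).trans (le_abs_self _)
    · have := (hMk v a hav).trans (le_abs_self _)
      rwa [abs_sub_comm (M a), abs_sub_comm (kY T a₀ b c d a), norm_sub_rev] at this
  refine le_trans ?_ key
  have e : nf (et T a₀ b c d v) (gY T a₀ b c d a) - nf (et T a₀ b c d a) (gY T a₀ b c d a)
      = (kY T a₀ b c d v - kY T a₀ b c d a)
        - nf (et T a₀ b c d v) (gY T a₀ b c d v - gY T a₀ b c d a) := by
    simp only [kY, gY, map_sub]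
    ring
  rw [e]
  exact (abs_sub _ _).trans (add_le_add le_rfl (abs_nf_le _ _))

end Arc

end Vale.Agent.P084.Full
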