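import Vale.Agent.P084.Full.Final
import Vale.Agent.P084.Full.Plane

/-!
Tingley's problem in every dimension: the planar case supplements the case of the other dimensions.
-/

namespace Vale.Agent.P084.Full

open Inf Filter Topology Metric

variable {X Y : Type*} [NormedAddCommGroup X] [NormedSpace ℝ X] [CompleteSpace X]
  [NormedAddCommGroup Y] [NormedSpace ℝ Y] [CompleteSpace Y]

/-- The Mazur-Ulam property of every real Banach space. -/
theorem mazurUlam_all (f : sphere (0 : X) 1 → sphere (0 : Y) 1) (hf : Isometry f)
    (hs : Function.Surjective f) :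
    ∃ U : X ≃ₗᵢ[ℝ] Y, ∀ x : sphere (0 : X) 1, U x = (f x : Y) := by
  by_cases h2 : Module.rank ℝ X = 2
  swap
  · exact mazurUlam h2 f hf hs
  obtain ⟨T, T', hT, hTf⟩ := exists_isTingley f hf hs
  obtain ⟨C, hC⟩ := exists_ctrl hT
  obtain ⟨C', hC'⟩ := exists_ctrl hT.symm
  have h1 := norm_sub_le_of_residual hT hC (A := fun _ => Set.univ) (fun _ => isOpen_univ)
    (fun _ => dense_univ) fun a ha _ v => (norm_dT_two hT h2 ha v).le
  have h1' := norm_sub_le_of_residual hT.symm hC' (A := fun _ => Set.univ) (fun _ => isOpen_univ)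
    (fun _ => dense_univ) fun b hb _ w => by
      have h := dT_left hT.symm hC' hb hC w
      have h' := norm_dT_two hT h2 (hT.symm.map_ne_zero hb) (dT T' b w)
      rw [h] at h'
      exact h'.ge
  let I : X ≃ᵢ Y :=
    { toFun := T, invFun := T', left_inv := hT.left, right_inv := hT.right,
      isometry_toFun := Isometry.of_dist_eq fun x y => by
        rw [dist_eq_norm, dist_eq_norm]
        refine le_antisymm (h1 x y) ?_
        have := h1' (T x) (T y)
        rwa [hT.left, hT.left] at this }
  refine ⟨I.toRealLinearIsometryEquivOfMapZero hT.map_zero, fun x => ?_⟩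
  rw [IsometryEquiv.coe_toRealLinearIsometryEquivOfMapZero]
  exact hTf x

end Vale.Agent.P084.Full
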