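import Vale.Agent.P084.Full.PlaneArc

/-! The velocity of the image of a chart turns tangentially. -/

namespace Vale.Agent.P084.Full

open Inf Filter Topology Metric MeasureTheory Set
open scoped NNReal

set_option linter.unusedSectionVars false

/-- The second order expansion at a point where the derivative is differentiable. -/
lemma taylor_two {E : Type*} [NormedAddCommGroup E] [NormedSpace ℝ E] {f f' : ℝ → E} {s : ℝ}
    {A : E} (hf : ∀ᶠ t in 𝓝 s, HasDerivAt f (f' t) t) (hA : HasDerivAt f' A s) {ε : ℝ}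
    (hε : 0 < ε) :
    ∀ᶠ τ in 𝓝 (0 : ℝ), ‖f (s + τ) - f s - τ • f' s - (τ ^ 2 / 2) • A‖ ≤ ε * τ ^ 2 := by
  have e1 := Asymptotics.isLittleO_iff.1 (hasDerivAt_iff_isLittleO_nhds_zero.1 hA) hε
  obtain ⟨δ, hδ, hd⟩ := Metric.eventually_nhds_iff.1
    (e1.and (((continuous_const_add s).tendsto' 0 s (add_zero s)).eventually hf))
  refine Metric.eventually_nhds_iff.2 ⟨δ, hδ, fun τ hτ => ?_⟩
  have hder : ∀ σ ∈ uIcc 0 τ, HasDerivWithinAt
      (fun σ => f (s + σ) - f s - σ • f' s - (σ ^ 2 / 2) • A)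
      (f' (s + σ) - f' s - σ • A) (uIcc 0 τ) σ := by
    intro σ hσ
    have hσ' : |σ| ≤ |τ| := by simpa using abs_sub_left_of_mem_uIcc hσ
    obtain ⟨-, hmem⟩ := hd (show dist σ 0 < δ by
      rw [Real.dist_0_eq_abs] at hτ ⊢; linarith)
    have d1 := hmem.comp_const_add s σ
    have d2 := (hasDerivAt_id σ).smul_const (f' s)
    have d3 := ((hasDerivAt_pow 2 σ).div_const 2).smul_const A
    have d4 := ((d1.sub_const (f s)).sub d2).sub d3
    refine (d4.congr_deriv ?_).hasDerivWithinAt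
    rw [one_smul]
    norm_num
  have hb : ∀ σ ∈ uIcc 0 τ, ‖f' (s + σ) - f' s - σ • A‖ ≤ ε * |τ| := by
    intro σ hσ
    have hσ' : |σ| ≤ |τ| := by simpa using abs_sub_left_of_mem_uIcc hσ
    obtain ⟨h1, -⟩ := hd (show dist σ 0 < δ by
      rw [Real.dist_0_eq_abs] at hτ ⊢; linarith)
    exact h1.trans (mul_le_mul_of_nonneg_left hσ' hε.le)
  have := Convex.norm_image_sub_le_of_norm_hasDerivWithin_le hder hb (convex_uIcc 0 τ)
    left_mem_uIcc right_mem_uIcc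
  simp only [add_zero, zero_smul, sub_self, ne_eq, OfNat.ofNat_ne_zero, not_false_eq_true,
    zero_pow, zero_div, sub_zero, Real.norm_eq_abs] at this
  refine this.trans (le_of_eq ?_)
  rw [mul_assoc, abs_mul_abs_self, sq]

/-- A convex combination of two small vectors is small. -/
lemma norm_comb_le {E : Type*} [NormedAddCommGroup E] [NormedSpace ℝ E] {v w : E} {p q r : ℝ}
    (hp : 0 ≤ p) (hq : 0 ≤ q) (hpq : p + q = 1) (hv : ‖v‖ ≤ r) (hw : ‖w‖ ≤ r) :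
    ‖p • v + q • w‖ ≤ r := by
  refine (norm_add_le _ _).trans ?_
  rw [norm_smul, norm_smul, Real.norm_of_nonneg hp, Real.norm_of_nonneg hq]
  have g1 := mul_le_mul_of_nonneg_left hv hp
  have g2 := mul_le_mul_of_nonneg_left hw hq
  calc p * ‖v‖ + q * ‖w‖ ≤ p * r + q * r := add_le_add g1 g2
    _ = r := by rw [← add_mul, hpq, one_mul]

/-- The numerical core of the antipodal comparison. -/
lemma turn_num {θ τ u P Q gX gY vX vY K K' B ε : ℝ} (hK : 0 ≤ K) (hK' : 0 ≤ K') (hB : 0 ≤ B)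
    (hε : 0 ≤ ε) (hτ : 0 < τ) (hτ1 : τ ≤ 1) (hθ1 : |θ| ≤ 1)
    (hθ : |θ| * B ^ 2 * (K + K') ≤ ε) (hτK : τ * (4 * B ^ 2 * K') ≤ ε)
    (hvX : vX ≤ |θ| * τ * B) (hvX0 : 0 ≤ vX) (hvY : vY ≤ |θ| * τ * B + 2 * τ ^ 2 * B)
    (hvY0 : 0 ≤ vY) (hX0 : 0 ≤ gX) (hX1 : gX ≤ K * vX ^ 2) (hY0 : 0 ≤ gY) (hY1 : gY ≤ K' * vY ^ 2)
    (hQ : |Q| ≤ ε * τ ^ 2) (heq : gY + (θ * τ * u + τ ^ 2 / 2 * P + Q) = gX + θ * τ * u) :
    |P| ≤ 10 * ε := by
  have hθ0 : 0 ≤ |θ| := abs_nonneg θ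
  have e1 : gX ≤ ε * τ ^ 2 := by
    refine hX1.trans ((mul_le_mul_of_nonneg_left (pow_le_pow_left₀ hvX0 hvX 2) hK).trans ?_)
    rw [show K * (|θ| * τ * B) ^ 2 = (|θ| * B ^ 2 * K) * |θ| * τ ^ 2 by ring]
    refine mul_le_mul_of_nonneg_right ?_ (sq_nonneg τ)
    have h1 : |θ| * B ^ 2 * K ≤ ε :=
      le_trans (mul_le_mul_of_nonneg_left (by linarith) (by positivity)) hθ
    exact (mul_le_mul h1 hθ1 hθ0 hε).trans (by rw [mul_one])
  have e2 : gY ≤ 3 * ε * τ ^ 2 := by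
    refine hY1.trans ((mul_le_mul_of_nonneg_left (pow_le_pow_left₀ hvY0 hvY 2) hK').trans ?_)
    rw [show K' * (|θ| * τ * B + 2 * τ ^ 2 * B) ^ 2 = τ ^ 2 * ((|θ| * B ^ 2 * K') * |θ|
      + (τ * (4 * B ^ 2 * K')) * |θ| + (τ * (4 * B ^ 2 * K')) * τ) by ring, mul_comm (3 * ε)]
    refine mul_le_mul_of_nonneg_left ?_ (sq_nonneg τ)
    have g1 : |θ| * B ^ 2 * K' ≤ ε :=
      le_trans (mul_le_mul_of_nonneg_left (by linarith) (by positivity)) hθ
    have g3 := mul_le_mul g1 hθ1 hθ0 hε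
    have g4 := mul_le_mul hτK hθ1 hθ0 hε
    have g5 := mul_le_mul hτK hτ1 hτ.le hε
    linarith
  obtain ⟨r1, r2⟩ := abs_le.1 hQ
  have h3 : |τ ^ 2 / 2 * P| ≤ τ ^ 2 / 2 * (10 * ε) := by
    rw [abs_le]
    constructor <;> linarith
  rw [abs_mul, abs_of_pos (by positivity)] at h3
  exact le_of_mul_le_mul_left h3 (by positivity)

variable {X Y : Type*} [NormedAddCommGroup X] [NormedSpace ℝ X] [CompleteSpace X]
  [NormedAddCommGroup Y] [NormedSpace ℝ Y] [CompleteSpace Y]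
  {T : X → Y} {T' : Y → X} {a₀ b : X} {c d : ℝ}

namespace Arc

variable (h : Arc T T' a₀ b c d)
include h

/-- The two gaps at a parameter. -/
lemma gaps {s : ℝ} (hs : s ∈ Icc c d) : ∃ ρ K : ℝ, 0 < ρ ∧ 0 ≤ K ∧
    (∀ v : X, ‖v‖ < ρ → 0 ≤ ‖pt a₀ b s + v‖ - N a₀ b s - phi (pt a₀ b s) v ∧
      ‖pt a₀ b s + v‖ - N a₀ b s - phi (pt a₀ b s) v ≤ K * ‖v‖ ^ 2) ∧
    (∀ v : Y, ‖v‖ < ρ → 0 ≤ ‖Z T a₀ b s + v‖ - N a₀ b s - Ps T a₀ b c d s v ∧
      ‖Z T a₀ b s + v‖ - N a₀ b s - Ps T a₀ b c d s v ≤ K * ‖v‖ ^ 2) := by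
  obtain ⟨C, hC⟩ := h.ctrl
  obtain ⟨C', hC'⟩ := h.ctrl'
  obtain ⟨ρ, K, hR⟩ := exists_reg h.isT hC (h.pt_ne s) (h.c11 s hs)
  obtain ⟨ρ', K', hR'⟩ := exists_reg h.isT.symm hC' (h.isT.map_ne_zero (h.pt_ne s))
    (C11At.map h.isT hC (h.pt_ne s) (h.c11 s hs))
  refine ⟨min ρ ρ', K + K', lt_min hR.pos hR'.pos, add_nonneg hR.nonneg hR'.nonneg,
    fun v hv => ?_, fun v hv => ?_⟩
  · have h1 := hR.gap_le _ (mem_ball_self hR.pos) v (hv.trans_le (min_le_left _ _))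
    have h2 := gap_nonneg (pt a₀ b s) v
    simp only [gap] at h1 h2
    rw [phi_apply (h.smoothX hs)]
    exact ⟨h2, h1.trans (mul_le_mul_of_nonneg_right (by linarith [hR'.nonneg]) (sq_nonneg _))⟩
  · have h1 := hR'.gap_le _ (mem_ball_self hR'.pos) v (hv.trans_le (min_le_right _ _))
    have h2 := gap_nonneg (T (pt a₀ b s)) v
    simp only [gap, h.isT.norm_map] at h1 h2
    have hsm : Smooth (T (pt a₀ b s)) := h.smoothY hs
    rw [Ps, h.cl_eq hs, Z, phi_apply hsm]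
    exact ⟨h2, h1.trans (mul_le_mul_of_nonneg_right (by linarith [hR.nonneg]) (sq_nonneg _))⟩

/-- Antipodal sums along the chart, written at a centre. -/
lemma norm_balanced (s τ : ℝ) {θ : ℝ}
    (hθ : θ = (N a₀ b (s - τ) - N a₀ b (s + τ)) / (N a₀ b (s - τ) + N a₀ b (s + τ))) (A : Y) :
    ‖pt a₀ b s + (θ * τ) • b‖ = ‖Z T a₀ b s + ((θ * τ) • V T a₀ b c d s + (τ ^ 2 / 2) • A
      + ((N a₀ b (s - τ) / (N a₀ b (s - τ) + N a₀ b (s + τ))) •
          (Z T a₀ b (s + τ) - Z T a₀ b s - τ • V T a₀ b c d s - (τ ^ 2 / 2) • A)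
        + (N a₀ b (s + τ) / (N a₀ b (s - τ) + N a₀ b (s + τ))) •
          (Z T a₀ b (s - τ) - Z T a₀ b s - (-τ) • V T a₀ b c d s - (τ ^ 2 / 2) • A)))‖ := by
  have hm := h.N_pos (s - τ)
  have hp := h.N_pos (s + τ)
  set Nm := N a₀ b (s - τ) with hNm
  set Np := N a₀ b (s + τ) with hNp
  have hne : Nm + Np ≠ 0 := (add_pos hm hp).ne'
  have key : ‖Nm • Z T a₀ b (s + τ) + Np • Z T a₀ b (s - τ)‖
      = ‖Nm • pt a₀ b (s + τ) + Np • pt a₀ b (s - τ)‖ := by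
    rw [← h.norm_map_add (p := Nm • pt a₀ b (s + τ)) (q := Np • pt a₀ b (s - τ)) (by
      rw [norm_smul, norm_smul, Real.norm_of_nonneg hm.le, Real.norm_of_nonneg hp.le]
      show Nm * Np = Np * Nm
      ring), h.isT.homog _ _ hm, h.isT.homog _ _ hp]
    rfl
  have eX : Nm • pt a₀ b (s + τ) + Np • pt a₀ b (s - τ)
      = (Nm + Np) • (pt a₀ b s + (θ * τ) • b) := by
    simp only [pt, hθ]
    match_scalars <;> field_simp <;> ring
  rw [eX, norm_smul] at key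
  refine (mul_left_cancel₀ (norm_ne_zero_iff.2 hne) ?_).symm
  rw [← norm_smul, ← key]
  congr 1
  rw [hθ]
  match_scalars <;> field_simp <;> ring

/-- The velocity turns tangentially. -/
lemma Ps_deriv_V {s : ℝ} (hs : s ∈ Ioo c d) {A : Y}
    (hA : HasDerivAt (V T a₀ b c d) A s) : Ps T a₀ b c d s A = 0 := by
  have hsI := Ioo_subset_Icc_self hs
  obtain ⟨ρ, K, hρ, hK, hgX, hgY⟩ := h.gaps hsI
  have hf : ∀ᶠ t in 𝓝 s, HasDerivAt (Z T a₀ b) (V T a₀ b c d t) t := by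
    filter_upwards [Ioo_mem_nhds hs.1 hs.2] with t ht using h.hasDerivAt_Z (Ioo_subset_Icc_self ht)
  refine abs_nonpos_iff.1 (le_of_forall_pos_le_add fun ε₀ hε₀ => ?_)
  rw [zero_add]
  set ε := ε₀ / 10 with hεdef
  have hε : 0 < ε := by positivity
  set B := ‖b‖ + ‖V T a₀ b c d s‖ + ‖A‖ + 1 with hB
  have hB0 : 0 < B := by positivity
  have htay := taylor_two hf hA (lt_min hε one_pos)
  have htn := (continuous_neg.tendsto' (0 : ℝ) 0 neg_zero).eventually htay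
  have hNc : Continuous (N a₀ b) := continuous_N
  have hlim : Tendsto (fun τ : ℝ => |(N a₀ b (s - τ) - N a₀ b (s + τ)) /
      (N a₀ b (s - τ) + N a₀ b (s + τ))| * B ^ 2 * (K + K)) (𝓝 0) (𝓝 0) := by
    have hc : Continuous fun τ : ℝ => |(N a₀ b (s - τ) - N a₀ b (s + τ)) /
        (N a₀ b (s - τ) + N a₀ b (s + τ))| * B ^ 2 * (K + K) :=
      ((((hNc.comp (by fun_prop)).sub (hNc.comp (by fun_prop))).div
        ((hNc.comp (by fun_prop)).add (hNc.comp (by fun_prop)))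
        fun τ => (add_pos (h.N_pos _) (h.N_pos _)).ne').abs.mul continuous_const).mul continuous_const
    exact hc.tendsto' 0 0 (by simp)
  have hlim2 : Tendsto (fun τ : ℝ => |τ| * (3 * B)) (𝓝 0) (𝓝 0) :=
    (by fun_prop : Continuous fun τ : ℝ => |τ| * (3 * B)).tendsto' 0 0 (by simp)
  have hlim3 : Tendsto (fun τ : ℝ => |τ| * (4 * B ^ 2 * K)) (𝓝 0) (𝓝 0) :=
    (by fun_prop : Continuous fun τ : ℝ => |τ| * (4 * B ^ 2 * K)).tendsto' 0 0 (by simp)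
  have hev := ((htay.and htn).and ((hlim.eventually (eventually_le_nhds hε)).and
    ((hlim2.eventually (eventually_lt_nhds hρ)).and ((hlim3.eventually (eventually_le_nhds hε)).and
      ((continuous_abs.tendsto' (0 : ℝ) 0 abs_zero).eventually
        (eventually_le_nhds one_pos)))))).filter_mono (nhdsWithin_le_nhds (s := Ioi 0))
  obtain ⟨τ, ⟨⟨hp, hn⟩, hth, hτρ, hτK, hτ1⟩, (hτ : 0 < τ)⟩ :=
    (hev.and self_mem_nhdsWithin).exists
  rw [abs_of_pos hτ] at hτρ hτK hτ1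
  rw [← sub_eq_add_neg, neg_sq] at hn
  have hm' := h.N_pos (s - τ)
  have hp' := h.N_pos (s + τ)
  set θ := (N a₀ b (s - τ) - N a₀ b (s + τ)) / (N a₀ b (s - τ) + N a₀ b (s + τ)) with hθdef
  have hθ1 : |θ| ≤ 1 := by
    rw [abs_le, hθdef, le_div_iff₀ (by linarith), div_le_iff₀ (by linarith)]
    constructor <;> linarith
  set R := (N a₀ b (s - τ) / (N a₀ b (s - τ) + N a₀ b (s + τ))) •
          (Z T a₀ b (s + τ) - Z T a₀ b s - τ • V T a₀ b c d s - (τ ^ 2 / 2) • A)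
        + (N a₀ b (s + τ) / (N a₀ b (s - τ) + N a₀ b (s + τ))) •
          (Z T a₀ b (s - τ) - Z T a₀ b s - (-τ) • V T a₀ b c d s - (τ ^ 2 / 2) • A) with hR
  have hRn : ‖R‖ ≤ min ε 1 * τ ^ 2 := norm_comb_le (div_nonneg hm'.le (by linarith))
    (div_nonneg hp'.le (by linarith)) (by rw [← add_div, div_self (by linarith)]) hp hn
  have key := h.norm_balanced s τ hθdef A
  rw [← hR] at key
  set vY := (θ * τ) • V T a₀ b c d s + (τ ^ 2 / 2) • A + R with hvY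
  have hτ2 : 0 ≤ τ ^ 2 := sq_nonneg τ
  have hθτ : 0 ≤ |θ| * τ := by positivity
  have hvXn : ‖(θ * τ) • b‖ ≤ |θ| * τ * B := by
    rw [norm_smul, Real.norm_eq_abs, abs_mul, abs_of_pos hτ]
    exact mul_le_mul_of_nonneg_left (by linarith [norm_nonneg (V T a₀ b c d s), norm_nonneg A]) hθτ
  have hvYn : ‖vY‖ ≤ |θ| * τ * B + 2 * τ ^ 2 * B := by
    have n1 : ‖vY‖ ≤ |θ| * τ * ‖V T a₀ b c d s‖ + τ ^ 2 / 2 * ‖A‖ + ‖R‖ := by
      refine norm_add₃_le.trans (le_of_eq ?_)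
      rw [norm_smul, norm_smul, Real.norm_eq_abs, abs_mul, abs_of_pos hτ,
        Real.norm_of_nonneg (by positivity)]
    have n2 := mul_le_mul_of_nonneg_left (show ‖V T a₀ b c d s‖ ≤ B by
      linarith [norm_nonneg b, norm_nonneg A]) hθτ
    have n3 := mul_le_mul_of_nonneg_left (show ‖A‖ ≤ B by
      linarith [norm_nonneg b, norm_nonneg (V T a₀ b c d s)]) hτ2
    have n4 : min ε 1 * τ ^ 2 ≤ B * τ ^ 2 := mul_le_mul_of_nonneg_right (by
      linarith [min_le_right ε 1, norm_nonneg b, norm_nonneg A, norm_nonneg (V T a₀ b c d s)]) hτ2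
    have n5 : 0 ≤ τ ^ 2 * ‖A‖ := by positivity
    linarith
  have hτB : |θ| * τ * B + 2 * τ ^ 2 * B ≤ τ * (3 * B) := by
    have n6 := mul_le_mul_of_nonneg_right hθ1 (show 0 ≤ τ * B by positivity)
    have n7 := mul_le_mul_of_nonneg_right hτ1 (show 0 ≤ τ * B by positivity)
    linarith
  obtain ⟨fX0, fX1⟩ := hgX ((θ * τ) • b) ((hvXn.trans
    ((le_add_of_nonneg_right (by positivity)).trans hτB)).trans_lt hτρ)
  obtain ⟨fY0, fY1⟩ := hgY vY ((hvYn.trans hτB).trans_lt hτρ)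
  have epX : phi (pt a₀ b s) ((θ * τ) • b) = θ * τ * u a₀ b c d s := by
    rw [map_smul, smul_eq_mul, u, h.cl_eq hsI]
  have epY : Ps T a₀ b c d s vY = θ * τ * u a₀ b c d s + τ ^ 2 / 2 * Ps T a₀ b c d s A
      + Ps T a₀ b c d s R := by
    simp only [hvY, map_add, map_smul, smul_eq_mul, h.Ps_V hsI]
  have hQ : |Ps T a₀ b c d s R| ≤ ε * τ ^ 2 :=
    (h.Ps_le _ _).trans (hRn.trans (mul_le_mul_of_nonneg_right (min_le_left _ _) hτ2))
  have := turn_num hK hK hB0.le hε.le hτ hτ1 hθ1 hth hτK hvXn (norm_nonneg _) hvYn (norm_nonneg _)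
    fX0 fX1 fY0 fY1 (P := Ps T a₀ b c d s A) (Q := Ps T a₀ b c d s R) (u := u a₀ b c d s) hQ (by
      rw [← epY, ← epX, key]; ring)
  rw [hεdef] at this
  linarith

end Arc

end Vale.Agent.P084.Full
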