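import Vale.Agent.P084.Full.PlaneVel

/-! Bounded variation of the defect along a chart. -/

namespace Vale.Agent.P084.Full

open Inf Filter Topology Metric MeasureTheory Set
open scoped NNReal

set_option linter.unusedSectionVars false

/-- A function increasing along short steps increases. -/
lemma monotoneOn_of_small_steps {f : ℝ → ℝ} {c d ρ : ℝ} (hρ : 0 < ρ)
    (h : ∀ p q, c ≤ p → p < q → q ≤ d → q - p < ρ → f p ≤ f q) : MonotoneOn f (Icc c d) := by
  intro p hp q hq hpq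
  obtain ⟨n, hn⟩ := exists_nat_gt ((q - p) / ρ)
  rw [div_lt_iff₀ hρ] at hn
  rcases hpq.eq_or_lt with rfl | hlt
  · rfl
  have hn0 : 0 < (n : ℝ) := by
    by_contra h0
    rw [not_lt] at h0
    nlinarith
  set t := (q - p) / n with ht
  have ht0 : 0 < t := div_pos (by linarith) hn0
  have htρ : t < ρ := by rw [ht, div_lt_iff₀ hn0]; linarith
  have htn : (n : ℝ) * t = q - p := by rw [ht, mul_div_cancel₀ _ hn0.ne']
  have key : ∀ k : ℕ, k ≤ n → f p ≤ f (p + k * t) := by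
    intro k
    induction k with
    | zero => intro _; simp
    | succ j ih =>
      intro hj
      refine (ih (by omega)).trans ?_
      have h1 : ((j + 1 : ℕ) : ℝ) * t ≤ n * t :=
        mul_le_mul_of_nonneg_right (by exact_mod_cast hj) ht0.le
      have h2 : 0 ≤ (j : ℝ) * t := by positivity
      push_cast at h1 ⊢
      rw [add_one_mul] at h1 ⊢
      exact h _ _ (by linarith [hp.1]) (by linarith) (by linarith [hq.2]) (by linarith)
  have := key n le_rfl
  rwa [htn, add_sub_cancel] at this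

/-- The step inequality in coordinates. -/
lemma nf_step_near {E : Type*} [NormedAddCommGroup E] [NormedSpace ℝ E]
    (hE : Module.finrank ℝ E = 2) {γ₁ γ₂ e₁ e₂ R : E} {φ₁ φ₂ : E →L[ℝ] ℝ}
    (he₁ : ‖e₁‖ = 1) (he₂ : ‖e₂‖ = 1) (hγ₁ : ‖γ₁‖ = 1) (hγ₂ : ‖γ₂‖ = 1)
    (hb₁ : ∀ z, |φ₁ z| ≤ ‖z‖) (hb₂ : ∀ z, |φ₂ z| ≤ ‖z‖)
    (h11 : φ₁ γ₁ = 1) (h1e : φ₁ e₁ = 0) (h22 : φ₂ γ₂ = 1) (h2e : φ₂ e₂ = 0)
    (hce : ‖e₂ - e₁‖ < 1 / 4) (hcγ : ‖γ₂ - γ₁‖ < 1 / 4) {α β : ℝ}
    (hrep : γ₂ = α • γ₁ + β • e₁ + R) (hR : 2 * ‖R‖ < β) :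
    nf e₂ γ₂ - nf e₁ γ₁ ≤ ‖γ₂ - γ₁‖ := by
  have h12 : φ₁ γ₂ ≤ 1 := ((le_abs_self _).trans (hb₁ _)).trans hγ₂.le
  have h21 : φ₂ γ₁ ≤ 1 := ((le_abs_self _).trans (hb₂ _)).trans hγ₁.le
  have h21' : 0 < φ₂ γ₁ := by
    have h3 := (le_abs_self _).trans (hb₂ (γ₂ - γ₁))
    rw [map_sub, h22] at h3
    linarith
  have hq : |φ₁ e₂| < 1 / 4 := by
    have h3 := hb₁ (e₂ - e₁)
    rw [map_sub, h1e, sub_zero] at h3
    linarith
  have hp : 0 < nf e₁ (e₂ - φ₁ e₂ • γ₁) := by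
    have h4 := (le_abs_self _).trans (abs_nf_le e₁ (e₁ - e₂))
    have h5 := abs_nf_le e₁ (φ₁ e₂ • γ₁)
    rw [norm_smul, hγ₁, mul_one, Real.norm_eq_abs] at h5
    have h6 := (le_abs_self _).trans h5
    rw [map_sub, nf_self, he₁, norm_sub_rev] at h4
    rw [map_sub]
    linarith
  have hβ : 0 < nf e₁ (γ₂ - φ₁ γ₂ • γ₁) := by
    have h7 : γ₂ - φ₁ γ₂ • γ₁ = β • e₁ + (R - φ₁ R • γ₁) := by
      rw [hrep]
      simp only [map_add, map_smul, h11, h1e, smul_eq_mul]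
      module
    rw [h7, map_add, map_smul, nf_self, he₁, smul_eq_mul, mul_one]
    have h8 := abs_nf_le e₁ (R - φ₁ R • γ₁)
    have h9 : ‖R - φ₁ R • γ₁‖ ≤ 2 * ‖R‖ := by
      refine (norm_sub_le _ _).trans ?_
      rw [norm_smul, hγ₁, mul_one, Real.norm_eq_abs]
      linarith [hb₁ R]
    linarith [neg_abs_le (nf e₁ (R - φ₁ R • γ₁))]
  refine nf_step he₁ he₂ h11 h1e h22 h2e h12 h21 h21' hp (q := φ₁ e₂) ?_ hβ (α := φ₁ γ₂)
    (plane_decomp hE h11 h1e he₁ γ₂)
  rw [add_comm]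
  exact plane_decomp hE h11 h1e he₁ e₂

variable {X Y : Type*} [NormedAddCommGroup X] [NormedSpace ℝ X] [CompleteSpace X]
  [NormedAddCommGroup Y] [NormedSpace ℝ Y] [CompleteSpace Y]
  {T : X → Y} {T' : Y → X} {a₀ b : X} {c d : ℝ}

namespace Arc

/-- The unit point of the chart. -/
noncomputable def gX (a₀ b : X) (c d s : ℝ) : X :=
  (N a₀ b (cl c d s))⁻¹ • pt a₀ b (cl c d s)

/-- The unit point of the image. -/
noncomputable def gY (T : X → Y) (a₀ b : X) (c d s : ℝ) : Y :=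
  (N a₀ b (cl c d s))⁻¹ • Z T a₀ b (cl c d s)

variable (h : Arc T T' a₀ b c d)
include h

lemma T_gX (s : ℝ) : T (gX a₀ b c d s) = gY T a₀ b c d s :=
  h.isT.homog _ _ (inv_pos.2 (h.N_pos _))

lemma norm_gY_sub (s t : ℝ) :
    ‖gY T a₀ b c d s - gY T a₀ b c d t‖ = ‖gX a₀ b c d s - gX a₀ b c d t‖ := by
  rw [← h.T_gX, ← h.T_gX]
  exact h.isT.dist_map _ _ ((h.norm_gX s).trans (h.norm_gX t).symm)

lemma norm_gX_sub {m : ℝ} (hm : 0 < m) (hmN : ∀ s, m ≤ N a₀ b (cl c d s)) (s t : ℝ) :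
    ‖gX a₀ b c d s - gX a₀ b c d t‖ ≤ 2 * ‖b‖ / m * |cl c d s - cl c d t| := by
  set p := cl c d s
  set q := cl c d t
  have hp := h.N_pos p
  have e1 : gX a₀ b c d s - gX a₀ b c d t = (N a₀ b p)⁻¹ • (pt a₀ b p - pt a₀ b q)
      + ((N a₀ b q - N a₀ b p) / N a₀ b p) • gX a₀ b c d t := by
    have hq := h.N_pos q
    simp only [gX, p, q] at hp hq ⊢
    match_scalars <;> field_simp <;> ring
  have h1 : ‖(N a₀ b p)⁻¹ • (pt a₀ b p - pt a₀ b q)‖ ≤ |p - q| * ‖b‖ / m := by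
    rw [norm_smul, pt_sub, norm_smul, norm_inv, Real.norm_of_nonneg hp.le, Real.norm_eq_abs,
      inv_mul_eq_div]
    exact div_le_div_of_nonneg_left (by positivity) hm (hmN s)
  have h2 : ‖((N a₀ b q - N a₀ b p) / N a₀ b p) • gX a₀ b c d t‖ ≤ |p - q| * ‖b‖ / m := by
    rw [norm_smul, gX, h.norm_gX, mul_one, Real.norm_eq_abs, abs_div, abs_of_pos hp, abs_sub_comm]
    exact div_le_div₀ (by positivity) (abs_N_sub_le _ _) hm (hmN s)
  rw [e1]
  refine (norm_add_le _ _).trans ((add_le_add h1 h2).trans (le_of_eq ?_))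
  ring

lemma continuous_gX : Continuous (gX a₀ b c d) := by
  refine (((continuous_N (a₀ := a₀) (b := b)).comp lip_cl.continuous).inv₀
    fun s => (h.N_pos _).ne').smul ?_
  have : Continuous fun t => pt a₀ b t := by
    unfold pt
    fun_prop
  exact this.comp lip_cl.continuous

lemma continuous_gY : Continuous (gY T a₀ b c d) :=
  (((continuous_N (a₀ := a₀) (b := b)).comp lip_cl.continuous).inv₀
    fun s => (h.N_pos _).ne').smul (h.continuous_Z.comp lip_cl.continuous)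

lemma phi_gX {s : ℝ} (hs : s ∈ Icc c d) : phi (pt a₀ b s) (gX a₀ b c d s) = 1 := by
  rw [gX, h.cl_eq hs, map_smul, h.phi_pt hs, smul_eq_mul, inv_mul_cancel₀ (h.N_pos s).ne']

lemma Ps_gY {s : ℝ} (hs : s ∈ Icc c d) : Ps T a₀ b c d s (gY T a₀ b c d s) = 1 := by
  rw [gY, h.cl_eq hs, map_smul, h.Ps_Z hs, smul_eq_mul, inv_mul_cancel₀ (h.N_pos s).ne']

/-- The step inequalities. -/
lemma exists_step : ∃ ρ, 0 < ρ ∧ ∀ p q, c ≤ p → p < q → q ≤ d → q - p < ρ →
    kX a₀ b c d q - kX a₀ b c d p ≤ ‖gX a₀ b c d q - gX a₀ b c d p‖ ∧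
    kY T a₀ b c d q - kY T a₀ b c d p ≤ ‖gX a₀ b c d q - gX a₀ b c d p‖ := by
  obtain ⟨K, -, hV, -⟩ := h.exists_lip
  obtain ⟨m, hm, hb⟩ := h.exists_bounds
  obtain ⟨ρ₀, hρ₀, hu⟩ := Metric.uniformContinuousOn_iff.1
    (isCompact_Icc.uniformContinuousOn_of_continuous
      (((h.continuous_e.prodMk h.continuous_et).prodMk
        (h.continuous_gX.prodMk h.continuous_gY)).continuousOn (s := Icc c d))) (1 / 4) (by norm_num)
  refine ⟨min ρ₀ (m / (2 * ((K : ℝ) + 1))), lt_min hρ₀ (by positivity),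
    fun p q hcp hpq hqd hd => ?_⟩
  have hp : p ∈ Icc c d := ⟨hcp, hpq.le.trans hqd⟩
  have hq : q ∈ Icc c d := ⟨hcp.trans hpq.le, hqd⟩
  have hclose := hu q hq p hp (by
    rw [Real.dist_eq, abs_of_pos (by linarith)]
    exact hd.trans_le (min_le_left _ _))
  rw [Prod.dist_eq, Prod.dist_eq, Prod.dist_eq, max_lt_iff, max_lt_iff, max_lt_iff, dist_eq_norm,
    dist_eq_norm, dist_eq_norm, dist_eq_norm] at hclose
  obtain ⟨⟨c1, c2⟩, c3, c4⟩ := hclose
  set τ := q - p with hτ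
  have hτ0 : 0 < τ := sub_pos.2 hpq
  have hn := h.N_pos p
  have hn' := h.N_pos q
  have hσ : ‖w a₀ b c d p‖ ≠ 0 := norm_ne_zero_iff.2 (h.w_ne p)
  have hσpos : 0 < ‖w a₀ b c d p‖ := norm_pos_iff.2 (h.w_ne p)
  constructor
  · refine nf_step_near h.dimX (h.norm_e p) (h.norm_e q) (h.norm_gX p) (h.norm_gX q)
      (φ₁ := phi (pt a₀ b p)) (φ₂ := phi (pt a₀ b q)) (fun z => ?_) (fun z => ?_) (h.phi_gX hp)
      (h.phi_e hp) (h.phi_gX hq) (h.phi_e hq) c1 c3 (R := 0)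
      (α := (N a₀ b p + τ * u a₀ b c d p) / N a₀ b q)
      (β := τ * ‖w a₀ b c d p‖ / N a₀ b q) ?_ ?_
    · rw [phi_apply (h.smoothX hp)]; exact abs_Dn_le _ _
    · rw [phi_apply (h.smoothX hq)]; exact abs_Dn_le _ _
    · change gX a₀ b c d q = _ • gX a₀ b c d p + _ • e a₀ b c d p + 0
      simp only [gX, e]
      rw [add_zero, smul_smul (τ * ‖w a₀ b c d p‖ / N a₀ b q),
        show τ * ‖w a₀ b c d p‖ / N a₀ b q * ‖w a₀ b c d p‖⁻¹ = τ / N a₀ b q by field_simp]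
      simp only [w, h.cl_eq hp, h.cl_eq hq, pt, hτ]
      match_scalars <;> field_simp <;> ring
    · rw [norm_zero, mul_zero]
      positivity
  · refine (nf_step_near h.dimY (h.norm_et hp) (h.norm_et hq) (h.norm_gY p) (h.norm_gY q)
      (φ₁ := Ps T a₀ b c d p) (φ₂ := Ps T a₀ b c d q) (h.Ps_le p) (h.Ps_le q) (h.Ps_gY hp)
      (h.Ps_et hp) (h.Ps_gY hq) (h.Ps_et hq) c2 c4
      (R := (N a₀ b q)⁻¹ • (Z T a₀ b q - Z T a₀ b p - τ • V T a₀ b c d p))
      (α := (N a₀ b p + τ * u a₀ b c d p) / N a₀ b q)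
      (β := τ * ‖w a₀ b c d p‖ / N a₀ b q) ?_ ?_).trans (le_of_eq (h.norm_gY_sub q p))
    · change gY T a₀ b c d q = _ • gY T a₀ b c d p + _ • et T a₀ b c d p + _
      simp only [gY, et]
      rw [smul_smul (τ * ‖w a₀ b c d p‖ / N a₀ b q),
        show τ * ‖w a₀ b c d p‖ / N a₀ b q * ‖w a₀ b c d p‖⁻¹ = τ / N a₀ b q by field_simp]
      simp only [om, h.cl_eq hp, h.cl_eq hq]
      match_scalars <;> field_simp <;> ring
    · have hR : ‖Z T a₀ b q - Z T a₀ b p - τ • V T a₀ b c d p‖ ≤ K * τ * τ := by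
        have h1 := Convex.norm_image_sub_le_of_norm_hasDerivWithin_le
          (f := fun t => Z T a₀ b t - t • V T a₀ b c d p)
          (f' := fun t => V T a₀ b c d t - V T a₀ b c d p) (s := Icc p q) (C := K * τ)
          (fun t ht => (((h.hasDerivAt_Z ⟨hcp.trans ht.1, ht.2.trans hqd⟩).sub
            ((hasDerivAt_id t).smul_const (V T a₀ b c d p))).congr_deriv
              (by rw [one_smul])).hasDerivWithinAt)
          (fun t ht => (hV.norm_sub_le t p).trans (mul_le_mul_of_nonneg_left (by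
            rw [Real.norm_eq_abs, abs_of_nonneg (sub_nonneg.2 ht.1)]
            linarith [ht.2]) K.coe_nonneg))
          (convex_Icc p q) (left_mem_Icc.2 hpq.le) (right_mem_Icc.2 hpq.le)
        rw [Real.norm_eq_abs, ← hτ, abs_of_pos hτ0] at h1
        refine le_of_eq_of_le ?_ h1
        congr 1
        rw [hτ]
        module
      rw [norm_smul, norm_inv, Real.norm_of_nonneg hn'.le,
        inv_mul_eq_div, ← mul_div_assoc, div_lt_div_iff_of_pos_right hn']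
      have h2 : τ * ((K : ℝ) + 1) * 2 < m := by
        have := hd.trans_le (min_le_right _ _)
        rw [lt_div_iff₀ (by positivity)] at this
        linarith
      have h3 : m ≤ ‖w a₀ b c d p‖ := (hb p).2.1
      calc 2 * ‖Z T a₀ b q - Z T a₀ b p - τ • V T a₀ b c d p‖ ≤ 2 * (K * τ * τ) := by linarith
        _ = τ * (τ * K * 2) := by ring
        _ < τ * ‖w a₀ b c d p‖ := mul_lt_mul_of_pos_left (by linarith) hτ0

/-- A monotone majorant of the variation. -/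
lemma exists_majorant : ∃ M : ℝ → ℝ, Monotone M ∧ Measurable (E T a₀ b c d) ∧
    ∀ p q, p ≤ q → |E T a₀ b c d q - E T a₀ b c d p| ≤ M q - M p ∧
      |kY T a₀ b c d q - kY T a₀ b c d p| + ‖gY T a₀ b c d q - gY T a₀ b c d p‖ ≤ M q - M p := by
  obtain ⟨m, hm, hb⟩ := h.exists_bounds
  obtain ⟨ρ, hρ, hstep⟩ := h.exists_step
  set Λ := 2 * ‖b‖ / m with hΛ
  have hΛ0 : 0 ≤ Λ := by positivity
  have hg : ∀ p q, p ≤ q →
      ‖gX a₀ b c d q - gX a₀ b c d p‖ ≤ Λ * (cl c d q - cl c d p) := fun p q hpq => by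
    refine (h.norm_gX_sub hm (fun s => (hb s).1) q p).trans (le_of_eq ?_)
    rw [abs_of_nonneg (sub_nonneg.2 (show cl c d p ≤ cl c d q from
      max_le_max le_rfl (min_le_min le_rfl hpq)))]
  set M₁ := fun s => Λ * cl c d s - kX a₀ b c d s with hM₁
  set M₂ := fun s => Λ * cl c d s - kY T a₀ b c d s with hM₂
  have hk : ∀ s, kX a₀ b c d s = kX a₀ b c d (cl c d s) ∧
      kY T a₀ b c d s = kY T a₀ b c d (cl c d s) := fun s => by
    simp only [kX, kY, e, et, w, om, u, V, h.cl_eq (h.cl_mem s), and_self]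
  have hmono : ∀ k : ℝ → ℝ, (∀ s, k s = k (cl c d s)) → (∀ p q, c ≤ p → p < q → q ≤ d → q - p < ρ →
      k q - k p ≤ ‖gX a₀ b c d q - gX a₀ b c d p‖) → Monotone fun s => Λ * cl c d s - k s := by
    intro k hkc hks p q hpq
    have key := monotoneOn_of_small_steps (f := fun s => Λ * cl c d s - k s) (c := c) (d := d) hρ
      (fun p q h1 h2 h3 h4 => by
        have h5 := hks p q h1 h2 h3 h4
        have h6 := hg p q h2.le
        linarith) (h.cl_mem p) (h.cl_mem q) (max_le_max le_rfl (min_le_min le_rfl hpq))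
    simp only [h.cl_eq (h.cl_mem p), h.cl_eq (h.cl_mem q), ← hkc] at key
    exact key
  have h1 : Monotone M₁ := hmono _ (fun s => (hk s).1) fun p q a b c d => (hstep p q a b c d).1
  have h2 : Monotone M₂ := hmono _ (fun s => (hk s).2) fun p q a b c d => (hstep p q a b c d).2
  refine ⟨fun s => M₁ s + M₂ s + 2 * Λ * cl c d s, (h1.add h2).add fun p q hpq =>
    mul_le_mul_of_nonneg_left (max_le_max le_rfl (min_le_min le_rfl hpq)) (by positivity), ?_,
    fun p q hpq => ?_⟩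
  · have : E T a₀ b c d = fun s => M₁ s - M₂ s := by
      funext s
      simp only [E, hM₁, hM₂]
      ring
    rw [this]
    exact h1.measurable.sub h2.measurable
  · have g1 := h1 hpq
    have g2 := h2 hpq
    have g3 := hg p q hpq
    have g4 := mul_le_mul_of_nonneg_left
      (show cl c d p ≤ cl c d q from max_le_max le_rfl (min_le_min le_rfl hpq)) hΛ0
    rw [h.norm_gY_sub]
    simp only [E, hM₁, hM₂] at g1 g2 ⊢
    constructor
    · rw [abs_le]
      constructor <;> linarith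
    · have : |kY T a₀ b c d q - kY T a₀ b c d p| ≤ Λ * cl c d q - kY T a₀ b c d q
          - (Λ * cl c d p - kY T a₀ b c d p) + Λ * (cl c d q - cl c d p) := by
        rw [abs_le]
        constructor <;> linarith
      linarith

end Arc

end Vale.Agent.P084.Full
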