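import Vale.Agent.P084.Full.PlaneTurn
import Mathlib.Analysis.Calculus.LocalExtr.Basic
import Mathlib.MeasureTheory.Integral.IntervalIntegral.AbsolutelyContinuousFun

/-! The velocity equation of the image of a chart. -/

namespace Vale.Agent.P084.Full

open Inf Filter Topology Metric MeasureTheory Set
open scoped NNReal

set_option linter.unusedSectionVars false

/-- A Lipschitz function with almost everywhere nonnegative derivative increases. -/
lemma le_of_ae_deriv_nonneg {f : ℝ → ℝ} {K : ℝ≥0} (hf : LipschitzWith K f) {p q : ℝ} (hpq : p ≤ q)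
    (h : ∀ᵐ x : ℝ, x ∈ Ioo p q → ∃ y, 0 ≤ y ∧ HasDerivAt f y x) : f p ≤ f q := by
  have hac : AbsolutelyContinuousOnInterval f p q :=
    (hf.lipschitzOnWith (s := uIcc p q)).absolutelyContinuousOnInterval
  rw [← sub_nonneg, ← hac.integral_deriv_eq_sub]
  refine intervalIntegral.integral_nonneg_of_ae_restrict hpq ?_
  refine (ae_restrict_iff' measurableSet_Icc).2 ?_
  filter_upwards [h, (by simp [ae_iff] : ∀ᵐ x : ℝ, x ≠ p), (by simp [ae_iff] : ∀ᵐ x : ℝ, x ≠ q)]
    with x hx h1 h2 hm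
  obtain ⟨y, hy, hd⟩ := hx ⟨lt_of_le_of_ne hm.1 h1.symm, lt_of_le_of_ne hm.2 h2⟩
  rw [Pi.zero_apply, hd.deriv]
  exact hy

variable {X Y : Type*} [NormedAddCommGroup X] [NormedSpace ℝ X] [CompleteSpace X]
  [NormedAddCommGroup Y] [NormedSpace ℝ Y] [CompleteSpace Y]
  {T : X → Y} {T' : Y → X} {a₀ b : X} {c d : ℝ}

namespace Arc

lemma hasDerivAt_pt (s : ℝ) : HasDerivAt (pt a₀ b) b s := by
  have := ((hasDerivAt_id s).smul_const b).const_add a₀
  rwa [one_smul] at this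

lemma abs_N_sub_le (s t : ℝ) : |N a₀ b s - N a₀ b t| ≤ |s - t| * ‖b‖ := by
  refine (abs_norm_sub_norm_le _ _).trans (le_of_eq ?_)
  rw [pt_sub, norm_smul, Real.norm_eq_abs]

variable (h : Arc T T' a₀ b c d)
include h

lemma cl_eventually {s : ℝ} (hs : s ∈ Ioo c d) : ∀ᶠ t in 𝓝 s, cl c d t = t :=
  Filter.Eventually.mono (Ioo_mem_nhds hs.1 hs.2) fun _ ht => h.cl_eq (Ioo_subset_Icc_self ht)

lemma exists_bounds : ∃ m : ℝ, 0 < m ∧ ∀ s, m ≤ N a₀ b (cl c d s) ∧
    m ≤ ‖w a₀ b c d s‖ ∧ N a₀ b (cl c d s) ≤ m⁻¹ := by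
  obtain ⟨p, hp, hmin⟩ := isCompact_Icc.exists_isMinOn (nonempty_Icc.2 h.le)
    (continuous_N (a₀ := a₀) (b := b)).continuousOn
  obtain ⟨q, hq, hmin'⟩ := isCompact_Icc.exists_isMinOn (nonempty_Icc.2 h.le)
    h.continuous_w.norm.continuousOn
  obtain ⟨r, hr, hmax⟩ := isCompact_Icc.exists_isMaxOn (nonempty_Icc.2 h.le)
    (continuous_N (a₀ := a₀) (b := b)).continuousOn
  have hw : ∀ s, w a₀ b c d s = w a₀ b c d (cl c d s) := fun s => by
    simp only [w, u, h.cl_eq (h.cl_mem s)]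
  refine ⟨min (min (N a₀ b p) ‖w a₀ b c d q‖) (N a₀ b r)⁻¹,
    lt_min (lt_min (h.N_pos _) (norm_pos_iff.2 (h.w_ne _))) (inv_pos.2 (h.N_pos _)), fun s => ?_⟩
  refine ⟨(min_le_left _ _).trans ((min_le_left _ _).trans (hmin (h.cl_mem s))), ?_, ?_⟩
  · rw [hw s]
    exact (min_le_left _ _).trans ((min_le_right _ _).trans (hmin' (h.cl_mem s)))
  · refine (hmax (h.cl_mem s)).trans ?_
    rw [le_inv_comm₀ (h.N_pos _) (lt_min (lt_min (h.N_pos _) (norm_pos_iff.2 (h.w_ne _)))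
      (inv_pos.2 (h.N_pos _)))]
    exact min_le_right _ _

lemma exists_lip_w : ∃ K : ℝ≥0, LipschitzWith K fun s => ‖w a₀ b c d s‖ := by
  obtain ⟨K, hK, -, -⟩ := h.exists_lip
  obtain ⟨m, hm, hb⟩ := h.exists_bounds
  refine ⟨((K / m + ‖b‖ * (‖b‖ / m ^ 2)) * m⁻¹ + ‖b‖ / m * ‖b‖).toNNReal,
    LipschitzWith.of_dist_le_mul fun p q => ?_⟩
  rw [Real.dist_eq, Real.dist_eq, Real.coe_toNNReal _ (by positivity)]
  refine (abs_norm_sub_norm_le _ _).trans ?_
  have hpN := h.N_pos (cl c d p)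
  have hqN := h.N_pos (cl c d q)
  set A := N a₀ b (cl c d p)
  set B := N a₀ b (cl c d q)
  set U := u a₀ b c d p
  set W := u a₀ b c d q
  have hcl : |cl c d p - cl c d q| ≤ |p - q| := by
    simpa [Real.dist_eq] using (lip_cl (c := c) (d := d)).dist_le_mul p q
  have hu : |U - W| ≤ K * |p - q| := by simpa [Real.dist_eq] using hK.dist_le_mul p q
  have hAB : |B - A| ≤ |p - q| * ‖b‖ := by
    rw [abs_sub_comm]
    exact (abs_N_sub_le _ _).trans (mul_le_mul_of_nonneg_right hcl (norm_nonneg b))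
  have hr : |U / A - W / B| ≤ (K / m + ‖b‖ * (‖b‖ / m ^ 2)) * |p - q| := by
    have e : U / A - W / B = (U - W) / A + W * ((B - A) / (A * B)) := by field_simp; ring
    rw [e]
    refine (abs_add_le _ _).trans ?_
    rw [abs_div, abs_mul, abs_div, abs_of_pos hpN, abs_of_pos (mul_pos hpN hqN), add_mul]
    refine add_le_add ?_ ?_
    · rw [div_mul_eq_mul_div]
      exact div_le_div₀ (by positivity) hu hm (hb p).1
    · rw [mul_assoc, div_mul_eq_mul_div]
      refine mul_le_mul (h.u_le q) (div_le_div₀ (by positivity) ?_ (by positivity) ?_)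
        (by positivity) (norm_nonneg b)
      · linarith
      · rw [sq]
        exact mul_le_mul (hb p).1 (hb q).1 hm.le hpN.le
  have hWB : |W / B| ≤ ‖b‖ / m := by
    rw [abs_div, abs_of_pos hqN]
    exact div_le_div₀ (norm_nonneg b) (h.u_le q) hm (hb q).1
  have e2 : w a₀ b c d p - w a₀ b c d q = -((U / A - W / B) • pt a₀ b (cl c d p)
      + (W / B) • (pt a₀ b (cl c d p) - pt a₀ b (cl c d q))) := by
    simp only [w, U, W, A, B]
    module
  rw [e2, norm_neg, pt_sub, add_mul]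
  refine (norm_add_le _ _).trans (add_le_add ?_ ?_)
  · rw [norm_smul, Real.norm_eq_abs, mul_right_comm]
    exact mul_le_mul hr (hb p).2.2 (norm_nonneg _) (by positivity)
  · rw [norm_smul, norm_smul, Real.norm_eq_abs, Real.norm_eq_abs, mul_assoc (‖b‖ / m),
      mul_comm ‖b‖ |p - q|]
    exact mul_le_mul hWB (mul_le_mul_of_nonneg_right hcl (norm_nonneg b))
      (by positivity) (by positivity)

lemma norm_gX (s : ℝ) : ‖(N a₀ b (cl c d s))⁻¹ • pt a₀ b (cl c d s)‖ = 1 := by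
  rw [norm_smul, norm_inv, Real.norm_of_nonneg (h.N_pos _).le]
  exact inv_mul_cancel₀ (h.N_pos _).ne'

lemma norm_gY (s : ℝ) : ‖(N a₀ b (cl c d s))⁻¹ • Z T a₀ b (cl c d s)‖ = 1 := by
  rw [norm_smul, norm_inv, Real.norm_of_nonneg (h.N_pos _).le, h.N_Z]
  exact inv_mul_cancel₀ (h.N_pos _).ne'

lemma abs_E_le (s : ℝ) : |E T a₀ b c d s| ≤ 2 := by
  have h1 := abs_nf_le (et T a₀ b c d s) ((N a₀ b (cl c d s))⁻¹ • Z T a₀ b (cl c d s))
  have h2 := abs_nf_le (e a₀ b c d s) ((N a₀ b (cl c d s))⁻¹ • pt a₀ b (cl c d s))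
  rw [h.norm_gY] at h1
  rw [h.norm_gX] at h2
  simp only [E, kY, kX]
  exact (abs_sub _ _).trans (by linarith)

/-- The velocity equation. -/
lemma deriv_V_ae : ∀ᵐ s : ℝ, s ∈ Ioo c d → 0 ≤ deriv (u a₀ b c d) s ∧
    HasDerivAt (u a₀ b c d) (deriv (u a₀ b c d) s) s ∧
    HasDerivAt (V T a₀ b c d) ((deriv (u a₀ b c d) s * E T a₀ b c d s) • et T a₀ b c d s) s := by
  have := h.finX
  have := h.finY
  obtain ⟨K, hu, hV, -⟩ := h.exists_lip
  obtain ⟨L, hσ⟩ := h.exists_lip_w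
  filter_upwards [hu.ae_differentiableAt, hV.ae_differentiableAt, hσ.ae_differentiableAt]
    with s du dV dσ hs
  have hsI := Ioo_subset_Icc_self hs
  set H := deriv (u a₀ b c d) s with hH
  set A := deriv (V T a₀ b c d) s with hA
  have hdu : HasDerivAt (u a₀ b c d) H s := du.hasDerivAt
  have hdV : HasDerivAt (V T a₀ b c d) A s := dV.hasDerivAt
  refine ⟨h.mono_u.deriv_nonneg, hdu, ?_⟩
  set n := N a₀ b s with hn
  have hn0 : n ≠ 0 := (h.N_pos s).ne'
  set σ := ‖w a₀ b c d s‖ with hσdef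
  have hσ0 : σ ≠ 0 := norm_ne_zero_iff.2 (h.w_ne s)
  set U := u a₀ b c d s with hU
  set x := pt a₀ b s with hx
  set z := Z T a₀ b s with hz
  set ψ := nf (e a₀ b c d s) with hψ
  set η := nf (et T a₀ b c d s) with hη
  have hr : HasDerivAt (fun t => u a₀ b c d t / N a₀ b t) ((H * n - U * U) / n ^ 2) s :=
    hdu.div (h.hasDerivAt_N hsI) hn0
  have hw : HasDerivAt (w a₀ b c d)
      (-((U / n) • b + ((H * n - U * U) / n ^ 2) • x)) s := by
    refine ((hr.smul (hasDerivAt_pt s)).const_sub b).congr_of_eventuallyEq ?_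
    filter_upwards [h.cl_eventually hs] with t ht
    simp only [w, ht]
    rfl
  have hom : HasDerivAt (om T a₀ b c d)
      (A - ((U / n) • V T a₀ b c d s + ((H * n - U * U) / n ^ 2) • z)) s := by
    refine (hdV.sub (hr.smul (h.hasDerivAt_Z hsI))).congr_of_eventuallyEq ?_
    filter_upwards [h.cl_eventually hs] with t ht
    simp only [om, ht]
    rfl
  have hψw : ψ (w a₀ b c d s) = σ := by
    have h1 : w a₀ b c d s = σ • e a₀ b c d s := by rw [e, smul_inv_smul₀ hσ0]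
    rw [hψ, h1, map_smul, nf_self, h.norm_e, smul_eq_mul, mul_one]
  have hηom : η (om T a₀ b c d s) = σ := by
    have h1 : om T a₀ b c d s = σ • et T a₀ b c d s := by rw [et, smul_inv_smul₀ hσ0]
    rw [hη, h1, map_smul, nf_self, h.norm_et hsI, smul_eq_mul, mul_one]
  have hmin1 := IsLocalMin.hasDerivAt_eq_zero (f := fun t => ‖w a₀ b c d t‖ - ψ (w a₀ b c d t))
    (a := s) (Eventually.of_forall fun t => by
      simp only [hψw, hσdef, sub_self]
      linarith [nf_le (e a₀ b c d s) (w a₀ b c d t)])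
    (dσ.hasDerivAt.sub (ψ.hasFDerivAt.comp_hasDerivAt s hw))
  have hmin2 := IsLocalMin.hasDerivAt_eq_zero (f := fun t => ‖w a₀ b c d t‖ - η (om T a₀ b c d t))
    (a := s) (by
      filter_upwards [h.cl_eventually hs, Ioo_mem_nhds hs.1 hs.2] with t _ ht
      simp only [hηom, hσdef, sub_self]
      rw [← h.norm_om (Ioo_subset_Icc_self ht)]
      linarith [nf_le (et T a₀ b c d s) (om T a₀ b c d t)])
    (dσ.hasDerivAt.sub (η.hasFDerivAt.comp_hasDerivAt s hom))
  have hkX : ψ x = n * kX a₀ b c d s := by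
    rw [kX, h.cl_eq hsI, map_smul, smul_eq_mul, ← mul_assoc, mul_inv_cancel₀ hn0, one_mul]
  have hkY : η z = n * kY T a₀ b c d s := by
    rw [kY, h.cl_eq hsI, map_smul, smul_eq_mul, ← mul_assoc, mul_inv_cancel₀ hn0, one_mul]
  have hψb : ψ b = σ + U * kX a₀ b c d s := by
    have h1 : b = w a₀ b c d s + (U / n) • x := by rw [w, h.cl_eq hsI, sub_add_cancel]
    conv_lhs => rw [h1]
    rw [map_add, map_smul, hψw, hkX, smul_eq_mul]
    field_simp
  have hηV : η (V T a₀ b c d s) = σ + U * kY T a₀ b c d s := by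
    have h1 : V T a₀ b c d s = om T a₀ b c d s + (U / n) • z := by
      rw [om, h.cl_eq hsI, sub_add_cancel]
    conv_lhs => rw [h1]
    rw [map_add, map_smul, hηom, hkY, smul_eq_mul]
    field_simp
  have hβ : η A = H * E T a₀ b c d s := by
    simp only [map_neg, map_sub, map_add, map_smul, smul_eq_mul, hψb, hkX, hηV, hkY] at hmin1 hmin2
    simp only [E]
    field_simp at hmin1 hmin2 ⊢
    refine mul_left_cancel₀ hn0 ?_
    linarith
  have hA0 := h.Ps_deriv_V hs hdV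
  have hdec := plane_decomp h.dimY (φ := Ps T a₀ b c d s) (γ := n⁻¹ • z) (by
    rw [map_smul, h.Ps_Z hsI, smul_eq_mul, inv_mul_cancel₀ hn0]) (h.Ps_et hsI) (h.norm_et hsI) A
  rw [hA0, zero_smul, zero_add, sub_zero, ← hη, hβ] at hdec
  rw [← hdec]
  exact hdV

lemma lip_apply (η : Y →L[ℝ] ℝ) : ∃ K : ℝ≥0, LipschitzWith K fun s => η (V T a₀ b c d s) := by
  obtain ⟨K, -, hV, -⟩ := h.exists_lip
  exact ⟨_, η.lipschitz.comp hV⟩

lemma norm_V_sub_le {p q : ℝ} (hp : c ≤ p) (hpq : p ≤ q) (hq : q ≤ d) :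
    ‖V T a₀ b c d q - V T a₀ b c d p‖ ≤ 2 * (u a₀ b c d q - u a₀ b c d p) := by
  set η := nf (V T a₀ b c d q - V T a₀ b c d p)
  obtain ⟨K, hu, -, -⟩ := h.exists_lip
  obtain ⟨L, hL⟩ := h.lip_apply η
  have key := le_of_ae_deriv_nonneg (f := fun s => (2 : ℝ) • u a₀ b c d s - η (V T a₀ b c d s))
    (((lipschitzWith_smul (2 : ℝ)).comp hu).sub hL) hpq (by
      filter_upwards [h.deriv_V_ae] with s hs hm
      have hm' : s ∈ Ioo c d := ⟨hp.trans_lt hm.1, hm.2.trans_le hq⟩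
      obtain ⟨h0, d1, d2⟩ := hs hm'
      refine ⟨_, ?_, (d1.const_smul (2 : ℝ)).sub (η.hasFDerivAt.comp_hasDerivAt s d2)⟩
      rw [sub_nonneg, map_smul, smul_eq_mul, smul_eq_mul]
      refine (le_abs_self _).trans ?_
      have h1 := abs_nf_le (V T a₀ b c d q - V T a₀ b c d p) (et T a₀ b c d s)
      rw [h.norm_et (Ioo_subset_Icc_self hm')] at h1
      rw [abs_mul, abs_mul, abs_of_nonneg h0]
      have h2 := h.abs_E_le s
      calc deriv (u a₀ b c d) s * |E T a₀ b c d s| * |η (et T a₀ b c d s)|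
          ≤ deriv (u a₀ b c d) s * 2 * 1 :=
            mul_le_mul (mul_le_mul_of_nonneg_left h2 h0) h1 (abs_nonneg _) (by positivity)
        _ = 2 * deriv (u a₀ b c d) s := by ring)
  simp only [smul_eq_mul] at key
  rw [← nf_self (V T a₀ b c d q - V T a₀ b c d p), map_sub]
  linarith

end Arc

end Vale.Agent.P084.Full
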