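import Mathlib.Analysis.Normed.Module.Basic
import Mathlib.Topology.Bases
import Mathlib.Analysis.Normed.Operator.Basic

/-! Separable closed subspaces closed under given operations. -/

namespace Vale.Agent.P084.Full

open TopologicalSpace

theorem exists_separable_invariant {E : Type*} [NormedAddCommGroup E] [NormedSpace ℝ E]
    {ι : Type*} [Countable ι] (g : ι → E × E → E) (hg : ∀ i, Continuous (g i))
    {P : Submodule ℝ E} (hP : IsClosed (P : Set E)) (hgP : ∀ i, ∀ p, p.1 ∈ P → p.2 ∈ P → g i p ∈ P)
    {s : Set E} (hs : s.Countable) (hsP : s ⊆ P) :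
    ∃ V : Submodule ℝ E, V ≤ P ∧ IsClosed (V : Set E) ∧ SeparableSpace V ∧ s ⊆ V ∧
      ∀ i, ∀ x ∈ V, ∀ y ∈ V, g i (x, y) ∈ V := by
  let step : Submodule ℝ E → Submodule ℝ E := fun A =>
    Submodule.span ℝ ((A : Set E) ∪ ⋃ i, g i '' ((A : Set E) ×ˢ (A : Set E)))
  let A : ℕ → Submodule ℝ E := fun n =>
    Nat.rec (motive := fun _ => Submodule ℝ E) (Submodule.span ℝ s) (fun _ A => step A) n
  have hA : Monotone A := monotone_nat_of_le_succ fun n =>
    fun x hx => Submodule.subset_span (Or.inl hx)
  have hsep : ∀ n, IsSeparable (A n : Set E) := by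
    intro n
    induction n with
    | zero => exact hs.isSeparable.span
    | succ n ih =>
      exact (ih.union (IsSeparable.iUnion fun i => (ih.prod ih).image (hg i))).span
  have hle : ∀ n, A n ≤ P := by
    intro n
    induction n with
    | zero => exact Submodule.span_le.2 hsP
    | succ n ih =>
      refine Submodule.span_le.2 (Set.union_subset ih (Set.iUnion_subset fun i => ?_))
      rintro _ ⟨p, hp, rfl⟩
      exact hgP i p (ih hp.1) (ih hp.2)
  have cA : (↑(iSup A) : Set E) = ⋃ n, (A n : Set E) :=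
    Submodule.coe_iSup_of_directed A hA.directed_le
  refine ⟨(iSup A).topologicalClosure,
    Submodule.topologicalClosure_minimal _ (iSup_le hle) hP,
    Submodule.isClosed_topologicalClosure _, ?_, ?_, ?_⟩
  · have : IsSeparable ((iSup A).topologicalClosure : Set E) := by
      rw [Submodule.topologicalClosure_coe, cA]
      exact (IsSeparable.iUnion hsep).closure
    exact this.separableSpace
  · intro x hx
    exact subset_closure (cA ▸ Set.mem_iUnion.2 ⟨0, Submodule.subset_span hx⟩)
  · intro i x hx y hy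
    refine map_mem_closure₂ (f := fun u v => g i (u, v)) (hg i) hx hy fun u hu v hv => ?_
    obtain ⟨m, hm⟩ := Set.mem_iUnion.1 (cA.le hu)
    obtain ⟨n, hn⟩ := Set.mem_iUnion.1 (cA.le hv)
    refine cA.ge (Set.mem_iUnion.2 ⟨max m n + 1, Submodule.subset_span (Or.inr
      (Set.mem_iUnion.2 ⟨i, (u, v), ⟨hA (le_max_left m n) hm, hA (le_max_right m n) hn⟩, rfl⟩))⟩)

end Vale.Agent.P084.Full
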