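import Vale.Agent.P084.Full.Link
import Vale.Agent.P084.Full.Sep
import Vale.Agent.P084.Full.Potential

/-! The second order blow-up of the extension is tangential. -/

namespace Vale.Agent.P084.Full

open Inf Filter Topology Metric

variable {X Y : Type*} [NormedAddCommGroup X] [NormedSpace ℝ X] [CompleteSpace X]
  [NormedAddCommGroup Y] [NormedSpace ℝ Y] [CompleteSpace Y] {T : X → Y} {T' : Y → X} {a : X}
  {r : ℕ → ℝ} {ρ K : ℝ}

/-- A self-map keeping the derivative of the norm preserves the blow-up. -/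
lemma invariant_blowup {S S' : X → X} (h : Two S S' a r ρ K)
    (hS : ∀ᶠ x in 𝓝 a, phi (S x) = phi x) {s : Ultra X} (hs : s ∈ kerU a) {v : Ultra X}
    (hv : v ∈ kerU a) :
    bOm (S a) r (bLin S a s) = bOm a r s ∧ bPhi (S a) r (bLin S a s) (bLin S a v) = bPhi a r s v := by
  have hker : kerU (S a) = kerU a := by
    unfold kerU bDn
    rw [hS.self_of_nhds]
  set L := bLin S a with hL
  set L' := bLin S' (S a) with hL'
  have hLm : ∀ x ∈ kerU a, L x ∈ kerU a := fun x hx => hker ▸ h.bLin_mem hx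
  have hL'm : ∀ x ∈ kerU a, L' x ∈ kerU a := fun x hx => by
    have := h.symm.bLin_mem (hker.symm ▸ hx : x ∈ kerU (S a))
    rwa [h.fst.isT.left] at this
  obtain ⟨V, hVP, hVc, hVs, hsV, hVi⟩ := exists_separable_invariant (ι := Bool)
    (fun i p => if i then L p.1 else L' p.1)
    (by rintro (_ | _) <;> simp <;> fun_prop) (isClosed_kerU a)
    (by rintro (_ | _) p hp - <;> simp <;> first | exact hL'm _ hp | exact hLm _ hp)
    (s := {s, v}) ((Set.toFinite _).countable) (by simp [Set.insert_subset_iff, hs, hv])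
  haveI := hVs
  haveI : CompleteSpace V := hVc.completeSpace_coe
  have hVL : ∀ x ∈ V, L x ∈ V := fun x hx => by simpa using hVi true x hx x hx
  have hVL' : ∀ x ∈ V, L' x ∈ V := fun x hx => by simpa using hVi false x hx x hx
  let Λ : V ≃ₗᵢ[ℝ] V :=
    { toFun := fun x => ⟨L x, hVL x x.2⟩
      invFun := fun x => ⟨L' x, hVL' x x.2⟩
      map_add' := fun x y => Subtype.ext (map_add L (x : Ultra X) y)
      map_smul' := fun c x => Subtype.ext (map_smul L c (x : Ultra X))
      left_inv := fun x => Subtype.ext (h.bLin_left x)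
      right_inv := fun x => Subtype.ext (h.bLin_right x)
      norm_map' := fun x => h.norm_bLin (hVP x.2) }
  let Φ : V → V →L[ℝ] ℝ := fun x => (bPhi a r x).comp V.subtypeL
  have hΦ : Lip K Φ := ⟨h.fst.reg.nonneg, fun x y => by
    refine ContinuousLinearMap.opNorm_le_bound _ (mul_nonneg h.fst.reg.nonneg (norm_nonneg _))
      fun w => ?_
    exact ((bPhi a r (x : Ultra X) - bPhi a r (y : Ultra X)).le_opNorm w).trans
      (mul_le_mul_of_nonneg_right (h.fst.norm_bPhi_sub_le x y) (norm_nonneg _))⟩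
  have key := potential_eq (Ω := fun x : V => bOm a r x)
    (Ω₁ := fun x : V => bOm (S a) r (L x)) hΦ
    ((h.fst.convexOn_bOm).comp_linearMap V.subtype)
    ((h.snd.convexOn_bOm).comp_linearMap (L.toLinearMap.comp V.subtype))
    h.fst.bOm_zero (by simp [h.snd.bOm_zero])
    (ContinuousLinearMap.ext fun w => by simp [Φ, h.fst.bPhi_zero])
    (fun x w => h.fst.abs_bOm_sub_le (x : Ultra X) (w : Ultra X)) Λ
    (fun x w => by
      have h1 := h.snd.abs_bOm_sub_le (L x) (L w)
      rw [← map_add, h.fst.bPhi_invariant h.snd hS, h.norm_bLin (hVP w.2)] at h1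
      exact h1)
  have hs' : s ∈ V := hsV (by simp)
  have hv' : v ∈ V := hsV (by simp)
  refine ⟨key.1 ⟨s, hs'⟩, ?_⟩
  rw [h.fst.bPhi_invariant h.snd hS]
  exact key.2 ⟨s, hs'⟩ ⟨v, hv'⟩

/-- The second difference inequality at a point. -/
lemma chk_ineq (hT : IsTingley T T') {b h : X} (hb : b ≠ 0) (hs : Smooth b)
    (hp : 0 < ‖b + h‖) (hm : 0 < ‖b - h‖) (hψ : Smooth (T b)) (hψ' : Smooth (chk T b)) :
    gap b h / ‖b + h‖ + gap b (-h) / ‖b - h‖
        - |‖b + h‖⁻¹ - ‖b - h‖⁻¹| * (gap b h + gap b (-h))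
      ≤ gap (T b) (T (b + h) - T b) / ‖b + h‖
        + gap (chk T b) (chk T (b - h) - chk T b) / ‖b - h‖ := by
  set P := ‖b + h‖ with hP
  set M := ‖b - h‖ with hM
  set m := P⁻¹ + M⁻¹ with hm'
  set θ := (P⁻¹ - M⁻¹) / m with hθ
  have hm0 : 0 < m := by positivity
  have hθm : m * θ = P⁻¹ - M⁻¹ := by rw [hθ, mul_div_cancel₀ _ hm0.ne']
  have hθ1 : |θ| ≤ 1 := by
    rw [hθ, abs_div, abs_of_pos hm0, div_le_one hm0]
    exact (abs_sub _ _).trans (le_of_eq (by rw [abs_of_pos (inv_pos.2 hp), abs_of_pos (inv_pos.2 hm)]))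
  have hconv : gap b (θ • h) ≤ |θ| * (gap b h + gap b (-h)) := by
    have key : ∀ (t : ℝ) (u : X), 0 ≤ t → t ≤ 1 → gap b (t • u) ≤ t * gap b u := by
      intro t u h0 h1
      simp only [gap]
      rw [Dn_smul b u h0]
      have := norm_add_le ((1 - t) • b) (t • (b + u))
      rw [show (1 - t) • b + t • (b + u) = b + t • u by module, norm_smul, norm_smul,
        Real.norm_of_nonneg (sub_nonneg.2 h1), Real.norm_of_nonneg h0] at this
      linarith
    have g1 := gap_nonneg b h
    have g2 := gap_nonneg b (-h)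
    rcases le_total 0 θ with h0 | h0
    · rw [abs_of_nonneg h0] at hθ1 ⊢
      have := key θ h h0 hθ1
      nlinarith
    · rw [abs_of_nonpos h0] at hθ1 ⊢
      have := key (-θ) (-h) (neg_nonneg.2 h0) hθ1
      rw [neg_smul_neg] at this
      nlinarith
  set p := P⁻¹ • (b + h) with hpd
  set q := M⁻¹ • (b - h) with hqd
  have hpq : ‖p + q‖ = m * (‖b‖ + θ * Dn b h + gap b (θ • h)) := by
    have e : p + q = m • (b + θ • h) := by
      rw [smul_add, smul_smul, hθm, hpd, hqd, hm']
      module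
    rw [e, norm_smul, Real.norm_of_nonneg hm0.le]
    simp only [gap]
    rw [hs.map_smul]
    ring
  have hnp : ‖p‖ = 1 := by
    rw [hpd, norm_smul, norm_inv, Real.norm_of_nonneg hp.le, inv_mul_cancel₀ hp.ne']
  have hnq : ‖-q‖ = 1 := by
    rw [norm_neg, hqd, norm_smul, norm_inv, Real.norm_of_nonneg hm.le, inv_mul_cancel₀ hm.ne']
  have hup : Dn (T b) (T p + chk T q) ≤ ‖p + q‖ := by
    refine ((le_abs_self _).trans (abs_Dn_le _ _)).trans (le_of_eq ?_)
    rw [chk, ← sub_eq_add_neg, hT.dist_map _ _ (hnp.trans hnq.symm), sub_neg_eq_add]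
  have hψe : ∀ u, Dn (chk T b) u = Dn (T b) u := Dn_chk hT hψ hψ'
  have eT : Dn (T b) (T (b + h)) = P - gap (T b) (T (b + h) - T b) := by
    simp only [gap]
    have e1 := hψ.map_sub_smul (T (b + h)) (T b) 1
    rw [one_smul, one_mul, Dn_self] at e1
    rw [add_sub_cancel, e1, hT.norm_map (b + h)]
    ring
  have eC : Dn (T b) (chk T (b - h)) = M - gap (chk T b) (chk T (b - h) - chk T b) := by
    simp only [gap]
    have e1 := hψ'.map_sub_smul (chk T (b - h)) (chk T b) 1
    rw [one_smul, one_mul, Dn_self] at e1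
    rw [add_sub_cancel, e1, (isTingley_chk hT).norm_map (b - h), hψe]
    ring
  rw [hψ.map_add, hpd, hqd, hT.homog _ _ (inv_pos.2 hp),
    (isTingley_chk hT).homog _ _ (inv_pos.2 hm), hψ.map_smul, hψ.map_smul, eT, eC, ← hpd, ← hqd,
    hpq] at hup
  have eg : gap b h / P + gap b (-h) / M = 2 - m * (‖b‖ + θ * Dn b h) := by
    simp only [gap, ← sub_eq_add_neg]
    rw [← hP, ← hM, mul_add, ← mul_assoc, hθm, hm', show Dn b (-h) = -Dn b h by linarith [hs h]]
    field_simp
    ring
  have habs : |P⁻¹ - M⁻¹| = m * |θ| := by rw [← hθm, abs_mul, abs_of_pos hm0]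
  have := mul_le_mul_of_nonneg_left hconv hm0.le
  rw [habs]
  rw [mul_sub, mul_sub, inv_mul_cancel₀ hp.ne', inv_mul_cancel₀ hm.ne',
    ← div_eq_inv_mul, ← div_eq_inv_mul] at hup
  linarith

/-- The blow-up of the gap at a moving base point. -/
lemma Pt.tendsto_gap_moving (h : Pt T T' a r ρ K) {f g : ℕ → X} {s u : Ultra X} (hf : Rep f s)
    (hg : Rep g u) :
    Tendsto (fun n => gap (a + r n • f n) (r n • g n) / r n ^ 2) uf
      (𝓝 (bOm a r (s + u) - bOm a r s - bPhi a r s u)) := by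
  refine (((h.tendsto_bOm (hf.add hg)).sub (h.tendsto_bOm hf)).sub (h.tendsto_bPhi hf hg)).congr' ?_
  filter_upwards [h.mem hf] with n hn
  have hr := h.rpos n
  have e := h.gap_eq hn (r n • g n)
  rw [add_sub_cancel_left, ← smul_add, map_smul, map_smul, smul_eq_mul, smul_eq_mul] at e
  rw [← e]
  field_simp

namespace Two

variable (h : Two T T' a r ρ K)
include h

lemma chk_blowup {s v : Ultra X} (hs : s ∈ kerU a) (hv : v ∈ kerU a) :
    (∃ ρ' K', Two (chk T) (chk T') a r ρ' K') ∧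
      bOm (chk T a) r (bLin (chk T) a s) = bOm (T a) r (bLin T a s) ∧
      bPhi (chk T a) r (bLin (chk T) a s) (bLin (chk T) a v)
        = bPhi (T a) r (bLin T a s) (bLin T a v) := by
  have hT := h.fst.isT
  have ha := h.fst.unit
  have hc := h.fst.reg.c11 a (mem_ball_self h.fst.reg.pos)
  obtain ⟨C, hC⟩ := h.fst.ctrl
  obtain ⟨Cc, hCc⟩ := exists_ctrl (isTingley_chk hT)
  obtain ⟨ρ₁, K₁, h₁⟩ := exists_two (isTingley_chk hT) ha hc h.fst.rpos h.fst.rlim
  refine ⟨⟨ρ₁, K₁, h₁⟩, ?_⟩
  have hS : IsTingley (chk T ∘ T') (T ∘ chk T') := isTingley_comp hT.symm (isTingley_chk hT)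
  obtain ⟨ρ₂, K₂, h₂⟩ := exists_two hS h.snd.unit (h.snd.reg.c11 _ (mem_ball_self h.snd.reg.pos))
    h.fst.rpos h.fst.rlim
  have e0 : (chk T ∘ T') (T a) = chk T a := by simp [hT.left]
  have hev : ∀ᶠ y in 𝓝 (T a), phi ((chk T ∘ T') y) = phi y := by
    have h1 : ∀ᶠ y in 𝓝 (T a), C11At y := (h.snd.reg.c11 _ (mem_ball_self h.snd.reg.pos)).eventually
    have h2 : ∀ᶠ y in 𝓝 (T a), C11At (chk T (T' y)) := by
      have hcont : Continuous fun y => chk T (T' y) :=
        hS.lipschitz.continuous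
      have h3 : C11At (chk T (T' (T a))) := by
        rw [hT.left]; exact h₁.snd.reg.c11 _ (mem_ball_self h₁.snd.reg.pos)
      exact hcont.continuousAt.eventually h3.eventually
    filter_upwards [h1, h2] with y hy hy'
    ext u
    rw [Function.comp_apply, phi_apply hy'.smooth, phi_apply hy.smooth,
      Dn_chk hT (by rw [hT.right]; exact hy.smooth) hy'.smooth, hT.right]
  have key := invariant_blowup h₂ hev (h.bLin_mem hs) (h.bLin_mem hv)
  have ecomp : ∀ x : Ultra X, bLin (chk T ∘ T') (T a) (bLin T a x) = bLin (chk T) a x := by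
    intro x
    obtain ⟨C₂, hC₂⟩ := h₂.fst.ctrl
    refine (rep_bLin (rep_bLin (rep_self x))).eq ((rep_bLin (rep_self x)).congr' ?_)
    refine Eventually.of_forall fun n => ?_
    have e := dT_comp (W := Y) (S := chk T ∘ T') (S' := T ∘ chk T') hT hS hC hC₂
      (C'' := Cc) (by
        have : (chk T ∘ T') ∘ T = chk T := funext fun x => by simp [hT.left]
        rwa [this]) h.fst.ne_zero (rep x n)
    have hcomp : (chk T ∘ T') ∘ T = chk T := funext fun x => by simp [hT.left]
    rw [hcomp] at e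
    rw [h₂.fst.dTc_eq, h.fst.dTc_eq, h₁.fst.dTc_eq, e]
  rw [e0, ecomp, ecomp] at key
  exact key

/-- Second differences of the two blow-ups of the norms. -/
lemma second_diff_le {s u : Ultra X} (hs : s ∈ kerU a) (hu : u ∈ kerU a) :
    bOm a r (s + u) + bOm a r (s - u) - 2 * bOm a r s
      ≤ bOm (T a) r (bLin T a (s + u)) + bOm (T a) r (bLin T a (s - u))
        - 2 * bOm (T a) r (bLin T a s) := by
  obtain ⟨⟨ρ₁, K₁, h₁⟩, e1, e2⟩ := h.chk_blowup hs hu
  obtain ⟨-, e3, -⟩ := h.chk_blowup ((kerU a).sub_mem hs hu) hu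
  have hf' := rep_self s
  have hg' := rep_self u
  have hsum : Rep (fun n => rep s n + rep u n) (s + u) := hf'.add hg'
  have hdif : Rep (fun n => rep s n - rep u n) (s - u) := hf'.sub hg'
  have hp : Tendsto (fun n => ‖a + r n • rep s n + r n • rep u n‖) uf (𝓝 1) := by
    have h0 := (h.fst.rlim.mul hsum.tendsto_norm)
    rw [zero_mul] at h0
    rw [← h.fst.unit]
    refine tendsto_of_tendsto_of_dist tendsto_const_nhds
      (squeeze_zero (fun _ => dist_nonneg) (fun n => ?_) h0)
    rw [dist_comm, Real.dist_eq]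
    refine (abs_norm_sub_norm_le _ _).trans (le_of_eq ?_)
    rw [add_assoc, add_sub_cancel_left, ← smul_add, norm_smul,
      Real.norm_of_nonneg (h.fst.rpos n).le]
  have hm : Tendsto (fun n => ‖a + r n • rep s n - r n • rep u n‖) uf (𝓝 1) := by
    have h0 := (h.fst.rlim.mul hdif.tendsto_norm)
    rw [zero_mul] at h0
    rw [← h.fst.unit]
    refine tendsto_of_tendsto_of_dist tendsto_const_nhds
      (squeeze_zero (fun _ => dist_nonneg) (fun n => ?_) h0)
    rw [dist_comm, Real.dist_eq]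
    refine (abs_norm_sub_norm_le _ _).trans (le_of_eq ?_)
    rw [add_sub_assoc, add_sub_cancel_left, ← smul_sub, norm_smul,
      Real.norm_of_nonneg (h.fst.rpos n).le]
  have g1 := h.fst.tendsto_gap_moving hf' hg'
  have g2 := h.fst.tendsto_gap_moving hf' hg'.neg
  have g3 := h.snd.tendsto_gap_moving (h.fst.rep_increment hf')
    ((h.fst.rep_increment hsum).sub (h.fst.rep_increment hf'))
  have g4 := h₁.snd.tendsto_gap_moving (h₁.fst.rep_increment hf')
    ((h₁.fst.rep_increment hdif).sub (h₁.fst.rep_increment hf'))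
  have hL := ((g1.div hp one_ne_zero).add (g2.div hm one_ne_zero)).sub
    (((hp.inv₀ one_ne_zero).sub (hm.inv₀ one_ne_zero)).abs.mul (g1.add g2))
  have hR := (g3.div hp one_ne_zero).add (g4.div hm one_ne_zero)
  simp only [div_one, inv_one, sub_self, abs_zero, zero_mul, sub_zero] at hL hR
  have hmain := le_of_tendsto_of_tendsto hL hR (by
    filter_upwards [h.fst.mem hf', h.fst.mem hsum, h.fst.mem hdif,
      hp.eventually (eventually_gt_nhds one_pos), hm.eventually (eventually_gt_nhds one_pos),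
      h₁.fst.mem hf'] with n hn hn1 hn2 hp0 hm0 hn3
    have hr := h.fst.rpos n
    have hT := h.fst.isT
    obtain ⟨C, hC⟩ := h.fst.ctrl
    obtain ⟨C', hC'⟩ := h.snd.ctrl
    obtain ⟨C₁, hC₁⟩ := h₁.fst.ctrl
    obtain ⟨C₁', hC₁'⟩ := h₁.snd.ctrl
    have hb := h.fst.reg.ne _ hn
    have hsb := (h.fst.reg.c11 _ hn).smooth
    have key := chk_ineq hT hb hsb hp0 hm0
      (smooth_map hT hC hb hC' hsb) (smooth_map (isTingley_chk hT) hC₁ hb hC₁' hsb)
    simp only [Pi.div_apply, smul_neg, add_sub_cancel, smul_sub,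
      smul_inv_smul₀ hr.ne'] at key ⊢
    have e5 : a + r n • (rep s n + rep u n) = a + r n • rep s n + r n • rep u n := by rw [smul_add, add_assoc]
    have e6 : a + r n • (rep s n - rep u n) = a + r n • rep s n - r n • rep u n := by rw [smul_sub]; abel
    simp only [e5, ← add_sub_assoc, sub_sub_sub_cancel_right]
    have := div_le_div_of_nonneg_right key (show 0 ≤ r n ^ 2 by positivity)
    refine le_trans (le_of_eq ?_) (this.trans (le_of_eq ?_))
    · field_simp
    · field_simp)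
  simp only [map_add, map_sub, add_sub_cancel, add_sub_cancel_left, sub_sub_cancel_left,
    ← sub_eq_add_neg, map_neg] at hmain e3 ⊢
  rw [e1, e2, e3] at hmain
  linarith

/-- The blow-up of the norm is preserved. -/
theorem bOm_bLin {s : Ultra X} (hs : s ∈ kerU a) : bOm (T a) r (bLin T a s) = bOm a r s := by
  have hLz : ∀ s u : Ultra X, s ∈ kerU a → u ∈ kerU a →
      bOm a r (s + u) + bOm a r (s - u) - 2 * bOm a r s
        = bOm (T a) r (bLin T a (s + u)) + bOm (T a) r (bLin T a (s - u))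
          - 2 * bOm (T a) r (bLin T a s) := by
    intro s u hs hu
    refine le_antisymm (h.second_diff_le hs hu) ?_
    have h2 := h.symm.second_diff_le (h.bLin_mem hs) (h.bLin_mem hu)
    rw [h.fst.isT.left, ← map_add, ← map_sub, h.bLin_left, h.bLin_left, h.bLin_left] at h2
    exact h2
  set D : Ultra X → ℝ := fun x => bOm a r x - bOm (T a) r (bLin T a x) with hD
  have hD2 : ∀ x ∈ kerU a, D ((2 : ℝ) • x) = 2 * D x := by
    intro x hx
    have := hLz x x hx hx
    rw [sub_self, map_zero, h.fst.bOm_zero, h.snd.bOm_zero, ← two_smul ℝ x] at this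
    simp only [hD]
    linarith
  have hB : ∀ x ∈ kerU a, |D x| ≤ 2 * K * ‖x‖ ^ 2 := by
    intro x hx
    have b1 := h.fst.abs_bOm_sub_le 0 x
    have b2 := h.snd.abs_bOm_sub_le 0 (bLin T a x)
    rw [zero_add, h.fst.bOm_zero, h.fst.bPhi_zero] at b1
    rw [zero_add, h.snd.bOm_zero, h.snd.bPhi_zero, h.norm_bLin hx] at b2
    simp only [zero_apply, sub_zero] at b1 b2
    obtain ⟨b3, b4⟩ := abs_le.1 b1
    obtain ⟨b5, b6⟩ := abs_le.1 b2
    simp only [hD]
    rw [abs_le]
    constructor <;> linarith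
  have hiter : ∀ n : ℕ, ∀ x ∈ kerU a, D x = 2 ^ n * D (((2 : ℝ) ^ n)⁻¹ • x) := by
    intro n
    induction n with
    | zero => simp
    | succ n ih =>
      intro x hx
      rw [ih x hx, pow_succ, mul_assoc, ← hD2 _ ((kerU a).smul_mem _ hx)]
      congr 2
      rw [smul_smul]
      congr 1
      field_simp
  have hlim : Tendsto (fun n : ℕ => 2 * K * ‖s‖ ^ 2 * ((2 : ℝ) ^ n)⁻¹) atTop (𝓝 0) := by
    simpa [inv_pow] using (tendsto_pow_atTop_nhds_zero_of_lt_one (by norm_num)
      (by norm_num : (2 : ℝ)⁻¹ < 1)).const_mul (2 * K * ‖s‖ ^ 2)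
  have h0 : |D s| ≤ 0 := ge_of_tendsto' hlim fun n => by
    rw [hiter n s hs, abs_mul, abs_of_pos (by positivity)]
    refine (mul_le_mul_of_nonneg_left (hB _ ((kerU a).smul_mem _ hs)) (by positivity)).trans
      (le_of_eq ?_)
    rw [norm_smul, norm_inv, Real.norm_of_nonneg (by positivity)]
    field_simp
  have := abs_nonpos_iff.1 h0
  simp only [hD] at this
  linarith

/-- The second order blow-up is tangential. -/
theorem bXi_mem {s : Ultra X} (hs : s ∈ kerU a) : bXi T a r s ∈ kerU (T a) := by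
  rw [mem_kerU, h.bDn_bXi, h.bOm_bLin hs, sub_self]

/-- The blow-up of the derivative is tangential. -/
theorem bTh_mem {s u : Ultra X} (hs : s ∈ kerU a) (hu : u ∈ kerU a) :
    bTh T a r s u ∈ kerU (T a) := by
  rw [mem_kerU]
  have key : ∀ t : ℝ, 0 < t → |bDn (T a) (bTh T a r s u)| ≤ t * (‖bDn (T a)‖ * (K * ‖u‖ ^ 2)) := by
    intro t ht
    have h1 := (bDn (T a)).le_opNorm (bXi T a r (s + t • u) - bXi T a r s - bTh T a r s (t • u))
    rw [map_sub, map_sub, mem_kerU.1 (h.bXi_mem ((kerU a).add_mem hs ((kerU a).smul_mem t hu))),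
      mem_kerU.1 (h.bXi_mem hs), sub_zero, zero_sub, norm_neg, map_smul, map_smul, smul_eq_mul,
      norm_mul, Real.norm_of_nonneg ht.le, Real.norm_eq_abs] at h1
    have h3 := h.fst.norm_bXi_sub_le s (t • u)
    rw [map_smul] at h3
    have h2 := h1.trans (mul_le_mul_of_nonneg_left h3 (norm_nonneg _))
    rw [norm_smul, Real.norm_of_nonneg ht.le] at h2
    refine le_of_mul_le_mul_left (h2.trans (le_of_eq ?_)) ht
    ring
  have hlim : Tendsto (fun t : ℝ => t * (‖bDn (T a)‖ * (K * ‖u‖ ^ 2))) (𝓝[>] 0) (𝓝 0) :=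
    ((continuous_id.mul continuous_const).tendsto' 0 0 (zero_mul _)).mono_left nhdsWithin_le_nhds
  exact abs_nonpos_iff.1 (ge_of_tendsto hlim (eventually_nhdsWithin_of_forall fun t ht => key t ht))

end Two

end Vale.Agent.P084.Full
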